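import Vale.Agent.P073.Net.Defs

/-!
# P073, block NET: properties of the dyadic Whitney tiling (SpecNC)
-/

open Set Metric Topology MeasureTheory Filter
open scoped ENNReal

namespace P073.Net

open Vale.Agent.P073.St (V euc IsHomeo)

namespace NC

theorem dyA {m m' : ℕ} (h : m ≤ m') {a b : ℤ} (hab : (b:ℝ) / 2 ^ m' < (a:ℝ) / 2 ^ m) :
    ((b:ℝ) + 1) / 2 ^ m' ≤ (a:ℝ) / 2 ^ m := by
  obtain ⟨n, rfl⟩ := Nat.exists_eq_add_of_le h
  have h2 : (0:ℝ) < 2 ^ m := by positivity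
  have h3 : (0:ℝ) < 2 ^ n := by positivity
  rw [pow_add] at *
  rw [div_lt_div_iff₀ (by positivity) h2] at hab
  rw [div_le_div_iff₀ (by positivity) h2]
  have h4 : (b:ℝ) < a * 2 ^ n := by
    have : (b:ℝ) * 2 ^ m < (a * 2 ^ n) * 2 ^ m := by linarith
    exact lt_of_mul_lt_mul_right this h2.le
  have h5 : b < a * 2 ^ n := by exact_mod_cast h4
  have h6 : b + 1 ≤ a * 2 ^ n := h5
  have h7 : (b:ℝ) + 1 ≤ a * 2 ^ n := by exact_mod_cast h6
  nlinarith

theorem dyB {m m' : ℕ} (h : m ≤ m') {a b : ℤ} (hab : (a:ℝ) / 2 ^ m < ((b:ℝ) + 1) / 2 ^ m') :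
    (a:ℝ) / 2 ^ m ≤ (b:ℝ) / 2 ^ m' := by
  obtain ⟨n, rfl⟩ := Nat.exists_eq_add_of_le h
  have h2 : (0:ℝ) < 2 ^ m := by positivity
  have h3 : (0:ℝ) < 2 ^ n := by positivity
  rw [pow_add] at *
  rw [div_lt_div_iff₀ h2 (by positivity)] at hab
  rw [div_le_div_iff₀ h2 (by positivity)]
  have h4 : (a:ℝ) * 2 ^ n < b + 1 := by
    have : ((a:ℝ) * 2 ^ n) * 2 ^ m < (b + 1) * 2 ^ m := by linarith
    exact lt_of_mul_lt_mul_right this h2.le
  have h5 : a * 2 ^ n < b + 1 := by exact_mod_cast h4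
  have h6 : a * 2 ^ n ≤ b := Int.lt_add_one_iff.1 h5
  have h7 : (a:ℝ) * 2 ^ n ≤ b := by exact_mod_cast h6
  nlinarith

/-- a finer closed cube which meets the open coarser cube lies in the closed coarser cube -/
theorem fine_sub {v : V} {m m' : ℕ} {z z' : Fin 3 → ℤ} (h : m ≤ m') {x : V}
    (hx : x ∈ dyo v m z) (hx' : x ∈ dyc v m' z') :
    ∀ k, (z k : ℝ) / 2 ^ m ≤ z' k / 2 ^ m' ∧ ((z' k : ℝ) + 1) / 2 ^ m' ≤ (z k + 1) / 2 ^ m := by
  intro k
  have h1 := hx k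
  have h2 := hx' k
  constructor
  · exact dyB h (by linarith [h1.1, h2.2])
  · have := dyA (a := z k + 1) (b := z' k) h (by push_cast; linarith [h1.2, h2.1])
    push_cast at this
    exact this

/-- a finer open cube which meets the closed coarser cube lies in the closed coarser cube -/
theorem fine_sub' {v : V} {m m' : ℕ} {z z' : Fin 3 → ℤ} (h : m' ≤ m) {x : V}
    (hx : x ∈ dyo v m z) (hx' : x ∈ dyc v m' z') :
    ∀ k, (z' k : ℝ) / 2 ^ m' ≤ z k / 2 ^ m ∧ ((z k : ℝ) + 1) / 2 ^ m ≤ (z' k + 1) / 2 ^ m' := by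
  intro k
  have h1 := hx k
  have h2 := hx' k
  constructor
  · exact dyB h (by linarith [h1.2, h2.1])
  · have := dyA (a := z' k + 1) (b := z k) h (by push_cast; linarith [h1.1, h2.2])
    push_cast at this
    exact this

theorem dyc_sub {v : V} {m m' : ℕ} {z z' : Fin 3 → ℤ}
    (h : ∀ k, (z k : ℝ) / 2 ^ m ≤ z' k / 2 ^ m' ∧ ((z' k : ℝ) + 1) / 2 ^ m' ≤ (z k + 1) / 2 ^ m) :
    dyc v m' z' ⊆ dyc v m z := by
  intro y hy k
  have h1 := hy k
  have h2 := h k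
  constructor <;> linarith [h1.1, h1.2, h2.1, h2.2]

theorem dist_le {v : V} {m : ℕ} {z : Fin 3 → ℤ} {x y : V} (hx : x ∈ dyc v m z)
    (hy : y ∈ dyc v m z) : ‖x - y‖ ≤ 1 / 2 ^ m := by
  rw [pi_norm_le_iff_of_nonneg (by positivity)]
  intro k
  have h1 := hx k
  have h2 := hy k
  have h3 : ((z k : ℝ) + 1) / 2 ^ m = z k / 2 ^ m + 1 / 2 ^ m := add_div _ _ _
  rw [Real.norm_eq_abs, Pi.sub_apply, abs_le]
  constructor <;> linarith [h1.1, h1.2, h2.1, h2.2]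

/-- the parent cube -/
theorem parent_sub {v : V} {n : ℕ} {z : Fin 3 → ℤ} :
    dyc v (n + 1) z ⊆ dyc v n (fun k => z k / 2) := by
  apply dyc_sub
  intro k
  have h2 : (0:ℝ) < 2 ^ n := by positivity
  constructor
  · rw [div_le_div_iff₀ h2 (by positivity), pow_succ]
    have h : (z k / 2) * 2 ≤ z k := by omega
    have h' : ((z k / 2 : ℤ) : ℝ) * 2 ≤ z k := by exact_mod_cast h
    nlinarith
  · rw [div_le_div_iff₀ (by positivity) h2, pow_succ]
    have h : z k + 1 ≤ (z k / 2 + 1) * 2 := by omega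
    have h' : (z k : ℝ) + 1 ≤ ((z k / 2 : ℤ) + 1 : ℝ) * 2 := by exact_mod_cast h
    nlinarith

theorem upper {Λ : Set V} {ρ : V → ℝ} (hρ : SizeFn Λ ρ) {v : V} {m : ℕ} {z : Fin 3 → ℤ}
    (h : IsTile ρ v m z) {x : V} (hx : x ∈ dyc v m z) : ρ x ≤ 4 / 2 ^ m := by
  cases m with
  | zero => linarith [hρ.le_one x, show (1:ℝ) ≤ 4 / 2 ^ 0 by norm_num]
  | succ n =>
    have h1 := h.2 n (fun k => z k / 2) (Nat.lt_succ_self n) parent_sub
    simp only [Adm, not_forall, not_le] at h1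
    obtain ⟨y, hy, hρy⟩ := h1
    have h2 := hρ.lip x y
    have h3 := dist_le (parent_sub hx) hy
    have h4 : (4:ℝ) / 2 ^ (n + 1) = 1 / 2 ^ n + 1 / 2 ^ n := by
      rw [pow_succ]
      have h2 : (2:ℝ) ^ n ≠ 0 := by positivity
      field_simp
      ring
    linarith

theorem exists_mem (v : V) (m : ℕ) (x : V) : ∃ z, x ∈ dyc v m z := by
  have h2 : (0:ℝ) < 2 ^ m := by positivity
  refine ⟨fun k => ⌊(x k - v k) * 2 ^ m⌋, fun k => ⟨?_, ?_⟩⟩
  · have := Int.floor_le ((x k - v k) * 2 ^ m)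
    have h3 : (⌊(x k - v k) * 2 ^ m⌋ : ℝ) / 2 ^ m ≤ x k - v k := by
      rw [div_le_iff₀ h2]; exact this
    linarith
  · have := (Int.lt_floor_add_one ((x k - v k) * 2 ^ m)).le
    have h3 : x k - v k ≤ ((⌊(x k - v k) * 2 ^ m⌋ : ℝ) + 1) / 2 ^ m := by
      rw [le_div_iff₀ h2]; exact this
    linarith

theorem exists_tile {Λ : Set V} {ρ : V → ℝ} (hρ : SizeFn Λ ρ) (v : V) {x : V} (hx : x ∈ Λ) :
    ∃ m z, IsTile ρ v m z ∧ x ∈ dyc v m z := by
  classical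
  have hex : ∃ m z, x ∈ dyc v m z ∧ Adm ρ v m z := by
    have hp := hρ.pos x hx
    obtain ⟨m, hm⟩ := exists_pow_lt_of_lt_one (half_pos hp) (show (1/2:ℝ) < 1 by norm_num)
    obtain ⟨z, hz⟩ := exists_mem v m x
    refine ⟨m, z, hz, fun y hy => ?_⟩
    have h1 := hρ.lip x y
    have h2 := dist_le hz hy
    have h3 : (1 / 2 ^ m : ℝ) = (1 / 2) ^ m := by rw [div_pow, one_pow]
    rw [h3] at h2 ⊢
    linarith
  obtain ⟨z, hz, hadm⟩ := Nat.find_spec hex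
  refine ⟨Nat.find hex, z, ⟨hadm, fun m' z' hlt hsub hadm' => ?_⟩, hz⟩
  exact Nat.find_min hex hlt ⟨z', hsub hz, hadm'⟩

theorem disj {ρ : V → ℝ} {v : V} {m m' : ℕ} {z z' : Fin 3 → ℤ} (h : IsTile ρ v m z)
    (h' : IsTile ρ v m' z') (hne : (m, z) ≠ (m', z')) : Disjoint (dyo v m z) (dyc v m' z') := by
  rw [Set.disjoint_left]
  intro x hx hx'
  rcases lt_trichotomy m m' with hlt | heq | hgt
  · exact h'.2 m z hlt (dyc_sub (fine_sub hlt.le hx hx')) h.1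
  · subst heq
    apply hne
    have h1 := fine_sub le_rfl hx hx'
    have : z = z' := by
      funext k
      have h2 := h1 k
      have h3 : (0:ℝ) < 2 ^ m := by positivity
      have h4 : (z k : ℝ) ≤ z' k := (div_le_div_iff_of_pos_right h3).1 h2.1
      have h5 : (z' k : ℝ) + 1 ≤ z k + 1 := (div_le_div_iff_of_pos_right h3).1 h2.2
      have h4' : z k ≤ z' k := by exact_mod_cast h4
      have h5' : z' k + 1 ≤ z k + 1 := by exact_mod_cast h5
      omega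
    rw [this]
  · exact h.2 m' z' hgt (dyc_sub (fine_sub' hgt.le hx hx')) h'.1

theorem cont {Λ : Set V} {ρ : V → ℝ} (hρ : SizeFn Λ ρ) : Continuous ρ := by
  have : LipschitzWith 1 ρ := by
    apply LipschitzWith.of_le_add
    intro x y
    rw [dist_eq_norm]
    exact hρ.lip x y
  exact this.continuous

theorem finite {Λ : Set V} {ρ : V → ℝ} (hρ : SizeFn Λ ρ) (v : V) {K : Set V} (hK : K ⊆ Λ)
    (hKc : IsCompact K) :
    {p : ℕ × (Fin 3 → ℤ) | IsTile ρ v p.1 p.2 ∧ (dyc v p.1 p.2 ∩ K).Nonempty}.Finite := by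
  rcases K.eq_empty_or_nonempty with rfl | hne
  · simp
  obtain ⟨x₀, hx₀, hmin⟩ := hKc.exists_isMinOn hne (cont hρ).continuousOn
  have hc := hρ.pos x₀ (hK hx₀)
  obtain ⟨R, hR⟩ := hKc.isBounded.exists_norm_le
  obtain ⟨M, hM⟩ := exists_pow_lt_of_lt_one (show 0 < ρ x₀ / 4 by positivity)
    (show (1/2:ℝ) < 1 by norm_num)
  obtain ⟨N, hN⟩ := exists_nat_ge (2 ^ M * (R + ‖v‖) + 1)
  refine Set.Finite.subset (Set.Finite.prod (Set.finite_Iio M)
    (Set.Finite.pi' (fun _ : Fin 3 => Set.finite_Icc (-(N:ℤ)) (N:ℤ)))) ?_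
  rintro ⟨m, z⟩ ⟨ht, x, hx, hxK⟩
  dsimp only at ht hx
  have h1 : ρ x₀ ≤ 4 / 2 ^ m := (hmin hxK).trans (upper hρ ht hx)
  have hmM : m < M := by
    by_contra hcon
    push Not at hcon
    have h2 : ((1:ℝ) / 2) ^ m ≤ (1 / 2) ^ M :=
      pow_le_pow_of_le_one (by norm_num) (by norm_num) hcon
    have h3 : (4:ℝ) / 2 ^ m = 4 * (1 / 2) ^ m := by rw [div_pow, one_pow]; ring
    rw [h3] at h1
    linarith
  refine ⟨hmM, ?_⟩
  simp only [Set.mem_ofPred_eq, Set.mem_Icc]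
  intro k
  have hxk := hx k
  have hxR : |x k| ≤ R := (norm_le_pi_norm x k).trans (hR x hxK)
  have hvk : |v k| ≤ ‖v‖ := norm_le_pi_norm v k
  rw [abs_le] at hxR hvk
  have h2 : (0:ℝ) < 2 ^ m := by positivity
  have h3 : (2:ℝ) ^ m ≤ 2 ^ M := pow_le_pow_right₀ (by norm_num) hmM.le
  have hRv : 0 ≤ R + ‖v‖ := by
    have := norm_nonneg v
    linarith
  have h6 : (2:ℝ) ^ m * (R + ‖v‖) ≤ 2 ^ M * (R + ‖v‖) := mul_le_mul_of_nonneg_right h3 hRv
  have h4 : (z k : ℝ) ≤ 2 ^ m * (x k - v k) := by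
    have := hxk.1
    have h5 : (z k : ℝ) / 2 ^ m ≤ x k - v k := by linarith
    rw [div_le_iff₀ h2] at h5
    linarith
  have h5 : 2 ^ m * (x k - v k) ≤ (z k : ℝ) + 1 := by
    have := hxk.2
    have h5 : x k - v k ≤ ((z k : ℝ) + 1) / 2 ^ m := by linarith
    rw [le_div_iff₀ h2] at h5
    linarith
  have h7 : 2 ^ m * (x k - v k) ≤ 2 ^ m * (R + ‖v‖) :=
    mul_le_mul_of_nonneg_left (by linarith [hxR.2, hvk.1]) h2.le
  have h8 : -(2 ^ m * (R + ‖v‖)) ≤ 2 ^ m * (x k - v k) := by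
    rw [← mul_neg]
    exact mul_le_mul_of_nonneg_left (by linarith [hxR.1, hvk.2]) h2.le
  constructor
  · have : (-(N:ℝ)) ≤ z k := by linarith
    exact_mod_cast this
  · have : (z k : ℝ) ≤ N := by linarith
    exact_mod_cast this

end NC

/-- **(NC)** properties of the tiling -/
theorem specNC : SpecNC := by
  intro Λ ρ hρ v
  refine ⟨?_, ?_, ?_, ?_, ?_⟩
  · intro m z ht x hx
    by_contra hcon
    have h1 := ht.1 x hx
    have h2 := hρ.off x hcon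
    have h3 : (0:ℝ) < 1 / 2 ^ m := by positivity
    linarith
  · intro x hx
    exact NC.exists_tile hρ v hx
  · intro m z m' z' h h' hne
    exact NC.disj h h' hne
  · intro m z ht x hx
    exact ⟨ht.1 x hx, NC.upper hρ ht hx⟩
  · intro K hK hKc
    exact NC.finite hρ v hK hKc

end P073.Net
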