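import Vale.Agent.P073.ConHomeo
import Vale.Agent.P073.St

/-!
# P073, block NET: definitions

Length of `h` on a straight net `G`, for conical homeomorphisms `h` which have the same coding as
`f` on `G` with respect to a (translated) dyadic Whitney tiling of the target.
-/

open Set Metric Topology MeasureTheory Filter
open scoped ENNReal

namespace P073.Net

open Vale.Agent.P073.St (V euc IsHomeo)

/-- A locally finite (in `Ω`) straight graph: closed segments meeting only in common end points. -/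
structure Graph (Ω : Set V) where
  /-- the edges -/
  ι : Type
  /-- first end point -/
  a : ι → V
  /-- second end point -/
  b : ι → V
  ne : ∀ i, a i ≠ b i
  sub : ∀ i, segment ℝ (a i) (b i) ⊆ Ω
  fin : ∀ K ⊆ Ω, IsCompact K → {i | (segment ℝ (a i) (b i) ∩ K).Nonempty}.Finite
  meet : ∀ i j, i ≠ j →
    segment ℝ (a i) (b i) ∩ segment ℝ (a j) (b j) ⊆ {a i, b i} ∩ {a j, b j}

/-- the parametrisation of the edge `i` by `[0,1]` -/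
noncomputable def Graph.e {Ω : Set V} (G : Graph Ω) (i : G.ι) (t : ℝ) : V :=
  G.a i + t • (G.b i - G.a i)

/-- `f` is absolutely continuous on the edges of `G`, with integrable derivative `D i`. -/
structure ACOn {Ω : Set V} (G : Graph Ω) (f : V → V) (D : G.ι → ℝ → V) : Prop where
  int : ∀ i, IntervalIntegrable (D i) volume 0 1
  eq : ∀ i, ∀ t ∈ Icc (0:ℝ) 1, f (G.e i t) = f (G.e i 0) + ∫ s in (0:ℝ)..t, D i s

/-- A size function for the set `Λ`: positive on `Λ`, non-positive off `Λ`, at most one,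
`1`-Lipschitz for the sup norm. -/
structure SizeFn (Λ : Set V) (ρ : V → ℝ) : Prop where
  lip : ∀ x y, ρ x ≤ ρ y + ‖x - y‖
  pos : ∀ x ∈ Λ, 0 < ρ x
  off : ∀ x, x ∉ Λ → ρ x ≤ 0
  le_one : ∀ x, ρ x ≤ 1

/-- the closed dyadic cube with side `2^{-m}`, lower corner `v + 2^{-m} z` -/
def dyc (v : V) (m : ℕ) (z : Fin 3 → ℤ) : Set V :=
  {x | ∀ k, v k + z k / 2 ^ m ≤ x k ∧ x k ≤ v k + (z k + 1) / 2 ^ m}

/-- the open dyadic cube -/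
def dyo (v : V) (m : ℕ) (z : Fin 3 → ℤ) : Set V :=
  {x | ∀ k, v k + z k / 2 ^ m < x k ∧ x k < v k + (z k + 1) / 2 ^ m}

/-- admissible cubes: the side is at most `ρ` on the cube -/
def Adm (ρ : V → ℝ) (v : V) (m : ℕ) (z : Fin 3 → ℤ) : Prop :=
  ∀ x ∈ dyc v m z, (1 / 2 ^ m : ℝ) ≤ ρ x

/-- the cubes of the tiling: the maximal admissible cubes -/
def IsTile (ρ : V → ℝ) (v : V) (m : ℕ) (z : Fin 3 → ℤ) : Prop :=
  Adm ρ v m z ∧ ∀ m' z', m' < m → dyc v m z ⊆ dyc v m' z' → ¬ Adm ρ v m' z'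

/-- `h` and `f` have the same coding on `G` with respect to the tiling `(ρ, v)`. -/
def SameCode {Ω : Set V} (G : Graph Ω) (f h : V → V) (ρ : V → ℝ) (v : V) : Prop :=
  ∀ i, ∀ t ∈ Icc (0:ℝ) 1, ∀ m z, IsTile ρ v m z →
    (h (G.e i t) ∈ dyc v m z ↔ f (G.e i t) ∈ dyc v m z)

/-- **(TT)**, the topological input, for the tiling `(ρ, v)` -/
def TT (Ω Λ : Set V) (f : V → V) (G : Graph Ω) (ρ : V → ℝ) (v : V) : Prop :=
  ∃ h : ConHomeo Ω Λ, SameCode G f h.toFun ρ v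

/-- the Euclidean length of the curve `q` on the set `s` -/
noncomputable def len (q : ℝ → V) (s : Set ℝ) : ℝ≥0∞ :=
  eVariationOn (fun t => (WithLp.toLp 2 (q t) : EuclideanSpace ℝ (Fin 3))) s

/-- number of points of a set, with values in `ℝ≥0∞` -/
noncomputable def cnt (s : Set ℝ) : ℝ≥0∞ := (s.encard : ℝ≥0∞)

/-! ### The theorem -/

/-- **NET, sharp length form.** -/
def NetLen : Prop :=
  ∀ (Ω Λ : Set V) (f : V → V) (G : Graph Ω) (D : G.ι → ℝ → V), IsOpen Ω → IsOpen Λ →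
    IsHomeo Ω Λ f → ACOn G f D →
    (∀ ρ, SizeFn Λ ρ → ∀ᵐ v : V, TT Ω Λ f G ρ v) →
    ∀ ε : G.ι → ℝ, (∀ i, 0 < ε i) →
    ∃ h : ConHomeo Ω Λ, ∀ i,
      (∀ t ∈ Icc (0:ℝ) 1, ‖h.toFun (G.e i t) - f (G.e i t)‖ ≤ ε i) ∧
      len (fun t => h.toFun (G.e i t)) (Icc 0 1) ≤
        ENNReal.ofReal ((∫ t in (0:ℝ)..1, euc (D i t)) + ε i)

/-- **NET, `W^{1,p}` form**, `1 ≤ p ≤ 2`. -/
def NetLp : Prop :=
  ∀ (p : ℝ) (Ω Λ : Set V) (f : V → V) (G : Graph Ω) (D : G.ι → ℝ → V), 1 ≤ p → p ≤ 2 →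
    IsOpen Ω → IsOpen Λ → IsHomeo Ω Λ f → ACOn G f D →
    (∀ i, IntervalIntegrable (fun t => euc (D i t) ^ p) volume 0 1) →
    (∀ (G' : Graph Ω) (_ : ∀ j : G'.ι, ∃ i : G.ι, segment ℝ (G'.a j) (G'.b j) ⊆
        segment ℝ (G.a i) (G.b i)) ρ, SizeFn Λ ρ → ∀ᵐ v : V, TT Ω Λ f G' ρ v) →
    ∀ ε : G.ι → ℝ, (∀ i, 0 < ε i) →
    ∃ h : ConHomeo Ω Λ, ∀ i,
      (∀ t ∈ Icc (0:ℝ) 1, ‖h.toFun (G.e i t) - f (G.e i t)‖ ≤ ε i) ∧
      (∃ K : NNReal, LipschitzOnWith K (fun t => h.toFun (G.e i t)) (Icc 0 1)) ∧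
      ∫⁻ t in Icc (0:ℝ) 1, ENNReal.ofReal
        (euc (deriv (fun s => h.toFun (G.e i s)) t - D i t) ^ p) ≤ ENNReal.ofReal (ε i)

/-! ### Real analysis: Banach indicatrix on open sets -/

/-- (NA1) measurable majorant of the counting function with the right integral -/
def SpecNA1 : Prop :=
  ∀ (φ ψ : ℝ → ℝ), IntervalIntegrable ψ volume 0 1 →
    (∀ t ∈ Icc (0:ℝ) 1, φ t = φ 0 + ∫ s in (0:ℝ)..t, ψ s) →
    ∀ U : Set ℝ, IsOpen U → U ⊆ Ioo 0 1 →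
    ∃ N : ℝ → ℝ≥0∞, Measurable N ∧ (∀ y, cnt (U ∩ φ ⁻¹' {y}) ≤ N y) ∧
      ∫⁻ y, N y ≤ ∫⁻ t in U, ENNReal.ofReal |ψ t|

/-- (NA2) almost every value is taken finitely often, at interior points with non-zero
derivative -/
def SpecNA2 : Prop :=
  ∀ (φ ψ : ℝ → ℝ), IntervalIntegrable ψ volume 0 1 →
    (∀ t ∈ Icc (0:ℝ) 1, φ t = φ 0 + ∫ s in (0:ℝ)..t, ψ s) →
    ∀ᵐ y : ℝ, (Icc (0:ℝ) 1 ∩ φ ⁻¹' {y}).Finite ∧
      ∀ t ∈ Icc (0:ℝ) 1, φ t = y → t ∈ Ioo (0:ℝ) 1 ∧ ∃ d ≠ 0, HasDerivAt φ d t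

/-! ### Good times -/

/-- the time `t` is good for the curve `g`, the coordinate `k`, the closed obstacle `R`, with
parameter `n` -/
def GoodT (g : ℝ → V) (R : Set V) (k : Fin 3) (n : ℕ) (t : ℝ) : Prop :=
  (∀ x ∈ R, 1 / (n + 1 : ℝ) ≤ ‖x - g t‖) ∧
  ∃ σ : ℝ, (σ = 1 ∨ σ = -1) ∧ ∀ u ∈ Icc (0:ℝ) 1, ‖g u - g t‖ < 1 / (n + 1 : ℝ) →
    1 / (n + 1 : ℝ) * (u - t) ^ 2 ≤ σ * (g u k - g t k) * (u - t)

/-- the set of bad times -/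
def BadS (g : ℝ → V) (R : Set V) (k : Fin 3) (n : ℕ) : Set ℝ :=
  {t | t ∈ Ioo (0:ℝ) 1 ∧ ¬ GoodT g R k n t}

/-- (NB) the bad sets are open, decrease, and carry little variation -/
def SpecNB : Prop :=
  ∀ (g D : ℝ → V) (R : Set V) (k : Fin 3), IntervalIntegrable D volume 0 1 →
    (∀ t ∈ Icc (0:ℝ) 1, g t = g 0 + ∫ s in (0:ℝ)..t, D s) →
    InjOn g (Icc 0 1) → (∀ t ∈ Ioo (0:ℝ) 1, ∃ r > 0, ∀ x ∈ R, r ≤ ‖x - g t‖) →
    (∀ n, IsOpen (BadS g R k n)) ∧ (∀ n, BadS g R k (n + 1) ⊆ BadS g R k n) ∧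
    ∀ η > 0, ∃ n, ∫⁻ t in BadS g R k n, ENNReal.ofReal |D t k| ≤ ENNReal.ofReal η

/-! ### The tiling -/

/-- (NC) properties of the tiling -/
def SpecNC : Prop :=
  ∀ (Λ : Set V) (ρ : V → ℝ), SizeFn Λ ρ → ∀ v : V,
    (∀ m z, IsTile ρ v m z → dyc v m z ⊆ Λ) ∧
    (∀ x ∈ Λ, ∃ m z, IsTile ρ v m z ∧ x ∈ dyc v m z) ∧
    (∀ m z m' z', IsTile ρ v m z → IsTile ρ v m' z' → (m, z) ≠ (m', z') →
      Disjoint (dyo v m z) (dyc v m' z')) ∧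
    (∀ m z, IsTile ρ v m z → ∀ x ∈ dyc v m z, (1 / 2 ^ m : ℝ) ≤ ρ x ∧ ρ x ≤ 4 / 2 ^ m) ∧
    (∀ K ⊆ Λ, IsCompact K →
      {p : ℕ × (Fin 3 → ℤ) | IsTile ρ v p.1 p.2 ∧ (dyc v p.1 p.2 ∩ K).Nonempty}.Finite)

/-- The crossing at time `t` of the curve `g` through the tiling is a regular crossing in
coordinate `k`, from the tile `(m,z)` to the tile `(m',z')`. -/
def Crosses (g : ℝ → V) (ρ : V → ℝ) (v : V) (t : ℝ) (k : Fin 3) (m : ℕ) (z : Fin 3 → ℤ) (m' : ℕ)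
    (z' : Fin 3 → ℤ) : Prop :=
  IsTile ρ v m z ∧ IsTile ρ v m' z' ∧ (m, z) ≠ (m', z') ∧ t ∈ Ioo (0:ℝ) 1 ∧
  g t ∈ dyc v m z ∧ g t ∈ dyc v m' z' ∧
  (∀ m₁ z₁, IsTile ρ v m₁ z₁ → g t ∈ dyc v m₁ z₁ → (m₁, z₁) = (m, z) ∨ (m₁, z₁) = (m', z')) ∧
  (∀ᶠ s in 𝓝[<] t, g s ∈ dyo v m z) ∧ (∀ᶠ s in 𝓝[>] t, g s ∈ dyo v m' z') ∧
  ((g t k = v k + z k / 2 ^ m ∧ g t k = v k + (z' k + 1) / 2 ^ m') ∨
    (g t k = v k + (z k + 1) / 2 ^ m ∧ g t k = v k + z' k / 2 ^ m'))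

/-- The tiling is in general position to the curve `g`: finitely many crossing times, all regular,
and at all other times the curve is in an open tile. -/
def GenPos (g : ℝ → V) (ρ : V → ℝ) (v : V) : Prop :=
  ∃ X : Finset ℝ, (∀ t ∈ X, ∃ k m z m' z', Crosses g ρ v t k m z m' z') ∧
    ∀ t ∈ Icc (0:ℝ) 1, t ∉ X → ∃ m z, IsTile ρ v m z ∧ g t ∈ dyo v m z

/-- (ND) choice of the tiling: size function `ρ` and translation `v` in a given set of full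
measure (the measure class set may depend on `ρ`), such that the bad crossings of every edge have
small total size. `bad i k` are the (open) bad sets. -/
def SpecND : Prop :=
  ∀ (Λ : Set V), IsOpen Λ → ∀ (ι : Type) (_ : Countable ι) (g D : ι → ℝ → V),
    (∀ i, IntervalIntegrable (D i) volume 0 1) →
    (∀ i, ∀ t ∈ Icc (0:ℝ) 1, g i t = g i 0 + ∫ s in (0:ℝ)..t, D i s) →
    (∀ i, InjOn (g i) (Icc 0 1)) →
    (∀ i, MapsTo (g i) (Icc 0 1) Λ) →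
    (∀ K ⊆ Λ, IsCompact K → {i | (g i '' Icc 0 1 ∩ K).Nonempty}.Finite) →
    ∀ (bad : ι → Fin 3 → Set ℝ), (∀ i k, IsOpen (bad i k)) → (∀ i k, bad i k ⊆ Ioo 0 1) →
    ∀ (β δ η : ι → ℝ), (∀ i, 0 < β i) → (∀ i, 0 < δ i) → (∀ i, 0 < η i) →
    (∀ i k, ∫⁻ t in bad i k, ENNReal.ofReal |D i t k| ≤ ENNReal.ofReal (η i * β i)) →
    (∑' i, ENNReal.ofReal (β i)) ≤ ENNReal.ofReal (1 / 100) →
    ∃ ρ, SizeFn Λ ρ ∧ (∀ i, ∀ t ∈ Icc (0:ℝ) 1, ρ (g i t) ≤ δ i) ∧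
      ∀ P : V → Prop, (∀ᵐ v, P v) → ∃ v, P v ∧ (∀ i, GenPos (g i) ρ v) ∧
        ∀ i, ∀ X : Finset ℝ, (∀ t ∈ X, ∃ k m z m' z', Crosses (g i) ρ v t k m z m' z' ∧
          t ∈ bad i k) → (∑ t ∈ X, ρ (g i t)) ≤ η i

/-! ### Reparametrisation -/

/-- (NH1) reparametrisation of the net by a conical homeomorphism of `Ω` -/
def SpecNH1 : Prop :=
  ∀ (Ω : Set V) (G : Graph Ω), IsOpen Ω → ∀ (τ : G.ι → ℝ) (r : G.ι → ℝ → ℝ),
    (∀ i, 0 < τ i) → (∀ i, StrictMonoOn (r i) (Icc 0 1)) → (∀ i, ConicalOn (r i) (Icc 0 1)) →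
    (∀ i, ContinuousOn (r i) (Icc 0 1)) →
    (∀ i, ∀ t ∈ Icc (0:ℝ) 1, (t ≤ τ i ∨ 1 - τ i ≤ t) → r i t = t) →
    ∃ R : ConHomeo Ω Ω, ∀ i, ∀ t ∈ Icc (0:ℝ) 1, R.toFun (G.e i t) = G.e i (r i t)

/-- (NH2) -/
def SpecNH2 : Prop := NetLen → SpecNH1 → NetLp

/-- (NG) the assembly -/
def SpecNG : Prop := SpecNB → SpecNC → SpecND → NetLen

end P073.Net
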