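import Vale.Agent.P073.Spec.Top

/-!
# P073, block NET with closeness: definitions

`NearT C Ω f h ρ v`: if `h x` is in a tile with side `2^{-m}`, then `‖h x - f x‖ ≤ C 2^{-m}`.
The topological input is `TTn` (coding and closeness for the same `h`), the output is as in `NetLp`,
and `‖h x - f x‖ ≤ σ x` for any given positive continuous function `σ` on `Ω`.
-/

open Set Metric Topology MeasureTheory Filter
open scoped ENNReal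

namespace P073.Net

open Vale.Agent.P073.St (V euc IsHomeo)

/-- `h` is close to `f` at the scale of the tiling `(ρ, v)`, with constant `C` -/
def NearT (C : ℝ) (Ω : Set V) (f h : V → V) (ρ : V → ℝ) (v : V) : Prop :=
  ∀ x ∈ Ω, ∀ m z, IsTile ρ v m z → h x ∈ dyc v m z → ‖h x - f x‖ ≤ C / 2 ^ m

/-- **(TT)** with closeness -/
def TTn (C : ℝ) (Ω Λ : Set V) (f : V → V) (G : Graph Ω) (ρ : V → ℝ) (v : V) : Prop :=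
  ∃ h : ConHomeo Ω Λ, SameCode G f h.toFun ρ v ∧ NearT C Ω f h.toFun ρ v

/-- **NET, sharp length form, with closeness** -/
def NetLenN : Prop :=
  ∀ (C : ℝ) (Ω Λ : Set V) (f : V → V) (G : Graph Ω) (D : G.ι → ℝ → V), IsOpen Ω → IsOpen Λ →
    IsHomeo Ω Λ f → ACOn G f D →
    (∀ ρ, SizeFn Λ ρ → ∀ᵐ v : V, TTn C Ω Λ f G ρ v) →
    ∀ ε : G.ι → ℝ, (∀ i, 0 < ε i) →
    ∀ σ : V → ℝ, ContinuousOn σ Ω → (∀ x ∈ Ω, 0 < σ x) →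
    ∃ h : ConHomeo Ω Λ, (∀ x ∈ Ω, ‖h.toFun x - f x‖ ≤ σ x) ∧ ∀ i,
      (∀ t ∈ Icc (0:ℝ) 1, ‖h.toFun (G.e i t) - f (G.e i t)‖ ≤ ε i) ∧
      len (fun t => h.toFun (G.e i t)) (Icc 0 1) ≤
        ENNReal.ofReal ((∫ t in (0:ℝ)..1, euc (D i t)) + ε i)

/-- **NET, `W^{1,p}` form, with closeness**, `1 ≤ p ≤ 2`. -/
def NetLpN : Prop :=
  ∀ (C p : ℝ) (Ω Λ : Set V) (f : V → V) (G : Graph Ω) (D : G.ι → ℝ → V), 1 ≤ p → p ≤ 2 →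
    IsOpen Ω → IsOpen Λ → IsHomeo Ω Λ f → ACOn G f D →
    (∀ i, IntervalIntegrable (fun t => euc (D i t) ^ p) volume 0 1) →
    (∀ ρ, SizeFn Λ ρ → ∀ᵐ v : V, TTn C Ω Λ f G ρ v) →
    ∀ ε : G.ι → ℝ, (∀ i, 0 < ε i) →
    ∀ σ : V → ℝ, ContinuousOn σ Ω → (∀ x ∈ Ω, 0 < σ x) →
    ∃ h : ConHomeo Ω Λ, (∀ x ∈ Ω, ‖h.toFun x - f x‖ ≤ σ x) ∧ ∀ i,
      (∀ t ∈ Icc (0:ℝ) 1, ‖h.toFun (G.e i t) - f (G.e i t)‖ ≤ ε i) ∧
      (∃ K : NNReal, LipschitzOnWith K (fun t => h.toFun (G.e i t)) (Icc 0 1)) ∧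
      ∫⁻ t in Icc (0:ℝ) 1, ENNReal.ofReal
        (euc (deriv (fun s => h.toFun (G.e i s)) t - D i t) ^ p) ≤ ENNReal.ofReal (ε i)

/-- closeness in terms of the size function implies `NearT` -/
theorem NearT.of_rho {C : ℝ} (hC : 0 ≤ C) {Ω : Set V} {f h : V → V} {ρ : V → ℝ} {v : V}
    (H : ∀ x ∈ Ω, ‖h x - f x‖ ≤ C * ρ (h x))
    (hNC : ∀ m z, IsTile ρ v m z → ∀ x ∈ dyc v m z, ρ x ≤ 4 / 2 ^ m) :
    NearT (4 * C) Ω f h ρ v := by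
  intro x hx m z hmz hxm
  refine (H x hx).trans ?_
  have h1 := mul_le_mul_of_nonneg_left (hNC m z hmz _ hxm) hC
  calc C * ρ (h x) ≤ C * (4 / 2 ^ m) := h1
    _ = 4 * C / 2 ^ m := by ring

theorem NearT.rho {C : ℝ} (hC : 0 ≤ C) {Ω Λ : Set V} {f h : V → V} {ρ : V → ℝ} {v : V}
    (H : NearT C Ω f h ρ v) (hm : MapsTo h Ω Λ)
    (hcov : ∀ x ∈ Λ, ∃ m z, IsTile ρ v m z ∧ x ∈ dyc v m z) :
    ∀ x ∈ Ω, ‖h x - f x‖ ≤ C * ρ (h x) := by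
  intro x hx
  obtain ⟨m, z, hmz, hxm⟩ := hcov _ (hm hx)
  refine (H x hx m z hmz hxm).trans ?_
  have h1 := mul_le_mul_of_nonneg_left (hmz.1 _ hxm) hC
  calc C / 2 ^ m = C * (1 / 2 ^ m) := by ring
    _ ≤ C * ρ (h x) := h1

theorem TTn.tt {C : ℝ} {Ω Λ : Set V} {f : V → V} {G : Graph Ω} {ρ : V → ℝ} {v : V}
    (H : TTn C Ω Λ f G ρ v) : TT Ω Λ f G ρ v := by
  obtain ⟨h, hh, _⟩ := H
  exact ⟨h, hh⟩

theorem TTn.mono_const {C C' : ℝ} (hC : C ≤ C') {Ω Λ : Set V} {f : V → V} {G : Graph Ω}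
    {ρ : V → ℝ} {v : V} (H : TTn C Ω Λ f G ρ v) : TTn C' Ω Λ f G ρ v := by
  obtain ⟨h, hh, hn⟩ := H
  exact ⟨h, hh, fun x hx m z hmz hxm => (hn x hx m z hmz hxm).trans (by gcongr)⟩

end P073.Net

namespace P073.Top

open Vale.Agent.P073.St (V Mat euc IsHomeo IsBoundedDomain IsSobolev DiffeoApproximable)
open P073.PLS (Rat3)
open P073.Net (Graph ACOn SizeFn TTn NetLpN)

/-- **Output of the topology part, with closeness.** -/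
def TopTTn (C : ℝ) : Prop :=
  ∀ (Ω Λ : Set V) (f : V → V) (o : V), IsOpen Ω → IsConnected Ω → IsOpen Λ → IsHomeo Ω Λ f →
    RatAC o Ω f → ∀ G : Graph Ω, (∀ i, G.a i ∈ Rat3 o ∧ G.b i ∈ Rat3 o) →
    ∀ ρ : V → ℝ, SizeFn Λ ρ → ∀ᵐ v : V, TTn C Ω Λ f G ρ v

/-- **Input of the analysis part, with closeness.** -/
def NetOutN : Prop :=
  ∀ (p : ℝ) (Ω Λ : Set V) (f : V → V) (o : V) (G : Graph Ω) (D : G.ι → ℝ → V), 1 ≤ p → p ≤ 2 →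
    IsOpen Ω → IsConnected Ω → IsOpen Λ → IsHomeo Ω Λ f → RatAC o Ω f →
    (∀ i, G.a i ∈ Rat3 o ∧ G.b i ∈ Rat3 o) → ACOn G f D →
    (∀ i, IntervalIntegrable (fun t => euc (D i t) ^ p) volume 0 1) →
    ∀ ε : G.ι → ℝ, (∀ i, 0 < ε i) →
    ∀ σ : V → ℝ, ContinuousOn σ Ω → (∀ x ∈ Ω, 0 < σ x) →
    ∃ h : ConHomeo Ω Λ, (∀ x ∈ Ω, ‖h.toFun x - f x‖ ≤ σ x) ∧ ∀ i,
      (∀ t ∈ Icc (0:ℝ) 1, ‖h.toFun (G.e i t) - f (G.e i t)‖ ≤ ε i) ∧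
      (∃ K : NNReal, LipschitzOnWith K (fun t => h.toFun (G.e i t)) (Icc 0 1)) ∧
      ∫⁻ t in Icc (0:ℝ) 1, ENNReal.ofReal
        (euc (deriv (fun s => h.toFun (G.e i s)) t - D i t) ^ p) ≤ ENNReal.ofReal (ε i)

theorem netOutN_of {C : ℝ} (hTT : TopTTn C) (hN : NetLpN) : NetOutN := by
  intro p Ω Λ f o G D hp1 hp2 hΩ hc hΛ hf hAC hG hD hDp ε hε σ hσ hσ0
  exact hN C p Ω Λ f G D hp1 hp2 hΩ hΛ hf hD hDp
    (fun ρ hρ => hTT Ω Λ f o hΩ hc hΛ hf hAC G hG ρ hρ) ε hε σ hσ hσ0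

end P073.Top
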