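import Vale.Agent.P073.Net.Push

/-!
# P073, block NET: cone moves in boxes, radial shifts of the faces of a cube, the squeeze
-/

open Set Metric Topology MeasureTheory Filter

namespace P073.Net

open Vale.Agent.P073.St (V)

set_option linter.unusedSectionVars false

/-- general ray formula for a push map -/
theorem push_ray {E : Type*} [NormedAddCommGroup E] [NormedSpace ℝ E]
    {J : Type*} [Fintype J] [Nonempty J] {A : J → E →L[ℝ] ℝ} {c : J → ℝ} {a u y : E}
    (ha : ∀ j, A j a + c j = 1) (hy : ∀ j, 0 ≤ A j y + c j) (hy' : ∃ j, A j y + c j = 0)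
    {r : ℝ} (hr : r ∈ Icc (0:ℝ) 1) :
    push A c u (a + r • (y - a)) = a + u + r • (y - (a + u)) := by
  have hd : depth A c (a + r • (y - a)) = 1 - r := by
    have key : ∀ j, A j (a + r • (y - a)) + c j = (1 - r) + r * (A j y + c j) := by
      intro j
      have := ha j
      simp only [map_add, map_smul, map_sub, smul_eq_mul]
      linear_combination (1 - r) * this
    refine depth_eq_of (sub_nonneg.2 hr.2) (fun j => ?_) ?_
    · rw [key]; have := mul_nonneg hr.1 (hy j); linarith
    · obtain ⟨j, hj⟩ := hy'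
      exact ⟨j, by rw [key, hj]; ring⟩
  rw [push, hd]
  module

/-! ### Cone moves in boxes -/

/-- the functionals of the box `[lo,hi]` based at `a` -/
noncomputable def boxA (lo hi a : V) (j : Fin 3 × Bool) : V →L[ℝ] ℝ :=
  if j.2 then (-(hi j.1 - a j.1)⁻¹) • ContinuousLinearMap.proj (R := ℝ) (φ := fun _ => ℝ) j.1
  else ((a j.1 - lo j.1)⁻¹) • ContinuousLinearMap.proj (R := ℝ) (φ := fun _ => ℝ) j.1

/-- the constants of the box -/
noncomputable def boxc (lo hi a : V) (j : Fin 3 × Bool) : ℝ :=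
  if j.2 then (hi j.1 - a j.1)⁻¹ * hi j.1 else -((a j.1 - lo j.1)⁻¹ * lo j.1)

theorem box_true (lo hi a x : V) (k : Fin 3) :
    boxA lo hi a (k, true) x + boxc lo hi a (k, true) = (hi k - a k)⁻¹ * (hi k - x k) := by
  simp [boxA, boxc]; ring

theorem box_false (lo hi a x : V) (k : Fin 3) :
    boxA lo hi a (k, false) x + boxc lo hi a (k, false) = (a k - lo k)⁻¹ * (x k - lo k) := by
  simp [boxA, boxc]; ring

/-- strictly inside a box -/
def InBox (lo hi a : V) : Prop := ∀ k, lo k < a k ∧ a k < hi k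

theorem box_cond {lo hi a b : V} (ha : InBox lo hi a) (hb : InBox lo hi b) (j : Fin 3 × Bool) :
    0 < 1 + boxA lo hi a j (b - a) := by
  obtain ⟨k, s⟩ := j
  have h1 := ha k
  have h2 := hb k
  cases s
  · have : (1:ℝ) + boxA lo hi a (k, false) (b - a) = (a k - lo k)⁻¹ * (b k - lo k) := by
      have h3 : a k - lo k ≠ 0 := by linarith
      simp only [boxA, Bool.false_eq_true, if_false, smul_apply,
        ContinuousLinearMap.proj_apply, Pi.sub_apply, smul_eq_mul]
      field_simp
      ring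
    rw [this]
    exact mul_pos (inv_pos.2 (by linarith)) (by linarith)
  · have : (1:ℝ) + boxA lo hi a (k, true) (b - a) = (hi k - a k)⁻¹ * (hi k - b k) := by
      have h3 : hi k - a k ≠ 0 := by linarith
      simp only [boxA, if_true, smul_apply,
        ContinuousLinearMap.proj_apply, Pi.sub_apply, smul_eq_mul]
      field_simp
      ring
    rw [this]
    exact mul_pos (inv_pos.2 (by linarith)) (by linarith)

/-- the cone move of the box `[lo,hi]` taking `a` to `b`, as a homeomorphism of the space -/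
noncomputable def coneMove (lo hi a b : V) (ha : InBox lo hi a) (hb : InBox lo hi b) :
    ConHomeo (univ : Set V) (univ : Set V) :=
  pushHomeo (boxA lo hi a) (boxc lo hi a) (b - a) (box_cond ha hb)

theorem coneMove_eq_self {lo hi a b : V} {ha : InBox lo hi a} {hb : InBox lo hi b} {x : V}
    (hx : ∃ k, x k ≤ lo k ∨ hi k ≤ x k) : (coneMove lo hi a b ha hb).toFun x = x := by
  obtain ⟨k, hk | hk⟩ := hx
  · have h : depth (boxA lo hi a) (boxc lo hi a) x = 0 := by
      refine depth_eq_of_le (j := (k, false)) ?_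
      rw [box_false]
      have := ha k
      exact mul_nonpos_of_nonneg_of_nonpos (inv_nonneg.2 (by linarith)) (by linarith)
    show push _ _ _ x = x
    rw [push, h, zero_smul, add_zero]
  · have h : depth (boxA lo hi a) (boxc lo hi a) x = 0 := by
      refine depth_eq_of_le (j := (k, true)) ?_
      rw [box_true]
      have := ha k
      exact mul_nonpos_of_nonneg_of_nonpos (inv_nonneg.2 (by linarith)) (by linarith)
    show push _ _ _ x = x
    rw [push, h, zero_smul, add_zero]

theorem coneMove_ray {lo hi a b : V} {ha : InBox lo hi a} {hb : InBox lo hi b} {y : V}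
    (hy : ∀ k, lo k ≤ y k ∧ y k ≤ hi k) (hy' : ∃ k, y k = lo k ∨ y k = hi k) {r : ℝ}
    (hr : r ∈ Icc (0:ℝ) 1) :
    (coneMove lo hi a b ha hb).toFun (a + r • (y - a)) = b + r • (y - b) := by
  show push _ _ _ _ = _
  rw [push_ray (y := y) _ _ _ hr]
  · rw [add_sub_cancel]
  · rintro ⟨k, s⟩
    have := ha k
    cases s
    · rw [box_false]; exact inv_mul_cancel₀ (by linarith)
    · rw [box_true]; exact inv_mul_cancel₀ (by linarith)
  · rintro ⟨k, s⟩
    have := ha k
    have h2 := hy k
    cases s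
    · rw [box_false]; exact mul_nonneg (inv_nonneg.2 (by linarith)) (by linarith)
    · rw [box_true]; exact mul_nonneg (inv_nonneg.2 (by linarith)) (by linarith)
  · obtain ⟨k, hk | hk⟩ := hy'
    · exact ⟨(k, false), by rw [box_false, hk, sub_self, mul_zero]⟩
    · exact ⟨(k, true), by rw [box_true, hk, sub_self, mul_zero]⟩

theorem coneMove_apex {lo hi a b : V} {ha : InBox lo hi a} {hb : InBox lo hi b} :
    (coneMove lo hi a b ha hb).toFun a = b := by
  have hlh : ∀ k, lo k ≤ hi k := fun k => ((ha k).1.trans (ha k).2).le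
  have := coneMove_ray (ha := ha) (hb := hb) (y := lo) (fun k => ⟨le_refl _, hlh k⟩)
    ⟨0, Or.inl rfl⟩ (r := 0) ⟨le_refl _, zero_le_one⟩
  simpa using this

/-- the cone move changes points by multiples of `b - a` -/
theorem coneMove_sub (lo hi a b : V) (ha : InBox lo hi a) (hb : InBox lo hi b) (x : V) :
    ∃ s : ℝ, 0 ≤ s ∧ (coneMove lo hi a b ha hb).toFun x = x + s • (b - a) :=
  ⟨_, depth_nonneg _ _ x, rfl⟩

theorem coneMove_inBox {lo hi a b : V} {ha : InBox lo hi a} {hb : InBox lo hi b} {x : V}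
    (hx : InBox lo hi x) : InBox lo hi ((coneMove lo hi a b ha hb).toFun x) := by
  by_contra h
  have h' : ∃ k, ((coneMove lo hi a b ha hb).toFun x) k ≤ lo k ∨
      hi k ≤ ((coneMove lo hi a b ha hb).toFun x) k := by
    unfold InBox at h
    push Not at h
    obtain ⟨k, hk⟩ := h
    refine ⟨k, ?_⟩
    by_contra h2
    push Not at h2
    exact absurd (hk h2.1) (not_le.2 h2.2)
  have h1 := coneMove_eq_self (ha := ha) (hb := hb) h'
  have h2 := (coneMove lo hi a b ha hb).injOn (mem_univ _) (mem_univ _) h1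
  rw [h2] at h
  exact h hx

/-! ### Radial shift of a face -/

/-- functionals of the radial shift -/
noncomputable def psiA (k : Fin 3) (σ : ℝ) (j : Fin 3 × Bool) : V →L[ℝ] ℝ :=
  σ • ContinuousLinearMap.proj (R := ℝ) (φ := fun _ => ℝ) k +
    (if j.1 = k then 0 else if j.2 then ContinuousLinearMap.proj (R := ℝ) (φ := fun _ => ℝ) j.1
      else -ContinuousLinearMap.proj (R := ℝ) (φ := fun _ => ℝ) j.1)

theorem psiA_self (k : Fin 3) (σ : ℝ) (s : Bool) (x : V) : psiA k σ (k, s) x = σ * x k := by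
  simp [psiA]

theorem psiA_true {k j : Fin 3} (σ : ℝ) (x : V) (h : j ≠ k) :
    psiA k σ (j, true) x = σ * x k + x j := by
  simp [psiA, h]

theorem psiA_false {k j : Fin 3} (σ : ℝ) (x : V) (h : j ≠ k) :
    psiA k σ (j, false) x = σ * x k - x j := by
  simp [psiA, h, sub_eq_add_neg]

theorem psi_cond {k : Fin 3} {σ : ℝ} {w : V} (hw : w k = 0) (hw' : ∀ j, |w j| < 1)
    (j : Fin 3 × Bool) : 0 < 1 + psiA k σ j w := by
  obtain ⟨j, s⟩ := j
  by_cases h : j = k
  · subst h; rw [psiA_self, hw]; norm_num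
  · have h1 := abs_lt.1 (hw' j)
    cases s
    · rw [psiA_false σ w h, hw]; linarith
    · rw [psiA_true σ w h, hw]; linarith

/-- the radial shift of the face `σ e_k` by `w` -/
noncomputable def psi (k : Fin 3) (σ : ℝ) (w : V) (hw : w k = 0) (hw' : ∀ j, |w j| < 1) :
    ConHomeo (univ : Set V) (univ : Set V) :=
  pushHomeo (psiA k σ) 0 w (psi_cond hw hw')

theorem psi_eq_self {k : Fin 3} {σ : ℝ} {w : V} {hw : w k = 0} {hw' : ∀ j, |w j| < 1} {x : V}
    (hx : σ * x k ≤ 0 ∨ ∃ j, j ≠ k ∧ σ * x k ≤ |x j|) : (psi k σ w hw hw').toFun x = x := by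
  have h : depth (psiA k σ) 0 x = 0 := by
    rcases hx with hx | ⟨j, hj, hx⟩
    · exact depth_eq_of_le (j := (k, true)) (by rw [psiA_self]; simpa using hx)
    · rcases le_abs.1 hx with h | h
      · exact depth_eq_of_le (j := (j, false)) (by
          rw [psiA_false σ x hj]; simp only [Pi.zero_apply, add_zero]; linarith)
      · exact depth_eq_of_le (j := (j, true)) (by
          rw [psiA_true σ x hj]; simp only [Pi.zero_apply, add_zero]; linarith)
  show push _ _ _ x = x
  rw [push, h, zero_smul, add_zero]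

theorem psi_axis {k : Fin 3} {σ : ℝ} (hσ : σ * σ = 1) {w : V} {hw : w k = 0}
    {hw' : ∀ j, |w j| < 1} {r : ℝ} (hr : 0 ≤ r) :
    (psi k σ w hw hw').toFun (r • Pi.single k σ) = r • (Pi.single k σ + w) := by
  have h : depth (psiA k σ) 0 (r • (Pi.single k σ : V)) = r := by
    have e1 : (r • (Pi.single k σ : V)) k = r * σ := by simp
    refine depth_eq_of hr ?_ ⟨(k, true), ?_⟩
    · rintro ⟨j, s⟩
      by_cases h : j = k
      · subst h
        rw [psiA_self, e1]
        simp only [Pi.zero_apply, add_zero]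
        nlinarith
      · have e2 : (r • (Pi.single k σ : V)) j = 0 := by simp [h]
        cases s
        · rw [psiA_false σ _ h, e1, e2]
          simp only [Pi.zero_apply, add_zero]
          nlinarith
        · rw [psiA_true σ _ h, e1, e2]
          simp only [Pi.zero_apply, add_zero]
          nlinarith
    · rw [psiA_self, e1]
      simp only [Pi.zero_apply, add_zero]
      linear_combination r * hσ
  show push _ _ _ _ = _
  rw [push, h, smul_add]

theorem norm_eq_of_coord {x : V} {k : Fin 3} {l : ℝ} (h1 : ∀ j, |x j| ≤ l) (h2 : |x k| = l) :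
    ‖x‖ = l := by
  apply le_antisymm
  · rw [pi_norm_le_iff_of_nonneg (h2 ▸ abs_nonneg _)]
    intro j; exact h1 j
  · rw [← h2]; exact norm_le_pi_norm x k

theorem psi_norm {k : Fin 3} {σ : ℝ} (hσ : σ * σ = 1) {w : V} {hw : w k = 0}
    {hw' : ∀ j, |w j| < 1} (x : V) : ‖(psi k σ w hw hw').toFun x‖ = ‖x‖ := by
  show ‖push _ _ _ x‖ = _
  rcases (depth_nonneg (psiA k σ) 0 x).eq_or_lt with h0 | h0
  · rw [push, ← h0, zero_smul, add_zero]
  · have habs : |σ| = 1 := by
      have := abs_mul_abs_self σ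
      rw [hσ] at this
      nlinarith [abs_nonneg σ]
    set d := depth (psiA k σ) 0 x with hd
    have hk : d ≤ σ * x k := by
      have := depth_le h0 (k, true)
      rw [psiA_self] at this
      simpa using this
    have hj : ∀ j, j ≠ k → |x j| ≤ σ * x k - d := by
      intro j hj
      rw [abs_le]
      have h1 := depth_le h0 (j, true)
      have h2 := depth_le h0 (j, false)
      rw [psiA_true σ x hj] at h1
      rw [psiA_false σ x hj] at h2
      simp only [Pi.zero_apply, add_zero] at h1 h2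
      constructor <;> linarith
    have hxk : |x k| = σ * x k := by
      have : |σ * x k| = |x k| := by rw [abs_mul, habs, one_mul]
      rw [← this, abs_of_nonneg (h0.le.trans hk)]
    have n1 : ‖x‖ = σ * x k := by
      refine norm_eq_of_coord (k := k) (fun j => ?_) hxk
      by_cases h : j = k
      · rw [h, hxk]
      · exact (hj j h).trans (by linarith)
    rw [n1]
    have ek : (push (psiA k σ) 0 w x) k = x k := by simp [push, hw]
    refine norm_eq_of_coord (k := k) (fun j => ?_) (by rw [ek, hxk])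
    by_cases h : j = k
    · rw [h, ek, hxk]
    · have : (push (psiA k σ) 0 w x) j = x j + d * w j := by simp [push, hd]
      rw [this]
      calc |x j + d * w j| ≤ |x j| + |d * w j| := abs_add_le _ _
        _ = |x j| + d * |w j| := by rw [abs_mul, abs_of_pos h0]
        _ ≤ (σ * x k - d) + d * 1 := by
            gcongr
            · exact hj j h
            · exact (hw' j).le
        _ = σ * x k := by ring

/-! ### The squeeze -/

/-- clamping of a real number to `[-r, r]` -/
noncomputable def clamp (r t : ℝ) : ℝ := max (-r) (min t r)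

theorem clamp_of_abs_le {r t : ℝ} (h : |t| ≤ r) : clamp r t = t := by
  rw [abs_le] at h
  rw [clamp, min_eq_left h.2, max_eq_right h.1]

theorem clamp_of_le {r t : ℝ} (hr : 0 ≤ r) (h : r ≤ t) : clamp r t = r := by
  rw [clamp, min_eq_right h, max_eq_right (by linarith)]

theorem clamp_of_le_neg {r t : ℝ} (hr : 0 ≤ r) (h : t ≤ -r) : clamp r t = -r := by
  rw [clamp, min_eq_left (by linarith), max_eq_left h]

theorem clamp_zero (t : ℝ) : clamp 0 t = 0 := by
  rw [clamp, neg_zero]
  rcases le_total t 0 with h | h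
  · rw [min_eq_left h, max_eq_left h]
  · rw [min_eq_right h, max_self]

/-- one coordinate of the squeeze -/
noncomputable def qq (κ r t : ℝ) : ℝ := κ * t + (1 - κ) * clamp r t

theorem abs_qq {κ r t : ℝ} (hκ : 0 < κ) (hr : 0 ≤ r) :
    |qq κ r t| = κ * |t| + (1 - κ) * min |t| r := by
  unfold qq
  rcases le_total |t| r with h | h
  · rw [clamp_of_abs_le h, min_eq_left h]
    have : κ * t + (1 - κ) * t = t := by ring
    rw [this]; ring
  · rw [min_eq_right h]
    rcases le_total 0 t with ht | ht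
    · rw [abs_of_nonneg ht] at h ⊢
      rw [clamp_of_le hr h, abs_of_nonneg]
      nlinarith
    · rw [abs_of_nonpos ht] at h ⊢
      rw [clamp_of_le_neg hr (by linarith), abs_of_nonpos]
      · ring
      · nlinarith

theorem qmono {κ r s t : ℝ} (hκ : 0 < κ) (hst : s ≤ t) :
    κ * s + (1 - κ) * min s r ≤ κ * t + (1 - κ) * min t r := by
  rcases le_total t r with h | h
  · rw [min_eq_left h, min_eq_left (hst.trans h)]; nlinarith
  · rw [min_eq_right h]
    rcases le_total s r with h' | h'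
    · rw [min_eq_left h']; nlinarith
    · rw [min_eq_right h']; nlinarith

theorem clamp_qq {κ r t : ℝ} (hκ : 0 < κ) (hr : 0 ≤ r) : clamp r (qq κ r t) = clamp r t := by
  unfold qq
  rcases le_total |t| r with h | h
  · rw [clamp_of_abs_le h]
    have : κ * t + (1 - κ) * t = t := by ring
    rw [this, clamp_of_abs_le h]
  · rcases le_total 0 t with ht | ht
    · rw [abs_of_nonneg ht] at h
      rw [clamp_of_le hr h, clamp_of_le hr]
      nlinarith
    · rw [abs_of_nonpos ht] at h
      have h' : t ≤ -r := by linarith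
      rw [clamp_of_le_neg hr h', clamp_of_le_neg hr]
      nlinarith

/-- the squeeze with profile `θ` -/
noncomputable def sqz (κ : ℝ) (θ : ℝ → ℝ) (x : V) : V := fun k => qq κ (θ ‖x‖) (x k)

/-- the action of the squeeze on norms -/
noncomputable def lam (κ : ℝ) (θ : ℝ → ℝ) (l : ℝ) : ℝ := κ * l + (1 - κ) * min l (θ l)

theorem exists_norm_eq (x : V) : ∃ k, |x k| = ‖x‖ := by
  obtain ⟨k, _, hk⟩ := Finset.exists_mem_eq_sup' (Finset.univ_nonempty (α := Fin 3))
    (fun k => ‖x k‖)
  refine ⟨k, ?_⟩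
  rw [← Real.norm_eq_abs, ← hk]
  apply le_antisymm
  · exact Finset.sup'_le _ _ fun j _ => norm_le_pi_norm x j
  · rw [pi_norm_le_iff_of_nonempty]
    intro j
    exact Finset.le_sup' (f := fun k => ‖x k‖) (Finset.mem_univ j)

theorem norm_sqz {κ : ℝ} {θ : ℝ → ℝ} (hκ : 0 < κ) (hθ : ∀ l, 0 ≤ θ l) (x : V) :
    ‖sqz κ θ x‖ = lam κ θ ‖x‖ := by
  obtain ⟨k, hk⟩ := exists_norm_eq x
  refine norm_eq_of_coord (k := k) (fun j => ?_) ?_
  · rw [sqz, abs_qq hκ (hθ _)]
    exact qmono hκ (norm_le_pi_norm x j)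
  · rw [sqz, abs_qq hκ (hθ _), hk, lam]

/-- the relation between the profiles of a squeeze and its inverse -/
def Prof (κ : ℝ) (θ θ' : ℝ → ℝ) : Prop :=
  ∀ l, 0 ≤ l → (θ l ≤ l ∧ θ' (lam κ θ l) = θ l) ∨ (l ≤ θ l ∧ l ≤ θ' l)

theorem sqz_left_inv {κ : ℝ} {θ θ' : ℝ → ℝ} (hκ : 0 < κ) (hθ : ∀ l, 0 ≤ θ l)
    (h : Prof κ θ θ') (x : V) : sqz κ⁻¹ θ' (sqz κ θ x) = x := by
  have hn := norm_sqz (θ := θ) hκ hθ x
  funext k
  show qq κ⁻¹ (θ' ‖sqz κ θ x‖) (qq κ (θ ‖x‖) (x k)) = x k
  rw [hn]
  rcases h ‖x‖ (norm_nonneg _) with ⟨_, h2⟩ | ⟨h1, h2⟩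
  · rw [h2, qq, clamp_qq hκ (hθ _), qq]
    field_simp
    ring
  · have e1 : |x k| ≤ θ ‖x‖ := (norm_le_pi_norm x k).trans h1
    have e2 : qq κ (θ ‖x‖) (x k) = x k := by
      rw [qq, clamp_of_abs_le e1]; ring
    have e3 : lam κ θ ‖x‖ = ‖x‖ := by rw [lam, min_eq_left h1]; ring
    rw [e2, e3, qq, clamp_of_abs_le ((norm_le_pi_norm x k).trans h2)]
    ring

theorem conicalOn_coord (k : Fin 3) : ConicalOn (fun x : V => x k) univ :=
  conicalOn_linear (LinearMap.proj (R := ℝ) (φ := fun _ : Fin 3 => ℝ) k)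
    (IsOpen.conicalSet isOpen_univ)

theorem conicalOn_abs_coord (k : Fin 3) : ConicalOn (fun x : V => |x k|) univ := by
  have : (fun x : V => |x k|) = fun x : V => max (x k) (-(x k)) := by
    funext x; exact abs_eq_max_neg
  rw [this]
  exact (conicalOn_coord k).rmax (conicalOn_coord k).neg (by fun_prop) (by fun_prop)

theorem norm_eq_max (x : V) : ‖x‖ = max (max |x 0| |x 1|) |x 2| := by
  apply le_antisymm
  · rw [pi_norm_le_iff_of_nonneg (by positivity)]
    intro j
    fin_cases j
    · exact (le_max_left _ _).trans (le_max_left _ _)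
    · exact (le_max_right _ _).trans (le_max_left _ _)
    · exact le_max_right _ _
  · exact max_le (max_le (norm_le_pi_norm x 0) (norm_le_pi_norm x 1)) (norm_le_pi_norm x 2)

theorem conicalOn_norm : ConicalOn (fun x : V => ‖x‖) univ := by
  have : (fun x : V => ‖x‖) = fun x : V => max (max |x 0| |x 1|) |x 2| := by
    funext x; exact norm_eq_max x
  rw [this]
  exact ((conicalOn_abs_coord 0).rmax (conicalOn_abs_coord 1) (by fun_prop) (by fun_prop)).rmax
    (conicalOn_abs_coord 2) (by fun_prop) (by fun_prop)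

theorem conicalOn_sqz {κ : ℝ} {θ : ℝ → ℝ} (hθc : Continuous θ) (hθ : ConicalOn θ univ) :
    ConicalOn (sqz κ θ) univ ∧ Continuous (sqz κ θ) := by
  have c1 : Continuous fun x : V => θ ‖x‖ := hθc.comp continuous_norm
  have h1 : ConicalOn (fun x : V => θ ‖x‖) univ :=
    hθ.comp conicalOn_norm (mapsTo_univ _ _) continuous_norm.continuousOn
  have key : ∀ k : Fin 3, ConicalOn (fun x : V => qq κ (θ ‖x‖) (x k)) univ ∧
      Continuous (fun x : V => qq κ (θ ‖x‖) (x k)) := by
    intro k
    have c2 : Continuous fun x : V => min (x k) (θ ‖x‖) := (continuous_apply k).min c1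
    have c3 : Continuous fun x : V => clamp (θ ‖x‖) (x k) := c1.neg.max c2
    have h2 : ConicalOn (fun x : V => min (x k) (θ ‖x‖)) univ :=
      (conicalOn_coord k).rmin h1 (by fun_prop) c1.continuousOn
    have h3 : ConicalOn (fun x : V => clamp (θ ‖x‖) (x k)) univ :=
      h1.neg.rmax h2 c1.neg.continuousOn c2.continuousOn
    refine ⟨?_, ?_⟩
    · exact ((conicalOn_coord k).const_smul κ).add (h3.const_smul (1 - κ))
    · exact (continuous_const.mul (continuous_apply k)).add (continuous_const.mul c3)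
  refine ⟨fun x hx => conicalWithinAt_pi (IsOpen.conicalSet isOpen_univ x hx)
    fun k => (key k).1 x hx, ?_⟩
  exact continuous_pi fun k => (key k).2

/-- the squeeze as a conical homeomorphism -/
noncomputable def sqzHomeo (κ : ℝ) (θ θ' : ℝ → ℝ) (hκ : 0 < κ) (hθ : ∀ l, 0 ≤ θ l)
    (hθ' : ∀ l, 0 ≤ θ' l) (h : Prof κ θ θ') (h' : Prof κ⁻¹ θ' θ) (hc : Continuous θ)
    (hc' : Continuous θ') (hk : ConicalOn θ univ) (hk' : ConicalOn θ' univ) :
    ConHomeo (univ : Set V) (univ : Set V) where
  toFun := sqz κ θ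
  invFun := sqz κ⁻¹ θ'
  mapsTo := mapsTo_univ _ _
  mapsTo_inv := mapsTo_univ _ _
  left_inv := fun x _ => sqz_left_inv hκ hθ h x
  right_inv := fun x _ => by
    have := sqz_left_inv (θ := θ') (θ' := θ) (inv_pos.2 hκ) hθ' h' x
    rwa [inv_inv] at this
  cont := (conicalOn_sqz hc hk).2.continuousOn
  cont_inv := (conicalOn_sqz hc' hk').2.continuousOn
  conical := (conicalOn_sqz hc hk).1

/-- the profile -/
noncomputable def chi (δ l : ℝ) : ℝ := max 0 (1 - (1 - l) / δ)

/-- the profile of the inverse -/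
noncomputable def chi' (κ δ l : ℝ) : ℝ := max 0 ((l - κ * (1 - δ)) / (1 - κ * (1 - δ)))

theorem prof_chi {κ δ : ℝ} (hκ : 0 < κ) (hκ1 : κ < 1) (hδ : 0 < δ) (hδ1 : δ < 1) :
    Prof κ (chi δ) (chi' κ δ) := by
  have hc : κ * (1 - δ) < 1 := by nlinarith
  have hc0 : 0 < κ * (1 - δ) := mul_pos hκ (by linarith)
  intro l hl
  rcases le_total l (1 - δ) with h1 | h1
  · left
    have e : chi δ l = 0 := by
      rw [chi, max_eq_left]
      rw [sub_nonpos, le_div_iff₀ hδ]; linarith
    refine ⟨by rw [e]; exact hl, ?_⟩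
    rw [e, lam, e, min_eq_right hl, chi', max_eq_left]
    apply div_nonpos_of_nonpos_of_nonneg
    · nlinarith
    · linarith
  · rcases le_total l 1 with h2 | h2
    · left
      have e : chi δ l = 1 - (1 - l) / δ := by
        rw [chi, max_eq_right]
        rw [sub_nonneg, div_le_one hδ]; linarith
      have e' : chi δ l ≤ l := by
        rw [e, sub_le_comm, le_div_iff₀ hδ]
        nlinarith
      refine ⟨e', ?_⟩
      have e0 : 0 ≤ chi δ l := le_max_left _ _
      have e1 : l = 1 - δ + δ * chi δ l := by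
        rw [e]; field_simp; ring
      have e2 : lam κ (chi δ) l - κ * (1 - δ) = (1 - κ * (1 - δ)) * chi δ l := by
        rw [lam, min_eq_right e']
        nth_rewrite 1 [e1]
        ring
      rw [chi', e2, mul_div_cancel_left₀ _ (by linarith), max_eq_right e0]
    · right
      refine ⟨?_, ?_⟩
      · rw [chi]
        refine le_max_of_le_right ?_
        have : (1 - l) / δ ≤ 1 - l := by
          rw [div_le_iff₀ hδ]; nlinarith
        linarith
      · rw [chi']
        refine le_max_of_le_right ?_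
        rw [le_div_iff₀ (by linarith)]
        nlinarith

theorem prof_chi' {κ δ : ℝ} (hκ : 0 < κ) (hκ1 : κ < 1) (hδ : 0 < δ) (hδ1 : δ < 1) :
    Prof κ⁻¹ (chi' κ δ) (chi δ) := by
  have hc : κ * (1 - δ) < 1 := by nlinarith
  have hc0 : 0 < κ * (1 - δ) := mul_pos hκ (by linarith)
  intro l hl
  rcases le_total l (κ * (1 - δ)) with h1 | h1
  · left
    have e : chi' κ δ l = 0 := by
      rw [chi', max_eq_left]
      exact div_nonpos_of_nonpos_of_nonneg (by linarith) (by linarith)
    refine ⟨by rw [e]; exact hl, ?_⟩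
    rw [e, lam, e, min_eq_right hl, chi, max_eq_left]
    rw [sub_nonpos, le_div_iff₀ hδ]
    have : κ⁻¹ * l ≤ 1 - δ := by
      rw [inv_mul_eq_div, div_le_iff₀ hκ]; linarith
    linarith
  · rcases le_total l 1 with h2 | h2
    · left
      have hcc : (0:ℝ) < 1 - κ * (1 - δ) := by linarith
      have e : chi' κ δ l = (l - κ * (1 - δ)) / (1 - κ * (1 - δ)) := by
        rw [chi', max_eq_right]
        exact div_nonneg (by linarith) hcc.le
      have e' : chi' κ δ l ≤ l := by
        rw [e, div_le_iff₀ hcc]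
        nlinarith
      refine ⟨e', ?_⟩
      have e0 : 0 ≤ chi' κ δ l := le_max_left _ _
      have e1 : l = κ * (1 - δ) + (1 - κ * (1 - δ)) * chi' κ δ l := by
        rw [e]; field_simp; ring
      have e2 : lam κ⁻¹ (chi' κ δ) l = 1 - δ + δ * chi' κ δ l := by
        rw [lam, min_eq_right e']
        nth_rewrite 1 [e1]
        field_simp
        ring
      rw [chi, e2]
      have : 1 - (1 - (1 - δ + δ * chi' κ δ l)) / δ = chi' κ δ l := by
        field_simp
        ring
      rw [this, max_eq_right e0]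
    · right
      refine ⟨?_, ?_⟩
      · rw [chi']
        refine le_max_of_le_right ?_
        rw [le_div_iff₀ (by linarith)]
        nlinarith
      · rw [chi]
        refine le_max_of_le_right ?_
        have : (1 - l) / δ ≤ 1 - l := by
          rw [div_le_iff₀ hδ]; nlinarith
        linarith

theorem conical_real_affine (p q : ℝ) :
    ConicalOn (fun l : ℝ => max 0 (p * l + q)) univ ∧ Continuous (fun l : ℝ => max 0 (p * l + q)) := by
  refine ⟨?_, by fun_prop⟩
  have h := conicalOn_clm_add (E := ℝ) (F := ℝ) (p • ContinuousLinearMap.id ℝ ℝ) q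
  have h' : ConicalOn (fun l : ℝ => p * l + q) univ := by
    refine h.congr fun l _ => by simp
  exact (conicalOn_const 0 (IsOpen.conicalSet isOpen_univ)).rmax h' continuousOn_const
    (by fun_prop)

theorem chi_conical (δ : ℝ) : ConicalOn (chi δ) univ ∧ Continuous (chi δ) := by
  have := conical_real_affine (1 / δ) (1 - 1 / δ)
  have e : (fun l : ℝ => max 0 (1 / δ * l + (1 - 1 / δ))) = chi δ := by
    funext l; rw [chi]; congr 1; ring
  rwa [e] at this

theorem chi'_conical (κ δ : ℝ) : ConicalOn (chi' κ δ) univ ∧ Continuous (chi' κ δ) := by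
  have := conical_real_affine (1 / (1 - κ * (1 - δ))) (-(κ * (1 - δ)) / (1 - κ * (1 - δ)))
  have e : (fun l : ℝ => max 0 (1 / (1 - κ * (1 - δ)) * l + (-(κ * (1 - δ)) / (1 - κ * (1 - δ)))))
      = chi' κ δ := by
    funext l; rw [chi']; congr 1; ring
  rwa [e] at this

/-- **The squeeze** of the cube `‖x‖ ≤ 1` -/
noncomputable def phi (κ δ : ℝ) (hκ : 0 < κ) (hκ1 : κ < 1) (hδ : 0 < δ) (hδ1 : δ < 1) :
    ConHomeo (univ : Set V) (univ : Set V) :=
  sqzHomeo κ (chi δ) (chi' κ δ) hκ (fun _ => le_max_left _ _) (fun _ => le_max_left _ _)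
    (prof_chi hκ hκ1 hδ hδ1) (prof_chi' hκ hκ1 hδ hδ1) (chi_conical δ).2 (chi'_conical κ δ).2
    (chi_conical δ).1 (chi'_conical κ δ).1

theorem phi_of_one_le {κ δ : ℝ} {hκ : 0 < κ} {hκ1 : κ < 1} {hδ : 0 < δ} {hδ1 : δ < 1} {x : V}
    (hx : 1 ≤ ‖x‖) : (phi κ δ hκ hκ1 hδ hδ1).toFun x = x := by
  funext k
  show qq κ (chi δ ‖x‖) (x k) = x k
  have h1 : ‖x‖ ≤ chi δ ‖x‖ := by
    rw [chi]
    refine le_max_of_le_right ?_
    have : (1 - ‖x‖) / δ ≤ 1 - ‖x‖ := by
      rw [div_le_iff₀ hδ]; nlinarith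
    linarith
  rw [qq, clamp_of_abs_le ((norm_le_pi_norm x k).trans h1)]
  ring

theorem phi_of_le {κ δ : ℝ} {hκ : 0 < κ} {hκ1 : κ < 1} {hδ : 0 < δ} {hδ1 : δ < 1} {x : V}
    (hx : ‖x‖ ≤ 1 - δ) : (phi κ δ hκ hκ1 hδ hδ1).toFun x = κ • x := by
  funext k
  show qq κ (chi δ ‖x‖) (x k) = κ * x k
  have e : chi δ ‖x‖ = 0 := by
    rw [chi, max_eq_left]
    rw [sub_nonpos, le_div_iff₀ hδ]; linarith
  rw [qq, e, clamp_zero, mul_zero, add_zero]

theorem chi_nonneg (δ l : ℝ) : 0 ≤ chi δ l := le_max_left _ _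

theorem phi_axis {κ δ : ℝ} {hκ : 0 < κ} {hκ1 : κ < 1} {hδ : 0 < δ} {hδ1 : δ < 1} {k : Fin 3}
    {σ : ℝ} (hσ : σ = 1 ∨ σ = -1) {r : ℝ} (hr : 0 ≤ r) :
    (phi κ δ hκ hκ1 hδ hδ1).toFun (r • Pi.single k σ) =
      (lam κ (chi δ) r) • (Pi.single k σ : V) := by
  have hn : ‖r • (Pi.single k σ : V)‖ = r := by
    rw [norm_smul, Pi.norm_single, Real.norm_of_nonneg hr]
    rcases hσ with h | h <;> simp [h]
  funext j
  show qq κ (chi δ ‖r • (Pi.single k σ : V)‖) ((r • (Pi.single k σ : V)) j) = _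
  rw [hn]
  by_cases h : j = k
  · subst h
    simp only [Pi.smul_apply, Pi.single_eq_same, smul_eq_mul]
    rw [qq, lam]
    rcases hσ with rfl | rfl
    · rcases le_total r (chi δ r) with h | h
      · rw [min_eq_left h, clamp_of_abs_le (by rw [mul_one, abs_of_nonneg hr]; exact h)]; ring
      · rw [min_eq_right h, clamp_of_le (chi_nonneg _ _) (by linarith)]; ring
    · rcases le_total r (chi δ r) with h | h
      · rw [min_eq_left h, clamp_of_abs_le (by
          rw [mul_neg, mul_one, abs_neg, abs_of_nonneg hr]; exact h)]; ring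
      · rw [min_eq_right h, clamp_of_le_neg (chi_nonneg _ _) (by linarith)]; ring
  · simp only [Pi.smul_apply, smul_eq_mul, Pi.single_eq_of_ne h, mul_zero]
    rw [qq, clamp_of_abs_le (by rw [abs_zero]; exact chi_nonneg _ _)]
    ring

theorem phi_norm_lt {κ δ : ℝ} {hκ : 0 < κ} {hκ1 : κ < 1} {hδ : 0 < δ} {hδ1 : δ < 1} {x : V}
    (hx : ‖x‖ < 1) : ‖(phi κ δ hκ hκ1 hδ hδ1).toFun x‖ < 1 := by
  by_contra h
  push Not at h
  have h1 := phi_of_one_le (hκ := hκ) (hκ1 := hκ1) (hδ := hδ) (hδ1 := hδ1) h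
  have h2 := (phi κ δ hκ hκ1 hδ hδ1).injOn (mem_univ _) (mem_univ _) h1
  rw [h2] at h
  linarith

end P073.Net
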