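import Vale.Agent.P073.Net.Maps

/-!
# P073, block NET: lengths of curves
-/

open Set Metric Topology MeasureTheory Filter
open scoped ENNReal NNReal

namespace P073.Net

open Vale.Agent.P073.St (V euc)

/-- variation for the sup norm -/
noncomputable def var (q : ℝ → V) (s : Set ℝ) : ℝ≥0∞ := eVariationOn q s

theorem euc_eq (v : V) : euc v = ‖(WithLp.toLp 2 v : EuclideanSpace ℝ (Fin 3))‖ := by
  rw [EuclideanSpace.norm_eq, euc]
  congr 1
  refine Finset.sum_congr rfl fun i _ => ?_
  simp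

theorem euc_nonneg (v : V) : 0 ≤ euc v := Real.sqrt_nonneg _

theorem euc_le (v : V) : euc v ≤ 2 * ‖v‖ := by
  rw [euc]
  apply Real.sqrt_le_iff.2
  refine ⟨by positivity, ?_⟩
  have h : ∀ i, v i ^ 2 ≤ ‖v‖ ^ 2 := fun i => by
    rw [← sq_abs (v i)]
    have := norm_le_pi_norm v i
    rw [Real.norm_eq_abs] at this
    exact pow_le_pow_left₀ (abs_nonneg _) this 2
  calc ∑ i, v i ^ 2 ≤ ∑ _i : Fin 3, ‖v‖ ^ 2 := Finset.sum_le_sum fun i _ => h i
    _ = 3 * ‖v‖ ^ 2 := by simp
    _ ≤ (2 * ‖v‖) ^ 2 := by nlinarith [sq_nonneg ‖v‖]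

theorem norm_le_euc (v : V) : ‖v‖ ≤ euc v := by
  rw [pi_norm_le_iff_of_nonneg (euc_nonneg v)]
  intro i
  rw [euc, Real.norm_eq_abs]
  apply Real.le_sqrt_of_sq_le
  rw [sq_abs]
  exact Finset.single_le_sum (f := fun i => v i ^ 2) (fun j _ => sq_nonneg _) (Finset.mem_univ i)

theorem euc_smul (c : ℝ) (v : V) : euc (c • v) = |c| * euc v := by
  rw [euc_eq, euc_eq, WithLp.toLp_smul, norm_smul, Real.norm_eq_abs]

theorem euc_add_le (v w : V) : euc (v + w) ≤ euc v + euc w := by
  rw [euc_eq, euc_eq, euc_eq, WithLp.toLp_add]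
  exact norm_add_le _ _

theorem euc_neg (v : V) : euc (-v) = euc v := by
  have := euc_smul (-1) v
  simpa using this

theorem euc_sub_comm (v w : V) : euc (v - w) = euc (w - v) := by
  rw [← euc_neg, neg_sub]

/-- the Euclidean distance as an extended distance -/
theorem edist_toLp (v w : V) :
    edist (WithLp.toLp 2 v : EuclideanSpace ℝ (Fin 3)) (WithLp.toLp 2 w) =
      ENNReal.ofReal (euc (v - w)) := by
  rw [edist_dist, dist_eq_norm, euc_eq, WithLp.toLp_sub]

/-- general comparison principle for variations -/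
theorem eVariationOn_le_of_edist {E F : Type*} [PseudoEMetricSpace E] [PseudoEMetricSpace F]
    {f : ℝ → E} {g : ℝ → F} {s : Set ℝ} {C : ℝ≥0∞}
    (h : ∀ x ∈ s, ∀ y ∈ s, edist (f x) (f y) ≤ C * edist (g x) (g y)) :
    eVariationOn f s ≤ C * eVariationOn g s := by
  apply iSup_le
  rintro ⟨n, u, hu, hus⟩
  calc ∑ i ∈ Finset.range n, edist (f (u (i + 1))) (f (u i))
      ≤ ∑ i ∈ Finset.range n, C * edist (g (u (i + 1))) (g (u i)) :=
        Finset.sum_le_sum fun i _ => h _ (hus _) _ (hus _)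
    _ = C * ∑ i ∈ Finset.range n, edist (g (u (i + 1))) (g (u i)) := by rw [Finset.mul_sum]
    _ ≤ C * eVariationOn g s := by gcongr; exact eVariationOn.sum_le hu hus

theorem eVariationOn_le_add {E F G : Type*} [PseudoEMetricSpace E] [PseudoEMetricSpace F]
    [PseudoEMetricSpace G]
    {f : ℝ → E} {g : ℝ → F} {k : ℝ → G} {s : Set ℝ}
    (h : ∀ x ∈ s, ∀ y ∈ s, edist (f x) (f y) ≤ edist (g x) (g y) + edist (k x) (k y)) :
    eVariationOn f s ≤ eVariationOn g s + eVariationOn k s := by
  apply iSup_le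
  rintro ⟨n, u, hu, hus⟩
  calc ∑ i ∈ Finset.range n, edist (f (u (i + 1))) (f (u i))
      ≤ ∑ i ∈ Finset.range n, (edist (g (u (i + 1))) (g (u i)) +
          edist (k (u (i + 1))) (k (u i))) :=
        Finset.sum_le_sum fun i _ => h _ (hus _) _ (hus _)
    _ = ∑ i ∈ Finset.range n, edist (g (u (i + 1))) (g (u i)) +
        ∑ i ∈ Finset.range n, edist (k (u (i + 1))) (k (u i)) := Finset.sum_add_distrib
    _ ≤ eVariationOn g s + eVariationOn k s :=
        add_le_add (eVariationOn.sum_le hu hus) (eVariationOn.sum_le hu hus)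

theorem len_le_var (q : ℝ → V) (s : Set ℝ) : len q s ≤ 2 * var q s := by
  refine eVariationOn_le_of_edist fun x _ y _ => ?_
  rw [edist_toLp, edist_dist, dist_eq_norm]
  calc ENNReal.ofReal (euc (q x - q y)) ≤ ENNReal.ofReal (2 * ‖q x - q y‖) :=
        ENNReal.ofReal_le_ofReal (euc_le _)
    _ = 2 * ENNReal.ofReal ‖q x - q y‖ := by
        rw [ENNReal.ofReal_mul (by norm_num)]; norm_num

theorem len_add {q : ℝ → V} {a b c : ℝ} (hab : a ≤ b) (hbc : b ≤ c) :
    len q (Icc a c) = len q (Icc a b) + len q (Icc b c) := by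
  have := eVariationOn.Icc_add_Icc (fun t => (WithLp.toLp 2 (q t) : EuclideanSpace ℝ (Fin 3)))
    (s := univ) hab hbc (mem_univ b)
  simp only [univ_inter] at this
  exact this.symm

theorem var_add {q : ℝ → V} {a b c : ℝ} (hab : a ≤ b) (hbc : b ≤ c) :
    var q (Icc a c) = var q (Icc a b) + var q (Icc b c) := by
  have := eVariationOn.Icc_add_Icc q (s := univ) hab hbc (mem_univ b)
  simp only [univ_inter] at this
  exact this.symm

theorem len_congr {q q' : ℝ → V} {s : Set ℝ} (h : EqOn q q' s) : len q s = len q' s :=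
  eVariationOn.congr fun t ht => by simp only; rw [h ht]

theorem var_congr {q q' : ℝ → V} {s : Set ℝ} (h : EqOn q q' s) : var q s = var q' s :=
  eVariationOn.congr h

/-- a map which is `L`-Lipschitz for the sup norm -/
theorem var_comp_le {Θ : V → V} {L : ℝ} (hL : 0 ≤ L) (hΘ : ∀ x y, ‖Θ x - Θ y‖ ≤ L * ‖x - y‖)
    (q : ℝ → V) (s : Set ℝ) : var (Θ ∘ q) s ≤ ENNReal.ofReal L * var q s := by
  refine eVariationOn_le_of_edist fun x _ y _ => ?_
  rw [edist_dist, dist_eq_norm, edist_dist, dist_eq_norm, ← ENNReal.ofReal_mul hL]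
  exact ENNReal.ofReal_le_ofReal (hΘ _ _)

/-- monotone motions along a segment -/
theorem len_segment {φ : ℝ → ℝ} {a b c d : ℝ} (hφ : MonotoneOn φ (Icc a b) ∨ AntitoneOn φ (Icc a b))
    (hm : ∀ t ∈ Icc a b, φ t ∈ Icc c d) (p w : V) :
    len (fun t => p + φ t • w) (Icc a b) ≤ ENNReal.ofReal ((d - c) * euc w) := by
  rcases lt_or_ge b a with hab | hab
  · rw [Icc_eq_empty (not_le.2 hab)]
    have : len (fun t => p + φ t • w) ∅ = 0 := eVariationOn.subsingleton _ subsingleton_empty
    rw [this]; exact zero_le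
  have ha : a ∈ Icc a b := ⟨le_refl _, hab⟩
  have hb : b ∈ Icc a b := ⟨hab, le_refl _⟩
  have h1 : len (fun t => p + φ t • w) (Icc a b) ≤
      ENNReal.ofReal (euc w) * eVariationOn φ (Icc a b) := by
    refine eVariationOn_le_of_edist fun x _ y _ => ?_
    rw [edist_toLp, edist_dist, dist_eq_norm, ← ENNReal.ofReal_mul (euc_nonneg _)]
    refine ENNReal.ofReal_le_ofReal ?_
    have : p + φ x • w - (p + φ y • w) = (φ x - φ y) • w := by module
    rw [this, euc_smul, Real.norm_eq_abs, mul_comm]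
  have h2 : eVariationOn φ (Icc a b) ≤ ENNReal.ofReal (d - c) := by
    rcases hφ with hφ | hφ
    · have := (hφ.eVariationOn_eq (a := a) (b := b) ha hb).le
      rw [inter_self] at this
      refine this.trans (ENNReal.ofReal_le_ofReal ?_)
      have := hm a ha; have := hm b hb
      simp only [mem_Icc] at *
      linarith
    · have h3 : MonotoneOn (fun t => - φ t) (Icc a b) := fun x hx y hy hxy =>
        neg_le_neg (hφ hx hy hxy)
      have := (h3.eVariationOn_eq (a := a) (b := b) ha hb).le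
      rw [inter_self] at this
      have e : eVariationOn φ (Icc a b) = eVariationOn (fun t => - φ t) (Icc a b) := by
        apply le_antisymm
        · have := eVariationOn_le_of_edist (f := φ) (g := fun t => - φ t) (s := Icc a b) (C := 1)
            (fun x _ y _ => by rw [one_mul, edist_neg_neg])
          rwa [one_mul] at this
        · have := eVariationOn_le_of_edist (g := φ) (f := fun t => - φ t) (s := Icc a b) (C := 1)
            (fun x _ y _ => by rw [one_mul, edist_neg_neg])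
          rwa [one_mul] at this
      rw [e]
      refine this.trans (ENNReal.ofReal_le_ofReal ?_)
      have := hm a ha; have := hm b hb
      simp only [mem_Icc] at *
      linarith
  calc _ ≤ _ := h1
    _ ≤ ENNReal.ofReal (euc w) * ENNReal.ofReal (d - c) := by gcongr
    _ = ENNReal.ofReal ((d - c) * euc w) := by
        rw [← ENNReal.ofReal_mul (euc_nonneg _), mul_comm]

/-! ### Conical curves on compact intervals have bounded variation -/

/-- a conical curve near a time, to the right -/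
theorem conical_right {F : Type*} [NormedAddCommGroup F] [NormedSpace ℝ F] {q : ℝ → F}
    {a b t : ℝ} (hq : ConicalOn q (Icc a b)) (ht : t ∈ Icc a b)
    (htb : t < b) : ∃ r > 0, t + r ≤ b ∧ ∃ w : F, ∀ s ∈ Icc (0:ℝ) r, q (t + s) = q t + s • w := by
  obtain ⟨r, hr, H⟩ := hq t ht
  refine ⟨min r (b - t), lt_min hr (by linarith), by
    have := min_le_right r (b - t); linarith, (min r (b - t))⁻¹ • (q (t + min r (b - t)) - q t),
    fun s hs => ?_⟩
  set ρ := min r (b - t) with hρ
  have hρ0 : 0 < ρ := lt_min hr (by linarith)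
  have h1 : ‖ρ‖ ≤ r := by rw [Real.norm_of_nonneg hρ0.le]; exact min_le_left _ _
  have h2 : t + ρ ∈ Icc a b := ⟨by linarith [ht.1], by have := min_le_right r (b - t); linarith⟩
  have h3 := (H ρ h1 h2 (s / ρ) ⟨div_nonneg hs.1 hρ0.le, (div_le_one hρ0).2 hs.2⟩).2
  rw [smul_eq_mul, div_mul_cancel₀ _ hρ0.ne'] at h3
  rw [h3, smul_smul, div_eq_mul_inv]

/-- a conical curve near a time, to the left -/
theorem conical_left {F : Type*} [NormedAddCommGroup F] [NormedSpace ℝ F] {q : ℝ → F}
    {a b t : ℝ} (hq : ConicalOn q (Icc a b)) (ht : t ∈ Icc a b)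
    (hta : a < t) : ∃ r > 0, a ≤ t - r ∧ ∃ w : F, ∀ s ∈ Icc (0:ℝ) r, q (t - s) = q t + s • w := by
  obtain ⟨r, hr, H⟩ := hq t ht
  refine ⟨min r (t - a), lt_min hr (by linarith), by
    have := min_le_right r (t - a); linarith, (min r (t - a))⁻¹ • (q (t - min r (t - a)) - q t),
    fun s hs => ?_⟩
  set ρ := min r (t - a) with hρ
  have hρ0 : 0 < ρ := lt_min hr (by linarith)
  have h1 : ‖-ρ‖ ≤ r := by rw [norm_neg, Real.norm_of_nonneg hρ0.le]; exact min_le_left _ _
  have h2 : t + -ρ ∈ Icc a b := ⟨by have := min_le_right r (t - a); linarith, by linarith [ht.2]⟩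
  have h3 := (H (-ρ) h1 h2 (s / ρ) ⟨div_nonneg hs.1 hρ0.le, (div_le_one hρ0).2 hs.2⟩).2
  rw [smul_eq_mul, mul_neg, div_mul_cancel₀ _ hρ0.ne', ← sub_eq_add_neg, ← sub_eq_add_neg] at h3
  rw [h3, smul_smul, div_eq_mul_inv]

theorem var_affine_le {q : ℝ → V} {s : Set ℝ} {t : ℝ} {w : V} {r : ℝ}
    (hs : s ⊆ Icc t (t + r)) (h : ∀ s ∈ Icc (0:ℝ) r, q (t + s) = q t + s • w) :
    var q s ≤ ENNReal.ofReal (r * ‖w‖) := by
  have e : ∀ x ∈ s, q x = q t + (x - t) • w := fun x hx => by
    have := h (x - t) ⟨by linarith [(hs hx).1], by linarith [(hs hx).2]⟩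
    rwa [add_sub_cancel] at this
  have h1 : var q s ≤ ENNReal.ofReal ‖w‖ * eVariationOn (fun x : ℝ => x) s := by
    refine eVariationOn_le_of_edist fun x hx y hy => ?_
    rw [e x hx, e y hy, edist_dist, dist_eq_norm, edist_dist, dist_eq_norm,
      ← ENNReal.ofReal_mul (norm_nonneg _)]
    refine ENNReal.ofReal_le_ofReal ?_
    have : q t + (x - t) • w - (q t + (y - t) • w) = (x - y) • w := by module
    rw [this, norm_smul, mul_comm]
  refine h1.trans ?_
  rcases lt_or_ge r 0 with hr | hr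
  · have : s = ∅ := by
      rw [Icc_eq_empty (by linarith)] at hs
      exact subset_empty_iff.1 hs
    rw [this]
    have : eVariationOn (fun x : ℝ => x) (∅ : Set ℝ) = 0 :=
      eVariationOn.subsingleton _ subsingleton_empty
    rw [this, mul_zero]; exact zero_le
  have h2 : eVariationOn (fun x : ℝ => x) s ≤ ENNReal.ofReal r := by
    refine (eVariationOn.mono _ hs).trans ?_
    have hm : MonotoneOn (fun x : ℝ => x) (Icc t (t + r)) := fun x _ y _ h => h
    have := (hm.eVariationOn_eq (a := t) (b := t + r) ⟨le_refl _, by linarith⟩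
      ⟨by linarith, le_refl _⟩).le
    rw [inter_self] at this
    simpa using this
  calc _ ≤ ENNReal.ofReal ‖w‖ * ENNReal.ofReal r := by gcongr
    _ = ENNReal.ofReal (r * ‖w‖) := by rw [← ENNReal.ofReal_mul (norm_nonneg _), mul_comm]

theorem var_affine_le' {q : ℝ → V} {s : Set ℝ} {t : ℝ} {w : V} {r : ℝ}
    (hs : s ⊆ Icc (t - r) t) (h : ∀ s ∈ Icc (0:ℝ) r, q (t - s) = q t + s • w) :
    var q s ≤ ENNReal.ofReal (r * ‖w‖) := by
  have e : ∀ x ∈ s, q x = q t + (t - x) • w := fun x hx => by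
    have := h (t - x) ⟨by linarith [(hs hx).2], by linarith [(hs hx).1]⟩
    rwa [sub_sub_cancel] at this
  have h1 : var q s ≤ ENNReal.ofReal ‖w‖ * eVariationOn (fun x : ℝ => x) s := by
    refine eVariationOn_le_of_edist fun x hx y hy => ?_
    rw [e x hx, e y hy, edist_dist, dist_eq_norm, edist_dist, dist_eq_norm,
      ← ENNReal.ofReal_mul (norm_nonneg _)]
    refine ENNReal.ofReal_le_ofReal ?_
    have : q t + (t - x) • w - (q t + (t - y) • w) = (y - x) • w := by module
    rw [this, norm_smul, mul_comm, ← norm_neg (y - x), neg_sub]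
  refine h1.trans ?_
  rcases lt_or_ge r 0 with hr | hr
  · have : s = ∅ := by
      rw [Icc_eq_empty (by linarith)] at hs
      exact subset_empty_iff.1 hs
    rw [this]
    have : eVariationOn (fun x : ℝ => x) (∅ : Set ℝ) = 0 :=
      eVariationOn.subsingleton _ subsingleton_empty
    rw [this, mul_zero]; exact zero_le
  have h2 : eVariationOn (fun x : ℝ => x) s ≤ ENNReal.ofReal r := by
    refine (eVariationOn.mono _ hs).trans ?_
    have hm : MonotoneOn (fun x : ℝ => x) (Icc (t - r) t) := fun x _ y _ h => h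
    have := (hm.eVariationOn_eq (a := t - r) (b := t) ⟨le_refl _, by linarith⟩
      ⟨by linarith, le_refl _⟩).le
    rw [inter_self] at this
    simpa using this
  calc _ ≤ ENNReal.ofReal ‖w‖ * ENNReal.ofReal r := by gcongr
    _ = ENNReal.ofReal (r * ‖w‖) := by rw [← ENNReal.ofReal_mul (norm_nonneg _), mul_comm]

/-- **bounded variation of conical curves** -/
theorem conical_var_lt_top {q : ℝ → V} {a b : ℝ} (hab : a ≤ b) (hq : ConicalOn q (Icc a b)) :
    var q (Icc a b) < ⊤ := by
  -- connectedness argument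
  set S : Set ℝ := {x | x ∈ Icc a b ∧ var q (Icc a x) < ⊤} with hS
  have haS : a ∈ S := by
    refine ⟨⟨le_refl _, hab⟩, ?_⟩
    have : var q (Icc a a) = 0 := eVariationOn.subsingleton _ (by rw [Icc_self]; exact subsingleton_singleton)
    rw [this]; exact ENNReal.zero_lt_top
  have hbdd : BddAbove S := ⟨b, fun x hx => hx.1.2⟩
  set c := sSup S with hc
  have hac : a ≤ c := le_csSup hbdd haS
  have hcb : c ≤ b := csSup_le ⟨a, haS⟩ fun x hx => hx.1.2
  have hcS : c ∈ S := by
    refine ⟨⟨hac, hcb⟩, ?_⟩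
    rcases hac.eq_or_lt with h | h
    · rw [← h]; exact haS.2
    · obtain ⟨r, hr, hra, w, hw⟩ := conical_left hq ⟨hac, hcb⟩ h
      obtain ⟨x, hxS, hx⟩ := exists_lt_of_lt_csSup ⟨a, haS⟩ (show c - r < c by linarith)
      have hxc : x ≤ c := le_csSup hbdd hxS
      rw [var_add hxS.1.1 hxc]
      refine ENNReal.add_lt_top.2 ⟨hxS.2, ?_⟩
      exact (var_affine_le' (fun y hy => ⟨by linarith [hy.1], hy.2⟩) hw).trans_lt
        ENNReal.ofReal_lt_top
  rcases hcb.eq_or_lt with h | h
  · rw [← h]; exact hcS.2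
  · exfalso
    obtain ⟨r, hr, hrb, w, hw⟩ := conical_right hq ⟨hac, hcb⟩ h
    have : c + r ∈ S := by
      refine ⟨⟨by linarith, hrb⟩, ?_⟩
      rw [var_add hac (by linarith)]
      refine ENNReal.add_lt_top.2 ⟨hcS.2, ?_⟩
      exact (var_affine_le (fun y hy => hy) hw).trans_lt ENNReal.ofReal_lt_top
    have := le_csSup hbdd this
    linarith

theorem ConicalOn.icc_mono {q : ℝ → V} {a b c d : ℝ} (hq : ConicalOn q (Icc a b))
    (h : Icc c d ⊆ Icc a b) : ConicalOn q (Icc c d) :=
  hq.mono (Convex.conicalSet (convex_Icc c d)) h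

end P073.Net
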