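import Vale.Agent.P073.Net.Defs

/-!
# P073, block NET: general position of the tiling (helper465)
-/

open Set Metric Topology MeasureTheory Filter
open scoped ENNReal

namespace P073.Net

open Vale.Agent.P073.St (V euc IsHomeo)

namespace ND1

/-- the planar projections of the curve are null -/
theorem volume_planar {φ ψ χ : ℝ → ℝ} (hNA2 : SpecNA2) (hψ : IntervalIntegrable ψ volume 0 1)
    (hφ : ∀ t ∈ Icc (0:ℝ) 1, φ t = φ 0 + ∫ s in (0:ℝ)..t, ψ s)
    (hφc : ContinuousOn φ (Icc 0 1)) (hχ : ContinuousOn χ (Icc 0 1)) :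
    (volume : Measure (ℝ × ℝ)) ((fun t => (φ t, χ t)) '' Icc (0:ℝ) 1) = 0 := by
  have hC : IsCompact ((fun t => (φ t, χ t)) '' Icc (0:ℝ) 1) :=
    isCompact_Icc.image_of_continuousOn (hφc.prodMk hχ)
  rw [Measure.volume_eq_prod, Measure.measure_prod_null hC.isClosed.measurableSet]
  filter_upwards [hNA2 φ ψ hψ hφ] with y hy
  have hsub : Prod.mk y ⁻¹' ((fun t => (φ t, χ t)) '' Icc (0:ℝ) 1) ⊆
      χ '' (Icc (0:ℝ) 1 ∩ φ ⁻¹' {y}) := by
    rintro x ⟨t, ht, h⟩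
    simp only [Prod.mk.injEq] at h
    exact ⟨t, ⟨ht, h.1⟩, h.2⟩
  exact measure_mono_null hsub ((hy.1.image χ).measure_zero _)

/-- projection onto two coordinates -/
noncomputable def pj (k l : Fin 3) : V →ₗ[ℝ] ℝ × ℝ :=
  (LinearMap.proj k).prod (LinearMap.proj l)

theorem pj_surj {k l : Fin 3} (h : k ≠ l) : Function.Surjective (pj k l) := by
  rintro ⟨a, b⟩
  refine ⟨Function.update (Function.update 0 k a) l b, ?_⟩
  simp [pj, h]

theorem ae_pair {k l : Fin 3} (h : k ≠ l) {S : Set (ℝ × ℝ)} (hS : MeasurableSet S)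
    (hS0 : volume S = 0) (a b : ℝ) : ∀ᵐ v : V, (v k + a, v l + b) ∉ S := by
  have h1 : volume ((fun p : ℝ × ℝ => p + (a, b)) ⁻¹' S) = 0 := by
    rw [measure_preimage_add_right, hS0]
  have hm : MeasurableSet ((fun p : ℝ × ℝ => p + (a, b)) ⁻¹' S)ᶜ :=
    ((measurable_id.add_const _) hS).compl
  have h2 : ∀ᵐ p : ℝ × ℝ, p ∈ ((fun p : ℝ × ℝ => p + (a, b)) ⁻¹' S)ᶜ :=
    compl_mem_ae_iff.2 h1
  have h3 := (ae_comp_linearMap_mem_iff (pj k l) (volume : Measure V) (volume : Measure (ℝ × ℝ))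
    (pj_surj h) hm).2 h2
  filter_upwards [h3] with v hv
  exact hv

theorem ae_coord {P : ℝ → Prop} (h : ∀ᵐ y : ℝ, P y) (k : Fin 3) (a : ℝ) :
    ∀ᵐ v : V, P (v k + a) := by
  have h1 : ∀ᵐ y : ℝ, P (y + a) :=
    (measurePreserving_add_right volume a).quasiMeasurePreserving.ae h
  exact (Measure.quasiMeasurePreserving_eval (μ := fun _ : Fin 3 => (volume : Measure ℝ)) k).ae h1

/-- the good translations -/
structure Good (g : ℝ → V) (v : V) : Prop where
  two : ∀ k l : Fin 3, k ≠ l → ∀ (m m' : ℕ) (z z' : ℤ), ∀ t ∈ Icc (0:ℝ) 1,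
    g t k = v k + z / 2 ^ m → g t l ≠ v l + z' / 2 ^ m'
  fin : ∀ (k : Fin 3) (m : ℕ) (z : ℤ), {t | t ∈ Icc (0:ℝ) 1 ∧ g t k = v k + z / 2 ^ m}.Finite
  der : ∀ (k : Fin 3) (m : ℕ) (z : ℤ), ∀ t ∈ Icc (0:ℝ) 1, g t k = v k + z / 2 ^ m →
    t ∈ Ioo (0:ℝ) 1 ∧ ∃ d ≠ 0, HasDerivAt (fun s => g s k) d t

theorem coord_eq {g D : ℝ → V} (hD : IntervalIntegrable D volume 0 1)
    (hg : ∀ t ∈ Icc (0:ℝ) 1, g t = g 0 + ∫ s in (0:ℝ)..t, D s) (k : Fin 3) {t : ℝ}
    (ht : t ∈ Icc (0:ℝ) 1) : g t k = g 0 k + ∫ s in (0:ℝ)..t, D s k := by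
  have hi : IntervalIntegrable D volume 0 t := by
    refine hD.mono_set ?_
    rw [uIcc_of_le ht.1, uIcc_of_le zero_le_one]
    exact Icc_subset_Icc_right ht.2
  have h1 := congrFun (hg t ht) k
  have h2 := (ContinuousLinearMap.proj (R := ℝ) (φ := fun _ : Fin 3 => ℝ) k
    ).intervalIntegral_comp_comm hi
  simp only [ContinuousLinearMap.proj_apply] at h2
  rw [h1, Pi.add_apply, ← h2]

theorem intervalIntegrable_coord {D : ℝ → V} (hD : IntervalIntegrable D volume 0 1) (k : Fin 3) :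
    IntervalIntegrable (fun s => D s k) volume 0 1 := by
  rw [intervalIntegrable_iff] at hD ⊢
  exact (ContinuousLinearMap.proj (R := ℝ) (φ := fun _ : Fin 3 => ℝ) k).integrable_comp hD

theorem continuousOn_g {g D : ℝ → V} (hD : IntervalIntegrable D volume 0 1)
    (hg : ∀ t ∈ Icc (0:ℝ) 1, g t = g 0 + ∫ s in (0:ℝ)..t, D s) : ContinuousOn g (Icc 0 1) := by
  have h1 : ContinuousOn (fun t => ∫ s in (0:ℝ)..t, D s) (Icc 0 1) := by
    have := intervalIntegral.continuousOn_primitive_interval (a := 0) (b := 1) (f := D)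
      (μ := volume) (by
        rw [uIcc_of_le zero_le_one]
        rw [intervalIntegrable_iff_integrableOn_Icc_of_le zero_le_one] at hD
        exact hD)
    rwa [uIcc_of_le zero_le_one] at this
  exact (continuousOn_const.add h1).congr hg

theorem ae_good (hNA2 : SpecNA2) {g D : ℝ → V} (hD : IntervalIntegrable D volume 0 1)
    (hg : ∀ t ∈ Icc (0:ℝ) 1, g t = g 0 + ∫ s in (0:ℝ)..t, D s) : ∀ᵐ v : V, Good g v := by
  have hc := continuousOn_g hD hg
  have hck : ∀ k, ContinuousOn (fun t => g t k) (Icc 0 1) := fun k =>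
    (continuous_apply k).comp_continuousOn hc
  have hck2 : ∀ k l, MeasurableSet ((fun t => (g t k, g t l)) '' Icc (0:ℝ) 1) := fun k l =>
    (isCompact_Icc.image_of_continuousOn ((hck k).prodMk (hck l))).isClosed.measurableSet
  have h1 : ∀ᵐ v : V, ∀ k l : Fin 3, k ≠ l → ∀ (m m' : ℕ) (z z' : ℤ),
      (v k + z / 2 ^ m, v l + z' / 2 ^ m') ∉ (fun t => (g t k, g t l)) '' Icc (0:ℝ) 1 := by
    simp only [ae_all_iff]
    intro k l hkl m m' z z'
    exact ae_pair hkl (hck2 k l) (volume_planar hNA2 (intervalIntegrable_coord hD k)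
      (fun t ht => coord_eq hD hg k ht) (hck k) (hck l)) _ _
  have h2 : ∀ᵐ v : V, ∀ (k : Fin 3) (m : ℕ) (z : ℤ),
      (Icc (0:ℝ) 1 ∩ (fun s => g s k) ⁻¹' {v k + z / 2 ^ m}).Finite ∧
      ∀ t ∈ Icc (0:ℝ) 1, g t k = v k + z / 2 ^ m →
        t ∈ Ioo (0:ℝ) 1 ∧ ∃ d ≠ 0, HasDerivAt (fun s => g s k) d t := by
    simp only [ae_all_iff]
    intro k m z
    exact ae_coord (hNA2 (fun s => g s k) (fun s => D s k) (intervalIntegrable_coord hD k)
      (fun t ht => coord_eq hD hg k ht)) k _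
  filter_upwards [h1, h2] with v hv1 hv2
  refine ⟨?_, ?_, fun k m z => (hv2 k m z).2⟩
  · intro k l hkl m m' z z' t ht e1 e2
    exact hv1 k l hkl m m' z z' ⟨t, ht, by simp only [e1, e2]⟩
  · intro k m z
    exact (hv2 k m z).1

/-! ### deterministic part -/

theorem deriv_pos_side {f : ℝ → ℝ} {d t : ℝ} (h : HasDerivAt f d t) (hd : 0 < d) :
    (∀ᶠ s in 𝓝[<] t, f s < f t) ∧ (∀ᶠ s in 𝓝[>] t, f t < f s) := by
  have h1 : ∀ᶠ s in 𝓝[≠] t, 0 < slope f t s :=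
    (hasDerivAt_iff_tendsto_slope.1 h).eventually (lt_mem_nhds hd)
  constructor
  · have h2 : ∀ᶠ s in 𝓝[<] t, 0 < slope f t s :=
      h1.filter_mono (nhdsWithin_mono _ fun s hs => ne_of_lt hs)
    filter_upwards [h2, self_mem_nhdsWithin] with s hs hst
    rw [slope_def_field] at hs
    have h3 : s - t < 0 := sub_neg.2 hst
    by_contra hc
    have h4 : (f s - f t) / (s - t) ≤ 0 := div_nonpos_of_nonneg_of_nonpos (by linarith) h3.le
    linarith
  · have h2 : ∀ᶠ s in 𝓝[>] t, 0 < slope f t s :=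
      h1.filter_mono (nhdsWithin_mono _ fun s hs => ne_of_gt hs)
    filter_upwards [h2, self_mem_nhdsWithin] with s hs hst
    rw [slope_def_field] at hs
    have h3 : 0 < s - t := sub_pos.2 hst
    by_contra hc
    have h4 : (f s - f t) / (s - t) ≤ 0 := div_nonpos_of_nonpos_of_nonneg (by linarith) h3.le
    linarith

theorem deriv_neg_side {f : ℝ → ℝ} {d t : ℝ} (h : HasDerivAt f d t) (hd : d < 0) :
    (∀ᶠ s in 𝓝[<] t, f t < f s) ∧ (∀ᶠ s in 𝓝[>] t, f s < f t) := by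
  have h1 := deriv_pos_side h.neg (neg_pos.2 hd)
  simpa using h1

/-- `x` is strictly inside the slabs of the cube in all coordinates but `k` -/
def Str (v : V) (m : ℕ) (z : Fin 3 → ℤ) (k : Fin 3) (x : V) : Prop :=
  ∀ l, l ≠ k → v l + z l / 2 ^ m < x l ∧ x l < v l + (z l + 1) / 2 ^ m

theorem hi_eq (v : V) (m : ℕ) (z : Fin 3 → ℤ) (k : Fin 3) :
    v k + ((z k : ℝ) + 1) / 2 ^ m = v k + (z k : ℝ) / 2 ^ m + 1 / 2 ^ m := by ring

theorem update_mem_dyo {v : V} {m : ℕ} {z : Fin 3 → ℤ} {k : Fin 3} {x : V}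
    (hs : Str v m z k x) {y : ℝ} (h1 : v k + z k / 2 ^ m < y) (h2 : y < v k + (z k + 1) / 2 ^ m) :
    Function.update x k y ∈ dyo v m z := by
  intro l
  by_cases hl : l = k
  · subst hl
    rw [Function.update_self]
    exact ⟨h1, h2⟩
  · rw [Function.update_of_ne hl]
    exact hs l hl

theorem dyo_sub_dyc (v : V) (m : ℕ) (z : Fin 3 → ℤ) : dyo v m z ⊆ dyc v m z :=
  fun _ hx k => ⟨(hx k).1.le, (hx k).2.le⟩

theorem isClosed_dyc (v : V) (m : ℕ) (z : Fin 3 → ℤ) : IsClosed (dyc v m z) := by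
  have : dyc v m z = ⋂ k, {x : V | v k + z k / 2 ^ m ≤ x k ∧ x k ≤ v k + (z k + 1) / 2 ^ m} := by
    ext x
    simp [dyc]
  rw [this]
  refine isClosed_iInter fun k => ?_
  exact (isClosed_le continuous_const (continuous_apply k)).inter
    (isClosed_le (continuous_apply k) continuous_const)

theorem bdry {v : V} {m : ℕ} {z : Fin 3 → ℤ} {x : V} (h1 : x ∈ dyc v m z) (h2 : x ∉ dyo v m z) :
    ∃ k, x k = v k + z k / 2 ^ m ∨ x k = v k + (z k + 1) / 2 ^ m := by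
  by_contra hc
  push Not at hc
  exact h2 fun k => ⟨lt_of_le_of_ne (h1 k).1 (hc k).1.symm, lt_of_le_of_ne (h1 k).2 (hc k).2⟩

section tiles

variable {ρ : V → ℝ} {v : V}

theorem uniq_lo (hdis : ∀ m z m' z', IsTile ρ v m z → IsTile ρ v m' z' → (m, z) ≠ (m', z') →
    Disjoint (dyo v m z) (dyc v m' z')) {m m' : ℕ} {z z' : Fin 3 → ℤ} (ht : IsTile ρ v m z)
    (ht' : IsTile ρ v m' z') {k : Fin 3} {x : V} (hs : Str v m z k x) (hs' : Str v m' z' k x)
    (e : x k = v k + z k / 2 ^ m) (e' : x k = v k + z' k / 2 ^ m') : (m, z) = (m', z') := by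
  by_contra hne
  have hd := hdis m z m' z' ht ht' hne
  obtain ⟨ε, hε, h1, h2⟩ : ∃ ε > 0, ε < (1:ℝ) / 2 ^ m ∧ ε < (1:ℝ) / 2 ^ m' := by
    refine ⟨min (1 / 2 ^ m) (1 / 2 ^ m') / 2, by positivity, ?_, ?_⟩
    · have : min ((1:ℝ) / 2 ^ m) (1 / 2 ^ m') ≤ 1 / 2 ^ m := min_le_left _ _
      have : 0 < (1:ℝ) / 2 ^ m := by positivity
      linarith
    · have : min ((1:ℝ) / 2 ^ m) (1 / 2 ^ m') ≤ 1 / 2 ^ m' := min_le_right _ _
      have : 0 < (1:ℝ) / 2 ^ m' := by positivity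
      linarith
  have m1 : Function.update x k (x k + ε) ∈ dyo v m z :=
    update_mem_dyo hs (by linarith) (by rw [hi_eq]; linarith)
  have m2 : Function.update x k (x k + ε) ∈ dyo v m' z' :=
    update_mem_dyo hs' (by linarith) (by rw [hi_eq]; linarith)
  exact Set.disjoint_left.1 hd m1 (dyo_sub_dyc _ _ _ m2)

theorem uniq_hi (hdis : ∀ m z m' z', IsTile ρ v m z → IsTile ρ v m' z' → (m, z) ≠ (m', z') →
    Disjoint (dyo v m z) (dyc v m' z')) {m m' : ℕ} {z z' : Fin 3 → ℤ} (ht : IsTile ρ v m z)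
    (ht' : IsTile ρ v m' z') {k : Fin 3} {x : V} (hs : Str v m z k x) (hs' : Str v m' z' k x)
    (e : x k = v k + (z k + 1) / 2 ^ m) (e' : x k = v k + (z' k + 1) / 2 ^ m') :
    (m, z) = (m', z') := by
  by_contra hne
  have hd := hdis m z m' z' ht ht' hne
  obtain ⟨ε, hε, h1, h2⟩ : ∃ ε > 0, ε < (1:ℝ) / 2 ^ m ∧ ε < (1:ℝ) / 2 ^ m' := by
    refine ⟨min (1 / 2 ^ m) (1 / 2 ^ m') / 2, by positivity, ?_, ?_⟩
    · have : min ((1:ℝ) / 2 ^ m) (1 / 2 ^ m') ≤ 1 / 2 ^ m := min_le_left _ _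
      have : 0 < (1:ℝ) / 2 ^ m := by positivity
      linarith
    · have : min ((1:ℝ) / 2 ^ m) (1 / 2 ^ m') ≤ 1 / 2 ^ m' := min_le_right _ _
      have : 0 < (1:ℝ) / 2 ^ m' := by positivity
      linarith
  rw [hi_eq] at e e'
  have m1 : Function.update x k (x k - ε) ∈ dyo v m z :=
    update_mem_dyo hs (by linarith) (by rw [hi_eq]; linarith)
  have m2 : Function.update x k (x k - ε) ∈ dyo v m' z' :=
    update_mem_dyo hs' (by linarith) (by rw [hi_eq]; linarith)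
  exact Set.disjoint_left.1 hd m1 (dyo_sub_dyc _ _ _ m2)

/-- near `x` only the tiles containing `x` are met -/
theorem local_tiles {Λ : Set V} (hΛ : IsOpen Λ) (hfin : ∀ K ⊆ Λ, IsCompact K →
      {p : ℕ × (Fin 3 → ℤ) | IsTile ρ v p.1 p.2 ∧ (dyc v p.1 p.2 ∩ K).Nonempty}.Finite)
    {x : V} (hx : x ∈ Λ) :
    ∀ᶠ y in 𝓝 x, ∀ m z, IsTile ρ v m z → y ∈ dyc v m z → x ∈ dyc v m z := by
  obtain ⟨r, hr, hb⟩ := nhds_basis_closedBall.mem_iff.1 (hΛ.mem_nhds hx)
  have hF := hfin _ hb (isCompact_closedBall x r)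
  have h1 : ∀ᶠ y in 𝓝 x, ∀ p ∈ {p : ℕ × (Fin 3 → ℤ) | IsTile ρ v p.1 p.2 ∧
      (dyc v p.1 p.2 ∩ closedBall x r).Nonempty}, x ∉ dyc v p.1 p.2 → y ∉ dyc v p.1 p.2 := by
    rw [eventually_all_finite hF]
    intro p _
    by_cases h : x ∈ dyc v p.1 p.2
    · exact Eventually.of_forall fun y h' => absurd h h'
    · filter_upwards [(isClosed_dyc v p.1 p.2).isOpen_compl.mem_nhds h] with y hy _
      exact hy
  filter_upwards [h1, closedBall_mem_nhds x hr] with y hy hyr m z ht hyz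
  by_contra hc
  exact hy (m, z) ⟨ht, y, hyz, hyr⟩ hc hyz

theorem tendsto_update (x : V) (k : Fin 3) : Tendsto (fun s : ℝ => Function.update x k s)
    (𝓝 (x k)) (𝓝 x) := by
  have : Continuous fun s : ℝ => Function.update x k s := continuous_const.update k continuous_id
  have h := this.tendsto (x k)
  rwa [Function.update_eq_self] at h

/-- the tile on the upper side -/
theorem exists_lo {Λ : Set V} (hΛ : IsOpen Λ)
    (hcov : ∀ x ∈ Λ, ∃ m z, IsTile ρ v m z ∧ x ∈ dyc v m z)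
    {x : V} (hx : x ∈ Λ) {k : Fin 3}
    (hloc : ∀ᶠ y in 𝓝 x, ∀ m z, IsTile ρ v m z → y ∈ dyc v m z → x ∈ dyc v m z)
    (hface : ∀ m z, IsTile ρ v m z → x ∈ dyc v m z → x k = v k + z k / 2 ^ m ∨
      x k = v k + (z k + 1) / 2 ^ m) :
    ∃ m z, IsTile ρ v m z ∧ x ∈ dyc v m z ∧ x k = v k + z k / 2 ^ m := by
  have h1 : ∀ᶠ s in 𝓝[>] (x k), Function.update x k s ∈ Λ ∧ ∀ m z, IsTile ρ v m z →
      Function.update x k s ∈ dyc v m z → x ∈ dyc v m z :=
    ((tendsto_update x k).eventually ((hΛ.eventually_mem hx).and hloc)).filter_mono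
      nhdsWithin_le_nhds
  obtain ⟨s, ⟨hs1, hs2⟩, hs3⟩ := (h1.and self_mem_nhdsWithin).exists
  obtain ⟨m, z, ht, hz⟩ := hcov _ hs1
  have hxz := hs2 m z ht hz
  refine ⟨m, z, ht, hxz, ?_⟩
  rcases hface m z ht hxz with h | h
  · exact h
  · exfalso
    have h2 := (hz k).2
    rw [Function.update_self] at h2
    have h3 : x k < s := hs3
    linarith

theorem exists_hi {Λ : Set V} (hΛ : IsOpen Λ)
    (hcov : ∀ x ∈ Λ, ∃ m z, IsTile ρ v m z ∧ x ∈ dyc v m z)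
    {x : V} (hx : x ∈ Λ) {k : Fin 3}
    (hloc : ∀ᶠ y in 𝓝 x, ∀ m z, IsTile ρ v m z → y ∈ dyc v m z → x ∈ dyc v m z)
    (hface : ∀ m z, IsTile ρ v m z → x ∈ dyc v m z → x k = v k + z k / 2 ^ m ∨
      x k = v k + (z k + 1) / 2 ^ m) :
    ∃ m z, IsTile ρ v m z ∧ x ∈ dyc v m z ∧ x k = v k + (z k + 1) / 2 ^ m := by
  have h1 : ∀ᶠ s in 𝓝[<] (x k), Function.update x k s ∈ Λ ∧ ∀ m z, IsTile ρ v m z →
      Function.update x k s ∈ dyc v m z → x ∈ dyc v m z :=
    ((tendsto_update x k).eventually ((hΛ.eventually_mem hx).and hloc)).filter_mono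
      nhdsWithin_le_nhds
  obtain ⟨s, ⟨hs1, hs2⟩, hs3⟩ := (h1.and self_mem_nhdsWithin).exists
  obtain ⟨m, z, ht, hz⟩ := hcov _ hs1
  have hxz := hs2 m z ht hz
  refine ⟨m, z, ht, hxz, ?_⟩
  rcases hface m z ht hxz with h | h
  · exfalso
    have h2 := (hz k).1
    rw [Function.update_self] at h2
    have h3 : s < x k := hs3
    linarith
  · exact h

end tiles

theorem SizeFn.isOpen {Λ : Set V} {ρ : V → ℝ} (hρ : SizeFn Λ ρ) : IsOpen Λ := by
  have hc : Continuous ρ := by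
    refine LipschitzWith.continuous (K := 1) (LipschitzWith.of_dist_le_mul fun x y => ?_)
    rw [Real.dist_eq, dist_eq_norm, NNReal.coe_one, one_mul, abs_sub_le_iff]
    have h1 := hρ.lip x y
    have h2 := hρ.lip y x
    rw [norm_sub_rev] at h2
    constructor <;> linarith
  have e : Λ = {x | 0 < ρ x} := by
    ext x
    constructor
    · exact hρ.pos x
    · intro h
      by_contra hx
      have h1 : 0 < ρ x := h
      linarith [hρ.off x hx]
  rw [e]
  exact isOpen_lt continuous_const hc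

theorem eventually_dyo {g : ℝ → V} {v : V} {m : ℕ} {z : Fin 3 → ℤ} {k : Fin 3} {t : ℝ}
    {F : Filter ℝ} (hF : F ≤ 𝓝 t) (hg : ContinuousAt g t) (hs : Str v m z k (g t))
    (h1 : ∀ᶠ s in F, v k + z k / 2 ^ m < g s k ∧ g s k < v k + (z k + 1) / 2 ^ m) :
    ∀ᶠ s in F, g s ∈ dyo v m z := by
  have h2 : ∀ᶠ s in F, ∀ l, l ≠ k → v l + z l / 2 ^ m < g s l ∧ g s l < v l + (z l + 1) / 2 ^ m := by
    rw [eventually_all]
    intro l
    by_cases hl : l = k
    · exact Eventually.of_forall fun s h => absurd hl h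
    · have hgl : ContinuousAt (fun s => g s l) t := (continuous_apply l).continuousAt.comp hg
      have a1 := hF (hgl.eventually (lt_mem_nhds (hs l hl).1))
      have a2 := hF (hgl.eventually (gt_mem_nhds (hs l hl).2))
      filter_upwards [a1, a2] with s b1 b2 _
      exact ⟨b1, b2⟩
  filter_upwards [h1, h2] with s a1 a2 l
  by_cases hl : l = k
  · subst hl
    exact a1
  · exact a2 l hl

theorem genPos_of_good (hNC : SpecNC) {Λ : Set V} {ρ : V → ℝ} (hρ : SizeFn Λ ρ) {g : ℝ → V}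
    (hc : ContinuousOn g (Icc 0 1)) (hm : MapsTo g (Icc 0 1) Λ) {v : V} (hv : Good g v) :
    GenPos g ρ v := by
  obtain ⟨-, hcov, hdis, -, hfin⟩ := hNC Λ ρ hρ v
  have hΛ := SizeFn.isOpen hρ
  set X : Set ℝ := {t | t ∈ Icc (0:ℝ) 1 ∧ ¬ ∃ m z, IsTile ρ v m z ∧ g t ∈ dyo v m z} with hX
  have hK : IsCompact (g '' Icc 0 1) := isCompact_Icc.image_of_continuousOn hc
  have hF := hfin _ hm.image_subset hK
  have hXfin : X.Finite := by
    have h1 : (⋃ p ∈ {p : ℕ × (Fin 3 → ℤ) | IsTile ρ v p.1 p.2 ∧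
        (dyc v p.1 p.2 ∩ g '' Icc 0 1).Nonempty}, ⋃ k : Fin 3,
        ({t | t ∈ Icc (0:ℝ) 1 ∧ g t k = v k + ((p.2 k : ℤ) : ℝ) / 2 ^ p.1} ∪
          {t | t ∈ Icc (0:ℝ) 1 ∧ g t k = v k + ((p.2 k + 1 : ℤ) : ℝ) / 2 ^ p.1})).Finite := by
      refine hF.biUnion fun p _ => ?_
      refine Set.finite_iUnion fun k => ?_
      exact (hv.fin k p.1 (p.2 k)).union (hv.fin k p.1 (p.2 k + 1))
    refine h1.subset ?_
    rintro t ⟨ht, hno⟩
    obtain ⟨m, z, hti, htz⟩ := hcov _ (hm ht)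
    obtain ⟨k, hk⟩ := bdry htz fun h => hno ⟨m, z, hti, h⟩
    refine mem_biUnion (show (m, z) ∈ _ from ⟨hti, g t, htz, t, ht, rfl⟩) ?_
    refine mem_iUnion.2 ⟨k, ?_⟩
    rcases hk with hk | hk
    · exact Or.inl ⟨ht, hk⟩
    · refine Or.inr ⟨ht, ?_⟩
      push_cast
      exact hk
  refine ⟨hXfin.toFinset, ?_, ?_⟩
  · intro t htX
    obtain ⟨ht, hno⟩ := hXfin.mem_toFinset.1 htX
    obtain ⟨m₀, z₀, hti₀, htz₀⟩ := hcov _ (hm ht)
    obtain ⟨k, hk⟩ := bdry htz₀ fun h => hno ⟨m₀, z₀, hti₀, h⟩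
    -- the coordinate `k` is dyadic
    obtain ⟨a, ha⟩ : ∃ a : ℤ, g t k = v k + a / 2 ^ m₀ := by
      rcases hk with hk | hk
      · exact ⟨z₀ k, hk⟩
      · refine ⟨z₀ k + 1, ?_⟩
        push_cast
        exact hk
    have hno2 : ∀ l, l ≠ k → ∀ (m' : ℕ) (z' : ℤ), g t l ≠ v l + z' / 2 ^ m' := fun l hl m' z' =>
      hv.two k l (Ne.symm hl) m₀ m' a z' t ht ha
    obtain ⟨ht', d, hd0, hd⟩ := hv.der k m₀ a t ht ha
    have hgt : ContinuousAt g t := hc.continuousAt (Icc_mem_nhds ht'.1 ht'.2)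
    have hstr : ∀ m z, IsTile ρ v m z → g t ∈ dyc v m z → Str v m z k (g t) := by
      intro m z _ hz l hl
      refine ⟨lt_of_le_of_ne (hz l).1 (Ne.symm (hno2 l hl m (z l))), lt_of_le_of_ne (hz l).2 ?_⟩
      have := hno2 l hl m (z l + 1)
      push_cast at this
      exact this
    have hface : ∀ m z, IsTile ρ v m z → g t ∈ dyc v m z → g t k = v k + z k / 2 ^ m ∨
        g t k = v k + (z k + 1) / 2 ^ m := by
      intro m z hti hz
      obtain ⟨l, hl⟩ := bdry hz fun h => hno ⟨m, z, hti, h⟩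
      by_cases hlk : l = k
      · subst hlk
        exact hl
      · exfalso
        have := hstr m z hti hz l hlk
        rcases hl with hl | hl <;> linarith [this.1, this.2]
    have hloc := local_tiles hΛ hfin (hm ht)
    obtain ⟨m₁, z₁, t₁, i₁, e₁⟩ := exists_lo hΛ hcov (hm ht) hloc hface
    obtain ⟨m₂, z₂, t₂, i₂, e₂⟩ := exists_hi hΛ hcov (hm ht) hloc hface
    -- `(m₁, z₁)` is above, `(m₂, z₂)` is below
    have hne : (m₁, z₁) ≠ (m₂, z₂) := by
      intro h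
      rw [Prod.mk.injEq] at h
      obtain ⟨rfl, rfl⟩ := h
      rw [hi_eq] at e₂
      have : 0 < (1:ℝ) / 2 ^ m₁ := by positivity
      linarith
    have huniq : ∀ m z, IsTile ρ v m z → g t ∈ dyc v m z → (m, z) = (m₁, z₁) ∨
        (m, z) = (m₂, z₂) := by
      intro m z hti hz
      rcases hface m z hti hz with h | h
      · exact Or.inl (uniq_lo hdis hti t₁ (hstr _ _ hti hz) (hstr _ _ t₁ i₁) h e₁)
      · exact Or.inr (uniq_hi hdis hti t₂ (hstr _ _ hti hz) (hstr _ _ t₂ i₂) h e₂)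
    have hgk : ContinuousAt (fun s => g s k) t := (continuous_apply k).continuousAt.comp hgt
    -- near `t`, above the lower face of 2 and below the upper face of 1
    have c1 : ∀ᶠ s in 𝓝 t, g s k < v k + (z₁ k + 1) / 2 ^ m₁ := by
      refine hgk.eventually (gt_mem_nhds ?_)
      change g t k < v k + (z₁ k + 1) / 2 ^ m₁
      rw [hi_eq]
      have : 0 < (1:ℝ) / 2 ^ m₁ := by positivity
      linarith
    have c2 : ∀ᶠ s in 𝓝 t, v k + z₂ k / 2 ^ m₂ < g s k := by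
      refine hgk.eventually (lt_mem_nhds ?_)
      change v k + z₂ k / 2 ^ m₂ < g t k
      have e₃ := e₂
      rw [hi_eq] at e₃
      have : 0 < (1:ℝ) / 2 ^ m₂ := by positivity
      linarith
    rcases lt_or_gt_of_ne hd0 with hneg | hpos
    · obtain ⟨d1, d2⟩ := deriv_neg_side hd hneg
      refine ⟨k, m₁, z₁, m₂, z₂, t₁, t₂, hne, ht', i₁, i₂, huniq, ?_, ?_, Or.inl ⟨e₁, e₂⟩⟩
      · refine eventually_dyo nhdsWithin_le_nhds hgt (hstr _ _ t₁ i₁) ?_
        filter_upwards [d1, c1.filter_mono nhdsWithin_le_nhds] with s a1 a2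
        exact ⟨by rw [← e₁]; exact a1, a2⟩
      · refine eventually_dyo nhdsWithin_le_nhds hgt (hstr _ _ t₂ i₂) ?_
        filter_upwards [d2, c2.filter_mono nhdsWithin_le_nhds] with s a1 a2
        exact ⟨a2, by rw [← e₂]; exact a1⟩
    · obtain ⟨d1, d2⟩ := deriv_pos_side hd hpos
      refine ⟨k, m₂, z₂, m₁, z₁, t₂, t₁, Ne.symm hne, ht', i₂, i₁,
        fun m z hti hz => (huniq m z hti hz).symm, ?_, ?_, Or.inr ⟨e₂, e₁⟩⟩
      · refine eventually_dyo nhdsWithin_le_nhds hgt (hstr _ _ t₂ i₂) ?_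
        filter_upwards [d1, c2.filter_mono nhdsWithin_le_nhds] with s a1 a2
        exact ⟨a2, by rw [← e₂]; exact a1⟩
      · refine eventually_dyo nhdsWithin_le_nhds hgt (hstr _ _ t₁ i₁) ?_
        filter_upwards [d2, c1.filter_mono nhdsWithin_le_nhds] with s a1 a2
        exact ⟨by rw [← e₁]; exact a1, a2⟩
  · intro t ht htX
    by_contra hc
    exact htX (hXfin.mem_toFinset.2 ⟨ht, hc⟩)

end ND1

/-- **ND1** for almost every translation the tiling is in general position to the curve. -/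
theorem specND1 (hNA2 : SpecNA2) (hNC : SpecNC) {Λ : Set V} {ρ : V → ℝ} (hρ : SizeFn Λ ρ)
    {g D : ℝ → V} (hD : IntervalIntegrable D volume 0 1)
    (hg : ∀ t ∈ Icc (0:ℝ) 1, g t = g 0 + ∫ s in (0:ℝ)..t, D s) (hm : MapsTo g (Icc 0 1) Λ) :
    ∀ᵐ v : V, GenPos g ρ v := by
  filter_upwards [ND1.ae_good hNA2 hD hg] with v hv
  exact ND1.genPos_of_good hNC hρ (ND1.continuousOn_g hD hg) hm hv

end P073.Net
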