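import Vale.Agent.P073.Net.Defs
import Vale.Agent.P073.HB.Acl3

/-!
# P073, block NET: NA1 and NA2 (Banach indicatrix, almost every level is crossed transversally)
-/

open Set Metric Topology MeasureTheory Filter
open scoped ENNReal

namespace P073.Net

open Vale.Agent.P073.HB

/-- the modulus of an indefinite integral -/
theorem hasMod_of_int {φ ψ : ℝ → ℝ} (hψ : IntervalIntegrable ψ volume 0 1)
    (hφ : ∀ t ∈ Icc (0:ℝ) 1, φ t = φ 0 + ∫ s in (0:ℝ)..t, ψ s) :
    HasMod φ (fun t => ENNReal.ofReal |ψ t|) := by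
  intro s hs t ht hst
  have h0s : IntervalIntegrable ψ volume 0 s :=
    hψ.mono_set (by rw [uIcc_of_le hs.1, uIcc_of_le zero_le_one]; exact Icc_subset_Icc_right hs.2)
  have hst' : IntervalIntegrable ψ volume s t :=
    hψ.mono_set (by rw [uIcc_of_le hst, uIcc_of_le zero_le_one]; exact Icc_subset_Icc hs.1 ht.2)
  have h1 : φ t - φ s = ∫ r in s..t, ψ r := by
    rw [hφ t ht, hφ s hs, ← intervalIntegral.integral_add_adjacent_intervals h0s hst']
    ring
  rw [edist_comm, edist_eq_enorm_sub, h1, intervalIntegral.integral_of_le hst]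
  refine (enorm_integral_le_lintegral_enorm _).trans (le_of_eq ?_)
  refine lintegral_congr fun r => ?_
  rw [Real.enorm_eq_ofReal_abs]

theorem cont_of_int {φ ψ : ℝ → ℝ} (hψ : IntervalIntegrable ψ volume 0 1)
    (hφ : ∀ t ∈ Icc (0:ℝ) 1, φ t = φ 0 + ∫ s in (0:ℝ)..t, ψ s) :
    ContinuousOn φ (Icc 0 1) := by
  have h1 : ContinuousOn (fun t => φ 0 + ∫ s in (0:ℝ)..t, ψ s) (Icc 0 1) := by
    refine continuousOn_const.add ?_
    have := intervalIntegral.continuousOn_primitive_interval' hψ (left_mem_uIcc)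
    rwa [uIcc_of_le zero_le_one] at this
  exact h1.congr hφ

/-- (NA1) -/
theorem specNA1 : SpecNA1 := by
  intro φ ψ hψ hφ U hU hU1
  have hc := cont_of_int hψ hφ
  have hm := hasMod_of_int hψ hφ
  refine ⟨fun y => liminf (fun n => dN φ U n y) atTop,
    Measurable.liminf fun n => measurable_dN hc U n, ?_, ?_⟩
  · intro y
    have h1 := encard_lev_le (u := φ) hU y
    have h2 : lev φ U y = U ∩ φ ⁻¹' {y} := by
      ext x
      simp only [lev, mem_ofPred_eq, mem_inter_iff, mem_preimage, mem_singleton_iff]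
      constructor
      · rintro ⟨a, _, c⟩; exact ⟨a, c⟩
      · rintro ⟨a, c⟩; exact ⟨a, Ioo_subset_Icc_self (hU1 a), c⟩
    rw [h2] at h1
    exact h1
  · have h3 : U ∩ Ioc 0 1 = U := inter_eq_left.2 (hU1.trans Ioo_subset_Ioc_self)
    calc ∫⁻ y, liminf (fun n => dN φ U n y) atTop
        ≤ liminf (fun n => ∫⁻ y, dN φ U n y) atTop :=
          lintegral_liminf_le fun n => measurable_dN hc U n
      _ ≤ ∫⁻ r in U ∩ Ioc 0 1, ENNReal.ofReal |ψ r| := by
          refine liminf_le_of_le (by isBoundedDefault) ?_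
          intro b hb
          obtain ⟨n, hn⟩ := hb.exists
          exact hn.trans (lintegral_dN_le hc hm U n)
      _ = ∫⁻ t in U, ENNReal.ofReal |ψ t| := by rw [h3]

/-- (NA2) -/
theorem specNA2 : SpecNA2 := by
  intro φ ψ hψ hφ
  have hc := cont_of_int hψ hφ
  have hm := hasMod_of_int hψ hφ
  have hfin : ∫⁻ r in Ioc (0 : ℝ) 1, ENNReal.ofReal |ψ r| ≠ ⊤ := by
    have h1 : IntegrableOn ψ (Ioc 0 1) volume :=
      (intervalIntegrable_iff_integrableOn_Ioc_of_le zero_le_one).1 hψ
    have h2 := h1.2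
    rw [HasFiniteIntegral] at h2
    refine ne_of_lt (lt_of_le_of_lt (le_of_eq ?_) h2)
    refine lintegral_congr fun r => ?_
    rw [Real.enorm_eq_ofReal_abs]
  filter_upwards [ae_crossing hc hm hfin] with y hy
  refine ⟨hy.1, fun t ht hty => ?_⟩
  obtain ⟨h1, d, h2, h3⟩ := hy.2 t ht hty
  exact ⟨h1, d, h2, h3⟩

end P073.Net
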