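import Vale.Agent.P073.Net.ND1

/-!
# P073, block NET: the bad sets (SpecNB)
-/

open Set Metric Topology MeasureTheory Filter
open scoped ENNReal

namespace P073.Net

open Vale.Agent.P073.St (V euc IsHomeo)

namespace NB

variable {g : ℝ → V} {R : Set V} {k : Fin 3}

/-- good times with a given sign form a closed set -/
theorem isClosed_sign (hg : ContinuousOn g (Icc 0 1)) (k : Fin 3) (c σ : ℝ) :
    IsClosed {t | t ∈ Icc (0:ℝ) 1 ∧ ∀ u ∈ Icc (0:ℝ) 1, ‖g u - g t‖ < c →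
      c * (u - t) ^ 2 ≤ σ * (g u k - g t k) * (u - t)} := by
  have hgk : ContinuousOn (fun t => g t k) (Icc 0 1) :=
    (continuous_apply k).comp_continuousOn hg
  have : {t | t ∈ Icc (0:ℝ) 1 ∧ ∀ u ∈ Icc (0:ℝ) 1, ‖g u - g t‖ < c →
      c * (u - t) ^ 2 ≤ σ * (g u k - g t k) * (u - t)} =
      Icc 0 1 ∩ ⋂ u ∈ Icc (0:ℝ) 1, ((Icc 0 1 ∩ (fun t => ‖g u - g t‖) ⁻¹' Ici c) ∪
        (Icc 0 1 ∩ (fun t => σ * (g u k - g t k) * (u - t) - c * (u - t) ^ 2) ⁻¹' Ici 0)) := by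
    ext t
    simp only [mem_ofPred_eq, mem_inter_iff, mem_iInter, mem_union, mem_preimage, mem_Ici,
      sub_nonneg]
    constructor
    · rintro ⟨ht, h⟩
      refine ⟨ht, fun u hu => ?_⟩
      by_cases hc : c ≤ ‖g u - g t‖
      · exact Or.inl ⟨ht, hc⟩
      · exact Or.inr ⟨ht, h u hu (not_le.1 hc)⟩
    · rintro ⟨ht, h⟩
      refine ⟨ht, fun u hu hc => ?_⟩
      rcases h u hu with h1 | h1
      · exact absurd h1.2 (not_le.2 hc)
      · exact h1.2
  rw [this]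
  refine isClosed_Icc.inter (isClosed_biInter fun u _ => IsClosed.union ?_ ?_)
  · exact (continuousOn_const.sub hg).norm.preimage_isClosed_of_isClosed isClosed_Icc isClosed_Ici
  · refine ContinuousOn.preimage_isClosed_of_isClosed ?_ isClosed_Icc isClosed_Ici
    have h1 : ContinuousOn (fun t : ℝ => u - t) (Icc 0 1) := continuousOn_const.sub continuousOn_id
    exact ((continuousOn_const.mul (continuousOn_const.sub hgk)).mul h1).sub
      (continuousOn_const.mul (h1.pow 2))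

theorem isClosed_obst (hg : ContinuousOn g (Icc 0 1)) (R : Set V) (c : ℝ) :
    IsClosed {t | t ∈ Icc (0:ℝ) 1 ∧ ∀ x ∈ R, c ≤ ‖x - g t‖} := by
  have : {t | t ∈ Icc (0:ℝ) 1 ∧ ∀ x ∈ R, c ≤ ‖x - g t‖} =
      Icc 0 1 ∩ ⋂ x ∈ R, (Icc 0 1 ∩ (fun t => ‖x - g t‖) ⁻¹' Ici c) := by
    ext t
    simp only [mem_ofPred_eq, mem_inter_iff, mem_iInter, mem_preimage, mem_Ici]
    exact ⟨fun h => ⟨h.1, fun x hx => ⟨h.1, h.2 x hx⟩⟩, fun h => ⟨h.1, fun x hx => (h.2 x hx).2⟩⟩
  rw [this]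
  exact isClosed_Icc.inter (isClosed_biInter fun x _ =>
    (continuousOn_const.sub hg).norm.preimage_isClosed_of_isClosed isClosed_Icc isClosed_Ici)

theorem isOpen_badS (hg : ContinuousOn g (Icc 0 1)) (R : Set V) (k : Fin 3) (n : ℕ) :
    IsOpen (BadS g R k n) := by
  have : BadS g R k n = Ioo 0 1 \ ({t | t ∈ Icc (0:ℝ) 1 ∧ ∀ x ∈ R, 1 / (n + 1 : ℝ) ≤ ‖x - g t‖} ∩
      ({t | t ∈ Icc (0:ℝ) 1 ∧ ∀ u ∈ Icc (0:ℝ) 1, ‖g u - g t‖ < 1 / (n + 1 : ℝ) →
        1 / (n + 1 : ℝ) * (u - t) ^ 2 ≤ 1 * (g u k - g t k) * (u - t)} ∪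
       {t | t ∈ Icc (0:ℝ) 1 ∧ ∀ u ∈ Icc (0:ℝ) 1, ‖g u - g t‖ < 1 / (n + 1 : ℝ) →
        1 / (n + 1 : ℝ) * (u - t) ^ 2 ≤ (-1) * (g u k - g t k) * (u - t)})) := by
    ext t
    simp only [BadS, GoodT, mem_ofPred_eq, Set.mem_sdiff, mem_inter_iff, mem_union]
    refine and_congr_right fun ht => not_congr ?_
    have ht' := Ioo_subset_Icc_self ht
    constructor
    · rintro ⟨h1, σ, rfl | rfl, h2⟩
      · exact ⟨⟨ht', h1⟩, Or.inl ⟨ht', h2⟩⟩
      · exact ⟨⟨ht', h1⟩, Or.inr ⟨ht', h2⟩⟩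
    · rintro ⟨h1, h2 | h2⟩
      · exact ⟨h1.2, 1, Or.inl rfl, h2.2⟩
      · exact ⟨h1.2, -1, Or.inr rfl, h2.2⟩
  rw [this]
  exact isOpen_Ioo.sdiff ((isClosed_obst hg R _).inter
    ((isClosed_sign hg k _ 1).union (isClosed_sign hg k _ (-1))))

theorem good_mono {n n' : ℕ} (h : n ≤ n') {t : ℝ} (H : GoodT g R k n t) : GoodT g R k n' t := by
  have hc : 1 / (n' + 1 : ℝ) ≤ 1 / (n + 1 : ℝ) := by
    apply one_div_le_one_div_of_le (by positivity)
    have : (n : ℝ) ≤ n' := by exact_mod_cast h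
    linarith
  obtain ⟨h1, σ, hσ, h2⟩ := H
  refine ⟨fun x hx => hc.trans (h1 x hx), σ, hσ, fun u hu hlt => ?_⟩
  exact (mul_le_mul_of_nonneg_right hc (sq_nonneg _)).trans (h2 u hu (hlt.trans_le hc))

/-- a time with non-zero derivative is good for large `n` -/
theorem exists_good (hg : ContinuousOn g (Icc 0 1)) (hinj : InjOn g (Icc 0 1)) {t : ℝ}
    (ht : t ∈ Ioo (0:ℝ) 1) (hR : ∃ r > 0, ∀ x ∈ R, r ≤ ‖x - g t‖) {φ : ℝ → ℝ} {d : ℝ}
    (hφ : ∀ s ∈ Icc (0:ℝ) 1, φ s = g s k) (hd : HasDerivAt φ d t) (hd0 : d ≠ 0) :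
    ∃ n, GoodT g R k n t := by
  obtain ⟨r, hr, hR⟩ := hR
  have ht' := Ioo_subset_Icc_self ht
  obtain ⟨σ, hσ, hσd⟩ : ∃ σ : ℝ, (σ = 1 ∨ σ = -1) ∧ σ * d = |d| := by
    rcases lt_or_gt_of_ne hd0 with h | h
    · exact ⟨-1, Or.inr rfl, by rw [abs_of_neg h]; ring⟩
    · exact ⟨1, Or.inl rfl, by rw [abs_of_pos h]; ring⟩
  have hdpos : 0 < |d| := abs_pos.2 hd0
  -- local inequality
  have hloc : ∀ᶠ u in 𝓝 t, |φ u - φ t - (u - t) * d| ≤ |d| / 2 * |u - t| := by
    have h1 := (hasDerivAt_iff_isLittleO.1 hd).def (c := |d| / 2) (by positivity)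
    filter_upwards [h1] with u hu
    simpa only [smul_eq_mul, Real.norm_eq_abs] using hu
  obtain ⟨δ, hδ, hball⟩ := Metric.eventually_nhds_iff.1 hloc
  have hlow : ∀ u ∈ Icc (0:ℝ) 1, |u - t| < δ →
      |d| / 2 * (u - t) ^ 2 ≤ σ * (g u k - g t k) * (u - t) := by
    intro u hu hut
    have h1 := hball (y := u) (by rw [Real.dist_eq]; exact hut)
    rw [hφ u hu, hφ t ht'] at h1
    have hσabs : |σ| = 1 := by rcases hσ with rfl | rfl <;> simp
    have h2 : |σ * (g u k - g t k - (u - t) * d) * (u - t)| ≤ |d| / 2 * (u - t) ^ 2 := by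
      rw [abs_mul, abs_mul, hσabs, one_mul]
      calc |g u k - g t k - (u - t) * d| * |u - t| ≤ (|d| / 2 * |u - t|) * |u - t| :=
            mul_le_mul_of_nonneg_right h1 (abs_nonneg _)
        _ = |d| / 2 * (u - t) ^ 2 := by rw [mul_assoc, ← sq, sq_abs]
    have h3 := neg_le_of_abs_le h2
    have h4 : σ * (g u k - g t k) * (u - t) =
        σ * (g u k - g t k - (u - t) * d) * (u - t) + |d| * (u - t) ^ 2 := by
      rw [← hσd]; ring
    rw [h4]
    nlinarith [sq_nonneg (u - t)]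
  -- far away
  obtain ⟨r₁, hr₁, hfar⟩ : ∃ r₁ > 0, ∀ u ∈ Icc (0:ℝ) 1, δ ≤ |u - t| → r₁ ≤ ‖g u - g t‖ := by
    have hK : IsCompact (Icc (0:ℝ) 1 ∩ {u | δ ≤ |u - t|}) :=
      isCompact_Icc.inter_right (isClosed_le continuous_const (by fun_prop))
    rcases (Icc (0:ℝ) 1 ∩ {u | δ ≤ |u - t|}).eq_empty_or_nonempty with he | hne
    · refine ⟨1, one_pos, fun u hu h => ?_⟩
      exact absurd (show u ∈ Icc (0:ℝ) 1 ∩ {u | δ ≤ |u - t|} from ⟨hu, h⟩) (by rw [he]; simp)
    · obtain ⟨u₀, hu₀, hmin⟩ := hK.exists_isMinOn hne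
        (f := fun u => ‖g u - g t‖) ((hg.mono inter_subset_left).sub continuousOn_const).norm
      refine ⟨‖g u₀ - g t‖, ?_, fun u hu h => hmin ⟨hu, h⟩⟩
      refine norm_pos_iff.2 (sub_ne_zero.2 ?_)
      intro he
      have := hinj hu₀.1 ht' he
      have h2 := hu₀.2
      rw [mem_ofPred_eq, this, sub_self, abs_zero] at h2
      linarith
  obtain ⟨n, hn⟩ := exists_nat_one_div_lt (show 0 < min (min r r₁) (|d| / 2) by positivity)
  have hn1 : 1 / (n + 1 : ℝ) < r := hn.trans_le ((min_le_left _ _).trans (min_le_left _ _))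
  have hn2 : 1 / (n + 1 : ℝ) < r₁ := hn.trans_le ((min_le_left _ _).trans (min_le_right _ _))
  have hn3 : 1 / (n + 1 : ℝ) < |d| / 2 := hn.trans_le (min_le_right _ _)
  refine ⟨n, fun x hx => hn1.le.trans (hR x hx), σ, hσ, fun u hu hlt => ?_⟩
  have hut : |u - t| < δ := by
    by_contra hcon
    have := hfar u hu (not_lt.1 hcon)
    linarith
  exact (mul_le_mul_of_nonneg_right hn3.le (sq_nonneg _)).trans (hlow u hu hut)

end NB

open NB in
/-- **(NB)** -/
theorem specNB : SpecNB := by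
  intro g D R k hD hg hinj hR
  have hc := ND1.continuousOn_g hD hg
  refine ⟨fun n => isOpen_badS hc R k n, fun n t ht => ⟨ht.1, fun h => ht.2
    (good_mono (Nat.le_succ n) h)⟩, fun η hη => ?_⟩
  have hDk := ND1.intervalIntegrable_coord hD k
  -- almost everywhere derivative
  have hder : ∀ᵐ t : ℝ, t ∈ Ioo (0:ℝ) 1 → HasDerivAt (fun s => g 0 k + ∫ x in (0:ℝ)..s, D x k)
      (D t k) t := by
    have h1 := hDk.ae_hasDerivAt_integral
    filter_upwards [h1] with t ht hmem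
    have := ht (by rw [uIcc_of_le zero_le_one]; exact Ioo_subset_Icc_self hmem) 0
      (by rw [uIcc_of_le zero_le_one]; exact ⟨le_refl _, zero_le_one⟩)
    exact this.const_add (g 0 k)
  set μ : Measure ℝ := volume.restrict (Ioc 0 1) with hμ
  have hae : ∀ᵐ t ∂μ, Tendsto (fun n => (BadS g R k n).indicator
      (fun t => ENNReal.ofReal |D t k|) t) atTop (𝓝 0) := by
    refine ae_restrict_of_ae ?_
    filter_upwards [hder] with t ht
    by_cases h0 : t ∈ Ioo (0:ℝ) 1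
    swap
    · refine tendsto_const_nhds.congr fun n => ?_
      rw [indicator_of_notMem (fun h => h0 h.1)]
    by_cases hd : D t k = 0
    · refine tendsto_const_nhds.congr fun n => ?_
      rw [eq_comm, indicator_apply_eq_zero]
      intro _
      simp [hd]
    obtain ⟨n, hn⟩ := exists_good hc hinj h0 (hR t h0)
      (fun s hs => (ND1.coord_eq hD hg k hs).symm) (ht h0) hd
    refine tendsto_const_nhds.congr' ?_
    filter_upwards [eventually_ge_atTop n] with n' hn'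
    rw [indicator_of_notMem (fun h => h.2 (good_mono hn' hn))]
  have hmeas : AEMeasurable (fun t => ENNReal.ofReal |D t k|) μ := by
    have h1 : AEMeasurable (fun t => D t k) μ := by
      have := (intervalIntegrable_iff_integrableOn_Ioc_of_le zero_le_one).1 hDk
      exact this.aestronglyMeasurable.aemeasurable
    exact h1.abs.ennreal_ofReal
  have hfin : ∫⁻ t, ENNReal.ofReal |D t k| ∂μ ≠ ⊤ := by
    have := (intervalIntegrable_iff_integrableOn_Ioc_of_le zero_le_one).1 hDk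
    have h2 := this.hasFiniteIntegral
    rw [hasFiniteIntegral_iff_norm] at h2
    exact h2.ne
  have hlim := tendsto_lintegral_of_dominated_convergence' (μ := μ)
    (F := fun n => (BadS g R k n).indicator (fun t => ENNReal.ofReal |D t k|)) (f := fun _ => 0)
    (fun t => ENNReal.ofReal |D t k|)
    (fun n => hmeas.indicator (isOpen_badS hc R k n).measurableSet)
    (fun n => Eventually.of_forall fun t => indicator_le_self _ _ t) hfin hae
  rw [lintegral_zero] at hlim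
  have hev := hlim.eventually (ge_mem_nhds (show (0:ℝ≥0∞) < ENNReal.ofReal η from
    ENNReal.ofReal_pos.2 hη))
  obtain ⟨n, hn⟩ := hev.exists
  refine ⟨n, ?_⟩
  rw [lintegral_indicator (isOpen_badS hc R k n).measurableSet, hμ,
    Measure.restrict_restrict (isOpen_badS hc R k n).measurableSet,
    inter_eq_left.2 (fun t ht => Ioo_subset_Ioc_self ht.1)] at hn
  exact hn

end P073.Net
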