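import Vale.Agent.P073.Net.Defs

/-!
# P073, block NET, part ND, file 1: the size function
-/

open Set Metric Topology MeasureTheory Filter
open scoped ENNReal

namespace P073.Net.ND

open Vale.Agent.P073.St (V)
open P073.Net

/-- the family whose infimum is the size function -/
noncomputable def fam {ι : Type} (K : ι → Set V) (δ : ι → ℝ) : Option ι → V → ℝ
  | none, _ => 1
  | some i, x => δ i + infDist x (K i)

theorem fam_nonneg {ι : Type} (K : ι → Set V) (δ : ι → ℝ) (hδ : ∀ i, 0 < δ i) (o : Option ι)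
    (x : V) : 0 ≤ fam K δ o x := by
  cases o with
  | none => simp [fam]
  | some i => exact add_nonneg (hδ i).le infDist_nonneg

theorem fam_lip {ι : Type} (K : ι → Set V) (δ : ι → ℝ) (o : Option ι)
    (x y : V) : fam K δ o x ≤ fam K δ o y + ‖x - y‖ := by
  cases o with
  | none => simp [fam]
  | some i =>
    have := infDist_le_infDist_add_dist (s := K i) (x := x) (y := y)
    rw [dist_eq_norm] at this
    simp only [fam]
    linarith

/-- the infimum of the family -/
noncomputable def rho0 {ι : Type} (K : ι → Set V) (δ : ι → ℝ) (x : V) : ℝ := ⨅ o, fam K δ o x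

theorem bdd {ι : Type} (K : ι → Set V) (δ : ι → ℝ) (hδ : ∀ i, 0 < δ i) (x : V) :
    BddBelow (range fun o => fam K δ o x) :=
  ⟨0, by rintro _ ⟨o, rfl⟩; exact fam_nonneg K δ hδ o x⟩

theorem rho0_lip {ι : Type} (K : ι → Set V) (δ : ι → ℝ) (hδ : ∀ i, 0 < δ i)
    (x y : V) : rho0 K δ x ≤ rho0 K δ y + ‖x - y‖ := by
  have : rho0 K δ x - ‖x - y‖ ≤ rho0 K δ y := by
    refine le_ciInf fun o => ?_
    have h1 : rho0 K δ x ≤ fam K δ o x := ciInf_le (bdd K δ hδ x) o
    have h2 := fam_lip K δ o x y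
    linarith
  linarith

theorem rho0_le_one {ι : Type} (K : ι → Set V) (δ : ι → ℝ) (hδ : ∀ i, 0 < δ i) (x : V) :
    rho0 K δ x ≤ 1 := ciInf_le (bdd K δ hδ x) none

theorem rho0_le {ι : Type} (K : ι → Set V) (δ : ι → ℝ) (hδ : ∀ i, 0 < δ i) (i : ι) (x : V)
    (hx : x ∈ K i) : rho0 K δ x ≤ δ i := by
  have h1 : rho0 K δ x ≤ fam K δ (some i) x := ciInf_le (bdd K δ hδ x) (some i)
  have h2 : infDist x (K i) = 0 := infDist_zero_of_mem hx
  simp only [fam, h2] at h1
  linarith

theorem exists_lower {ι : Type} (S : Set ι) (hS : S.Finite) (δ : ι → ℝ) (hδ : ∀ i, 0 < δ i) :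
    ∃ c > 0, ∀ i ∈ S, c ≤ δ i := by
  induction S, hS using Set.Finite.induction_on with
  | empty => exact ⟨1, one_pos, by simp⟩
  | insert ha hs ih =>
    obtain ⟨c, hc, h⟩ := ih
    rename_i a s
    refine ⟨min c (δ a), lt_min hc (hδ a), ?_⟩
    intro i hi
    rcases hi with rfl | hi
    · exact min_le_right _ _
    · exact (min_le_left _ _).trans (h i hi)

theorem rho0_pos {ι : Type} (Λ : Set V) (hΛ : IsOpen Λ) (K : ι → Set V) (δ : ι → ℝ)
    (hδ : ∀ i, 0 < δ i) (hne : ∀ i, (K i).Nonempty)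
    (hfin : ∀ C ⊆ Λ, IsCompact C → {i | (K i ∩ C).Nonempty}.Finite) (x : V) (hx : x ∈ Λ) :
    0 < rho0 K δ x := by
  obtain ⟨r, hr, hball⟩ := nhds_basis_closedBall.mem_iff.1 (hΛ.mem_nhds hx)
  obtain ⟨c, hc, h⟩ := exists_lower _ (hfin _ hball (isCompact_closedBall x r)) δ hδ
  refine lt_of_lt_of_le (lt_min one_pos (lt_min hc hr)) (le_ciInf fun o => ?_ :
    min 1 (min c r) ≤ rho0 K δ x)
  cases o with
  | none => simp [fam]
  | some i =>
    simp only [fam]
    by_cases hi : (K i ∩ closedBall x r).Nonempty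
    · have := h i hi
      have h0 : (0:ℝ) ≤ infDist x (K i) := infDist_nonneg
      have : min 1 (min c r) ≤ c := (min_le_right _ _).trans (min_le_left _ _)
      linarith
    · have h1 : r ≤ infDist x (K i) := by
        rw [le_infDist (hne i)]
        intro y hy
        by_contra hlt
        refine hi ⟨y, hy, ?_⟩
        rw [mem_closedBall, dist_comm]
        exact (not_le.1 hlt).le
      have h0 := hδ i
      have : min 1 (min c r) ≤ r := (min_le_right _ _).trans (min_le_right _ _)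
      linarith

/-- **The size function.** -/
theorem exists_size {ι : Type} (Λ : Set V) (hΛ : IsOpen Λ) (K : ι → Set V) (δ : ι → ℝ)
    (hδ : ∀ i, 0 < δ i) (hne : ∀ i, (K i).Nonempty)
    (hfin : ∀ C ⊆ Λ, IsCompact C → {i | (K i ∩ C).Nonempty}.Finite) :
    ∃ ρ, SizeFn Λ ρ ∧ ∀ i, ∀ x ∈ K i, ρ x ≤ δ i := by
  by_cases hu : Λᶜ = ∅
  · refine ⟨rho0 K δ, ⟨rho0_lip K δ hδ, rho0_pos Λ hΛ K δ hδ hne hfin, ?_,
      rho0_le_one K δ hδ⟩, rho0_le K δ hδ⟩
    intro x hx
    have : x ∈ Λᶜ := hx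
    rw [hu] at this
    exact this.elim
  · have hne' : (Λᶜ).Nonempty := nonempty_iff_ne_empty.2 hu
    refine ⟨fun x => min (rho0 K δ x) (infDist x Λᶜ), ⟨?_, ?_, ?_, ?_⟩, ?_⟩
    · intro x y
      have h1 := rho0_lip K δ hδ x y
      have h2 := infDist_le_infDist_add_dist (s := Λᶜ) (x := x) (y := y)
      rw [dist_eq_norm] at h2
      rw [min_add]
      exact min_le_min h1 h2
    · intro x hx
      refine lt_min (rho0_pos Λ hΛ K δ hδ hne hfin x hx) ?_
      rw [← hΛ.isClosed_compl.notMem_iff_infDist_pos hne']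
      simpa using hx
    · intro x hx
      refine (min_le_right _ _).trans ?_
      rw [infDist_zero_of_mem (show x ∈ Λᶜ from hx)]
    · intro x
      exact (min_le_left _ _).trans (rho0_le_one K δ hδ x)
    · intro i x hx
      exact (min_le_left _ _).trans (rho0_le K δ hδ i x hx)

end P073.Net.ND
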