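import Vale.Agent.P073.Net.ND1
import Vale.Agent.P073.Net.NDsize

/-!
# P073, block NET, part ND: random translation of the tiling (helper489)
-/

open Set Metric Topology MeasureTheory Filter
open scoped ENNReal

namespace P073.Net.ND

open Vale.Agent.P073.St (V)
open P073.Net

/-! ### at most four scales -/

theorem scale_close {r : ℝ} {M M' : ℕ} (h1 : (1:ℝ) / 2 ^ M < 2 * r) (h2 : r < 8 / 2 ^ M') :
    M' < M + 4 := by
  by_contra hc
  have hc : M + 4 ≤ M' := not_lt.1 hc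
  have h3 : (2:ℝ) ^ (M + 4) ≤ 2 ^ M' := pow_le_pow_right₀ (by norm_num) hc
  have h4 : (8:ℝ) / 2 ^ M' ≤ 8 / 2 ^ (M + 4) := by gcongr
  have h5 : (8:ℝ) / 2 ^ (M + 4) = (1 / 2 ^ M) / 2 := by
    rw [pow_add]; field_simp; norm_num
  linarith

theorem scale_tsum (r : ℝ) :
    ∑' M : ℕ, (if (1:ℝ) / 2 ^ M < 2 * r ∧ r < 8 / 2 ^ M then (1:ℝ≥0∞) else 0) ≤ 4 := by
  classical
  by_cases hex : ∃ M : ℕ, (1:ℝ) / 2 ^ M < 2 * r ∧ r < 8 / 2 ^ M
  · set M₀ := Nat.find hex with hM₀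
    have hspec := Nat.find_spec hex
    rw [← hM₀] at hspec
    have hout : ∀ M ∉ Finset.Ico M₀ (M₀ + 4),
        (if (1:ℝ) / 2 ^ M < 2 * r ∧ r < 8 / 2 ^ M then (1:ℝ≥0∞) else 0) = 0 := by
      intro M hM
      rw [if_neg]
      intro hM'
      refine hM (Finset.mem_Ico.2 ⟨Nat.find_min' hex hM', scale_close hspec.1 hM'.2⟩)
    rw [tsum_eq_sum hout]
    calc ∑ M ∈ Finset.Ico M₀ (M₀ + 4),
          (if (1:ℝ) / 2 ^ M < 2 * r ∧ r < 8 / 2 ^ M then (1:ℝ≥0∞) else 0)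
        ≤ ∑ M ∈ Finset.Ico M₀ (M₀ + 4), (1:ℝ≥0∞) := by
          refine Finset.sum_le_sum fun M _ => ?_
          split_ifs <;> simp
      _ = 4 := by simp
  · have : ∀ M : ℕ, (if (1:ℝ) / 2 ^ M < 2 * r ∧ r < 8 / 2 ^ M then (1:ℝ≥0∞) else 0) = 0 := by
      intro M
      rw [if_neg]
      exact fun h => hex ⟨M, h⟩
    rw [tsum_congr this]
    simp

/-- the part of the bad set where the scale `2^{-M}` may occur -/
def scaleSet (b : Set ℝ) (q : ℝ → ℝ) (M : ℕ) : Set ℝ :=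
  b ∩ {t | (1:ℝ) / 2 ^ M < 2 * q t ∧ q t < 8 / 2 ^ M}

theorem isOpen_scaleSet {b : Set ℝ} (hb : IsOpen b) {q : ℝ → ℝ} (hq : ContinuousOn q b) (M : ℕ) :
    IsOpen (scaleSet b q M) := by
  have h1 : scaleSet b q M = b ∩ q ⁻¹' {r | (1:ℝ) / 2 ^ M < 2 * r ∧ r < 8 / 2 ^ M} := rfl
  rw [h1]
  refine hq.isOpen_inter_preimage hb ?_
  exact (isOpen_lt continuous_const (continuous_const.mul continuous_id)).inter
    (isOpen_lt continuous_id continuous_const)

theorem scaleSet_sum {b : Set ℝ} (hb : IsOpen b) {q : ℝ → ℝ} (hq : ContinuousOn q b)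
    (w : ℝ → ℝ≥0∞) :
    ∑' M : ℕ, ∫⁻ t in scaleSet b q M, w t ≤ 4 * ∫⁻ t in b, w t := by
  classical
  set ν : Measure ℝ := volume.withDensity w with hν
  have hm : ∀ M, MeasurableSet (scaleSet b q M) := fun M => (isOpen_scaleSet hb hq M).measurableSet
  calc ∑' M : ℕ, ∫⁻ t in scaleSet b q M, w t
      = ∑' M : ℕ, ∫⁻ t, (scaleSet b q M).indicator 1 t ∂ν := by
        congr 1
        ext M
        rw [lintegral_indicator_one (hm M), hν, withDensity_apply _ (hm M)]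
    _ = ∫⁻ t, ∑' M : ℕ, (scaleSet b q M).indicator 1 t ∂ν := by
        rw [lintegral_tsum]
        intro M
        exact (measurable_one.indicator (hm M)).aemeasurable
    _ ≤ ∫⁻ t, b.indicator (fun _ => 4) t ∂ν := by
        refine lintegral_mono fun t => ?_
        by_cases ht : t ∈ b
        · rw [indicator_of_mem ht]
          refine le_trans (le_of_eq ?_) (scale_tsum (q t))
          congr 1
          ext M
          by_cases h : (1:ℝ) / 2 ^ M < 2 * q t ∧ q t < 8 / 2 ^ M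
          · rw [if_pos h, indicator_of_mem (show t ∈ scaleSet b q M from ⟨ht, h⟩), Pi.one_apply]
          · rw [if_neg h, indicator_of_notMem (fun h' : t ∈ scaleSet b q M => h h'.2)]
        · have : ∀ M, (scaleSet b q M).indicator (1 : ℝ → ℝ≥0∞) t = 0 := fun M =>
            indicator_of_notMem (fun h' : t ∈ scaleSet b q M => ht h'.1) _
          simp [this]
    _ = 4 * ∫⁻ t in b, w t := by
        rw [lintegral_indicator_const hb.measurableSet, hν, withDensity_apply _ hb.measurableSet]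

/-! ### periodisation -/

theorem count_tsum (M : ℕ) (z : ℝ) (c : ℝ≥0∞) :
    ∑' j : ℤ, (Ico ((j:ℝ) / 2 ^ M) (1 + (j:ℝ) / 2 ^ M)).indicator (fun _ => c) z ≤ 2 ^ M * c := by
  classical
  have hp : (0:ℝ) < 2 ^ M := by positivity
  have hout : ∀ j ∉ Finset.Ioc (⌊2 ^ M * z⌋ - 2 ^ M) ⌊2 ^ M * z⌋,
      (Ico ((j:ℝ) / 2 ^ M) (1 + (j:ℝ) / 2 ^ M)).indicator (fun _ => c) z = 0 := by
    intro j hj
    refine indicator_of_notMem (fun h => hj ?_) _
    obtain ⟨h1, h2⟩ := h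
    refine Finset.mem_Ioc.2 ⟨?_, ?_⟩
    · have h3 : 2 ^ M * z < 2 ^ M + j := by
        have := mul_lt_mul_of_pos_left h2 hp
        rw [mul_add, mul_one, mul_div_cancel₀ _ hp.ne'] at this
        exact this
      have h4 : ⌊2 ^ M * z⌋ < (2:ℤ) ^ M + j := by
        rw [Int.floor_lt]
        push_cast
        exact h3
      linarith
    · rw [Int.le_floor]
      rw [div_le_iff₀ hp] at h1
      linarith
  rw [tsum_eq_sum hout]
  calc ∑ j ∈ Finset.Ioc (⌊2 ^ M * z⌋ - 2 ^ M) ⌊2 ^ M * z⌋,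
        (Ico ((j:ℝ) / 2 ^ M) (1 + (j:ℝ) / 2 ^ M)).indicator (fun _ => c) z
      ≤ ∑ j ∈ Finset.Ioc (⌊2 ^ M * z⌋ - (2:ℤ) ^ M) ⌊2 ^ M * z⌋, c := by
        refine Finset.sum_le_sum fun j _ => indicator_le_self _ _ _
    _ = 2 ^ M * c := by
        rw [Finset.sum_const, Int.card_Ioc, nsmul_eq_mul]
        congr 1
        have : ⌊2 ^ M * z⌋ - (⌊2 ^ M * z⌋ - (2:ℤ) ^ M) = ((2 ^ M : ℕ) : ℤ) := by
          push_cast; ring
        rw [this, Int.toNat_natCast]
        push_cast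
        rfl

theorem periodise (M : ℕ) {N : ℝ → ℝ≥0∞} (hN : Measurable N) :
    ∑' j : ℤ, ∫⁻ y in Ico (0:ℝ) 1, N (y + j / 2 ^ M) ≤ 2 ^ M * ∫⁻ y, N y := by
  have h1 : ∀ j : ℤ, ∫⁻ y in Ico (0:ℝ) 1, N (y + j / 2 ^ M) =
      ∫⁻ y, (Ico ((j:ℝ) / 2 ^ M) (1 + (j:ℝ) / 2 ^ M)).indicator (fun _ => N y) y := by
    intro j
    rw [← lintegral_indicator measurableSet_Ico]
    have h2 := lintegral_add_right_eq_self (μ := (volume : Measure ℝ))
      (fun y => (Ico ((j:ℝ) / 2 ^ M) (1 + (j:ℝ) / 2 ^ M)).indicator (fun _ => N y) y)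
      ((j:ℝ) / 2 ^ M)
    rw [← h2]
    congr 1
    ext y
    by_cases hy : y ∈ Ico (0:ℝ) 1
    · rw [indicator_of_mem hy, indicator_of_mem]
      exact ⟨by linarith [hy.1], by linarith [hy.2]⟩
    · rw [indicator_of_notMem hy, indicator_of_notMem]
      intro h
      exact hy ⟨by linarith [h.1], by linarith [h.2]⟩
  simp_rw [h1]
  rw [← lintegral_tsum, ← lintegral_const_mul _ hN]
  · exact lintegral_mono fun y => count_tsum M y (N y)
  · intro j
    have : (fun y => (Ico ((j:ℝ) / 2 ^ M) (1 + (j:ℝ) / 2 ^ M)).indicator (fun _ => N y) y) =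
        (Ico ((j:ℝ) / 2 ^ M) (1 + (j:ℝ) / 2 ^ M)).indicator N := by
      ext y
      by_cases hy : y ∈ Ico ((j:ℝ) / 2 ^ M) (1 + (j:ℝ) / 2 ^ M)
      · rw [indicator_of_mem hy, indicator_of_mem hy]
      · rw [indicator_of_notMem hy, indicator_of_notMem hy]
    rw [this]
    exact (hN.indicator measurableSet_Ico).aemeasurable

/-! ### the probability space of translations -/

/-- the uniform law on the unit cube -/
noncomputable def cubeLaw : Measure V :=
  Measure.pi fun _ : Fin 3 => (volume : Measure ℝ).restrict (Ico 0 1)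

instance instProbUnit : IsProbabilityMeasure ((volume : Measure ℝ).restrict (Ico 0 1)) :=
  ⟨by simp⟩

instance instProbCube : IsProbabilityMeasure cubeLaw := by
  unfold cubeLaw
  infer_instance

theorem cubeLaw_eq : cubeLaw = (volume : Measure V).restrict (univ.pi fun _ => Ico 0 1) := by
  rw [cubeLaw, volume_pi, Measure.restrict_pi_pi]

theorem cubeLaw_ae {P : V → Prop} (h : ∀ᵐ v : V, P v) : ∀ᵐ v ∂cubeLaw, P v := by
  rw [cubeLaw_eq]
  exact ae_restrict_of_ae h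

theorem cubeLaw_coord (k : Fin 3) {N : ℝ → ℝ≥0∞} (hN : Measurable N) :
    ∫⁻ v, N (v k) ∂cubeLaw = ∫⁻ y in Ico (0:ℝ) 1, N y := by
  have h := measurePreserving_eval (fun _ : Fin 3 => (volume : Measure ℝ).restrict (Ico 0 1)) k
  exact h.lintegral_comp hN

/-- the random majorant of the bad sum -/
noncomputable def maj (N : Fin 3 → ℕ → ℝ → ℝ≥0∞) (v : V) : ℝ≥0∞ :=
  ∑' p : Fin 3 × ℕ × ℤ, ENNReal.ofReal (4 / 2 ^ p.2.1) * N p.1 p.2.1 (v p.1 + p.2.2 / 2 ^ p.2.1)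

theorem measurable_maj {N : Fin 3 → ℕ → ℝ → ℝ≥0∞} (hN : ∀ k M, Measurable (N k M)) :
    Measurable (maj N) := by
  unfold maj
  refine Measurable.tsum fun p => ?_
  refine Measurable.const_mul ?_ _
  exact (hN _ _).comp ((measurable_pi_apply _).add_const _)

theorem lintegral_maj {N : Fin 3 → ℕ → ℝ → ℝ≥0∞} (hN : ∀ k M, Measurable (N k M)) :
    ∫⁻ v, maj N v ∂cubeLaw ≤ 4 * ∑ k : Fin 3, ∑' M : ℕ, ∫⁻ y, N k M y := by
  have hmeas : ∀ (k : Fin 3) (M : ℕ) (j : ℤ), Measurable fun y : ℝ => N k M (y + j / 2 ^ M) :=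
    fun k M j => (hN k M).comp (measurable_id.add_const _)
  unfold maj
  rw [lintegral_tsum]
  swap
  · intro p
    refine (Measurable.const_mul ?_ _).aemeasurable
    exact (hN _ _).comp ((measurable_pi_apply _).add_const _)
  have h1 : ∀ p : Fin 3 × ℕ × ℤ, ∫⁻ v, ENNReal.ofReal (4 / 2 ^ p.2.1) *
      N p.1 p.2.1 (v p.1 + p.2.2 / 2 ^ p.2.1) ∂cubeLaw =
      ENNReal.ofReal (4 / 2 ^ p.2.1) *
        ∫⁻ y in Ico (0:ℝ) 1, N p.1 p.2.1 (y + p.2.2 / 2 ^ p.2.1) := by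
    rintro ⟨k, M, j⟩
    rw [lintegral_const_mul]
    · rw [cubeLaw_coord k (hmeas k M j)]
    · exact (hN _ _).comp ((measurable_pi_apply _).add_const _)
  simp_rw [h1]
  rw [ENNReal.tsum_prod', tsum_fintype, Finset.mul_sum]
  refine Finset.sum_le_sum fun k _ => ?_
  rw [ENNReal.tsum_prod', ← ENNReal.tsum_mul_left]
  refine ENNReal.tsum_le_tsum fun M => ?_
  simp only
  rw [ENNReal.tsum_mul_left]
  calc ENNReal.ofReal (4 / 2 ^ M) * ∑' j : ℤ, ∫⁻ y in Ico (0:ℝ) 1, N k M (y + j / 2 ^ M)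
      ≤ ENNReal.ofReal (4 / 2 ^ M) * (2 ^ M * ∫⁻ y, N k M y) := by
        gcongr
        exact periodise M (hN k M)
    _ = 4 * ∫⁻ y, N k M y := by
        rw [← mul_assoc]
        congr 1
        rw [ENNReal.ofReal_div_of_pos (by positivity), ENNReal.ofReal_pow (by norm_num)]
        simp only [ENNReal.ofReal_ofNat]
        rw [ENNReal.div_mul_cancel] <;> simp

/-! ### the bad sum is at most the random majorant -/

theorem sum_le_maj {g : ℝ → V} {ρ : V → ℝ} {v : V} {b : Fin 3 → Set ℝ}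
    {N : Fin 3 → ℕ → ℝ → ℝ≥0∞}
    (hN : ∀ k M y, cnt (scaleSet (b k) (fun t => ρ (g t)) M ∩ (fun t => g t k) ⁻¹' {y}) ≤ N k M y)
    (hC : ∀ m z, IsTile ρ v m z → ∀ x ∈ dyc v m z, (1 / 2 ^ m : ℝ) ≤ ρ x ∧ ρ x ≤ 4 / 2 ^ m)
    {X : Finset ℝ} (hX : ∀ t ∈ X, ∃ k m z m' z', Crosses g ρ v t k m z m' z' ∧ t ∈ b k) :
    ENNReal.ofReal (∑ t ∈ X, ρ (g t)) ≤ maj N v := by
  classical
  have key : ∀ t ∈ X, ∃ p : Fin 3 × ℕ × ℤ,
      t ∈ scaleSet (b p.1) (fun t => ρ (g t)) p.2.1 ∧ g t p.1 = v p.1 + p.2.2 / 2 ^ p.2.1 ∧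
      ρ (g t) ≤ 4 / 2 ^ p.2.1 := by
    intro t ht
    obtain ⟨k, m, z, m', z', ⟨ht1, -, -, -, htz, -, -, -, -, hk⟩, hb⟩ := hX t ht
    obtain ⟨l1, l2⟩ := hC m z ht1 _ htz
    have hp : (0:ℝ) < 1 / 2 ^ m := by positivity
    have hq : (4:ℝ) / 2 ^ m < 8 / 2 ^ m := by
      have : (0:ℝ) < 2 ^ m := by positivity
      gcongr
      norm_num
    have hs : t ∈ scaleSet (b k) (fun t => ρ (g t)) m :=
      ⟨hb, by simp only; linarith, by simp only; linarith⟩
    rcases hk with ⟨hk, -⟩ | ⟨hk, -⟩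
    · exact ⟨(k, m, z k), hs, hk, l2⟩
    · refine ⟨(k, m, z k + 1), hs, ?_, l2⟩
      push_cast
      exact hk
  choose! p hp1 hp2 hp3 using key
  have h0 : ∀ t ∈ X, 0 ≤ ρ (g t) := by
    intro t ht
    obtain ⟨k, m, z, m', z', ⟨ht1, -, -, -, htz, -, -, -, -, hk⟩, hb⟩ := hX t ht
    exact le_trans (by positivity) (hC m z ht1 _ htz).1
  calc ENNReal.ofReal (∑ t ∈ X, ρ (g t))
      = ∑ t ∈ X, ENNReal.ofReal (ρ (g t)) := ENNReal.ofReal_sum_of_nonneg h0
    _ ≤ ∑ t ∈ X, ENNReal.ofReal (4 / 2 ^ (p t).2.1) :=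
        Finset.sum_le_sum fun t ht => ENNReal.ofReal_le_ofReal (hp3 t ht)
    _ = ∑ q ∈ X.image p, ∑ t ∈ X with p t = q, ENNReal.ofReal (4 / 2 ^ (p t).2.1) :=
        (Finset.sum_fiberwise_of_maps_to (fun t ht => Finset.mem_image_of_mem p ht) _).symm
    _ ≤ ∑ q ∈ X.image p, ENNReal.ofReal (4 / 2 ^ q.2.1) *
          N q.1 q.2.1 (v q.1 + q.2.2 / 2 ^ q.2.1) := by
        refine Finset.sum_le_sum fun q _ => ?_
        have e1 : ∑ t ∈ X with p t = q, ENNReal.ofReal (4 / 2 ^ (p t).2.1) =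
            ENNReal.ofReal (4 / 2 ^ q.2.1) * ((X.filter fun t => p t = q).card : ℝ≥0∞) := by
          rw [mul_comm, ← nsmul_eq_mul, ← Finset.sum_const]
          refine Finset.sum_congr rfl fun t ht => ?_
          rw [(Finset.mem_filter.1 ht).2]
        rw [e1]
        gcongr
        refine le_trans ?_ (hN q.1 q.2.1 _)
        unfold cnt
        have e2 : (((X.filter fun t => p t = q) : Finset ℝ) : Set ℝ) ⊆
            scaleSet (b q.1) (fun t => ρ (g t)) q.2.1 ∩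
              (fun t => g t q.1) ⁻¹' {v q.1 + q.2.2 / 2 ^ q.2.1} := by
          intro t ht
          obtain ⟨ht1, rfl⟩ := Finset.mem_filter.1 (Finset.mem_coe.1 ht)
          exact ⟨hp1 t ht1, hp2 t ht1⟩
        have e3 := Set.encard_le_encard e2
        rw [Set.encard_coe_eq_coe_finsetCard] at e3
        exact_mod_cast e3
    _ ≤ maj N v := ENNReal.sum_le_tsum _

end P073.Net.ND

namespace P073.Net

open Vale.Agent.P073.St (V)
open ND

/-- **ND** the choice of the tiling. -/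
theorem specND (hNA1 : SpecNA1) (hNA2 : SpecNA2) (hNC : SpecNC) : SpecND := by
  classical
  intro Λ hΛ ι hι g D hD hg _ hm hfin bad hbo hbI β δ η hβ hδ hη hbad hsum
  obtain ⟨ρ, hρ, hρδ⟩ := exists_size Λ hΛ (fun i => g i '' Icc 0 1) δ hδ
    (fun i => ⟨g i 0, 0, ⟨le_refl _, zero_le_one⟩, rfl⟩) hfin
  refine ⟨ρ, hρ, fun i t ht => hρδ i _ ⟨t, ht, rfl⟩, ?_⟩
  intro P hP
  -- the size along the curves is continuous
  have hρc : Continuous ρ := by
    refine LipschitzWith.continuous (K := 1) (LipschitzWith.of_dist_le_mul fun x y => ?_)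
    rw [Real.dist_eq, dist_eq_norm, NNReal.coe_one, one_mul, abs_sub_le_iff]
    have h1 := hρ.lip x y
    have h2 := hρ.lip y x
    rw [norm_sub_rev] at h2
    constructor <;> linarith
  have hgc : ∀ i, ContinuousOn (g i) (Icc 0 1) := fun i => ND1.continuousOn_g (hD i) (hg i)
  have hqc : ∀ i k, ContinuousOn (fun t => ρ (g i t)) (bad i k) := fun i k =>
    hρc.comp_continuousOn ((hgc i).mono ((hbI i k).trans Ioo_subset_Icc_self))
  -- the majorants
  have hN : ∀ i (k : Fin 3) (M : ℕ), ∃ N : ℝ → ℝ≥0∞, Measurable N ∧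
      (∀ y, cnt (scaleSet (bad i k) (fun t => ρ (g i t)) M ∩ (fun t => g i t k) ⁻¹' {y}) ≤ N y) ∧
      ∫⁻ y, N y ≤ ∫⁻ t in scaleSet (bad i k) (fun t => ρ (g i t)) M,
        ENNReal.ofReal |D i t k| := by
    intro i k M
    exact hNA1 (fun t => g i t k) (fun t => D i t k) (ND1.intervalIntegrable_coord (hD i) k)
      (fun t ht => ND1.coord_eq (hD i) (hg i) k ht) _ (isOpen_scaleSet (hbo i k) (hqc i k) M)
      (inter_subset_left.trans (hbI i k))
  choose N hNm hNc hNi using hN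
  -- expectation
  have hE : ∀ i, ∫⁻ v, maj (N i) v ∂cubeLaw ≤ 48 * ENNReal.ofReal (η i * β i) := by
    intro i
    calc ∫⁻ v, maj (N i) v ∂cubeLaw ≤ 4 * ∑ k : Fin 3, ∑' M : ℕ, ∫⁻ y, N i k M y :=
          lintegral_maj (hNm i)
      _ ≤ 4 * ∑ k : Fin 3, 4 * ENNReal.ofReal (η i * β i) := by
          gcongr with k _
          calc ∑' M : ℕ, ∫⁻ y, N i k M y
              ≤ ∑' M : ℕ, ∫⁻ t in scaleSet (bad i k) (fun t => ρ (g i t)) M,
                  ENNReal.ofReal |D i t k| := ENNReal.tsum_le_tsum fun M => hNi i k M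
            _ ≤ 4 * ∫⁻ t in bad i k, ENNReal.ofReal |D i t k| :=
                scaleSet_sum (hbo i k) (hqc i k) _
            _ ≤ 4 * ENNReal.ofReal (η i * β i) := by
                gcongr
                exact hbad i k
      _ = 48 * ENNReal.ofReal (η i * β i) := by
          rw [Finset.sum_const, Finset.card_univ, Fintype.card_fin, nsmul_eq_mul, ← mul_assoc,
            ← mul_assoc]
          norm_num
  -- Markov
  have hMk : ∀ i, cubeLaw {v | ENNReal.ofReal (η i) ≤ maj (N i) v} ≤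
      48 * ENNReal.ofReal (β i) := by
    intro i
    have hη0 : ENNReal.ofReal (η i) ≠ 0 := by
      rw [Ne, ENNReal.ofReal_eq_zero, not_le]; exact hη i
    refine (meas_ge_le_lintegral_div (measurable_maj (hNm i)).aemeasurable hη0
      ENNReal.ofReal_ne_top).trans ?_
    rw [ENNReal.div_le_iff hη0 ENNReal.ofReal_ne_top]
    refine (hE i).trans (le_of_eq ?_)
    rw [ENNReal.ofReal_mul (hη i).le, mul_assoc, mul_comm (ENNReal.ofReal (η i))]
  by_contra hno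
  push Not at hno
  have hgen : ∀ᵐ v : V, ∀ i, GenPos (g i) ρ v :=
    ae_all_iff.2 fun i => specND1 hNA2 hNC hρ (hD i) (hg i) (hm i)
  have h1 : ∀ᵐ v ∂cubeLaw, v ∈ ⋃ i, {v | ENNReal.ofReal (η i) ≤ maj (N i) v} := by
    filter_upwards [cubeLaw_ae hP, cubeLaw_ae hgen] with v hv1 hv2
    obtain ⟨i, X, hX, hlt⟩ := hno v hv1 hv2
    refine mem_iUnion.2 ⟨i, ?_⟩
    have h2 := sum_le_maj (hNc i) (hNC Λ ρ hρ v).2.2.2.1 hX
    exact (ENNReal.ofReal_le_ofReal hlt.le).trans h2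
  have h2 : (1:ℝ≥0∞) ≤ cubeLaw (⋃ i, {v | ENNReal.ofReal (η i) ≤ maj (N i) v}) := by
    have := measure_mono_ae (μ := cubeLaw) (s := univ)
      (t := ⋃ i, {v | ENNReal.ofReal (η i) ≤ maj (N i) v}) (by
        filter_upwards [h1] with v hv _
        exact hv)
    rwa [measure_univ] at this
  have h3 : cubeLaw (⋃ i, {v | ENNReal.ofReal (η i) ≤ maj (N i) v}) ≤ 48 / 100 := by
    calc cubeLaw (⋃ i, {v | ENNReal.ofReal (η i) ≤ maj (N i) v})
        ≤ ∑' i, cubeLaw {v | ENNReal.ofReal (η i) ≤ maj (N i) v} := measure_iUnion_le _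
      _ ≤ ∑' i, 48 * ENNReal.ofReal (β i) := ENNReal.tsum_le_tsum hMk
      _ = 48 * ∑' i, ENNReal.ofReal (β i) := ENNReal.tsum_mul_left
      _ ≤ 48 * ENNReal.ofReal (1 / 100) := by gcongr
      _ = 48 / 100 := by
          rw [ENNReal.ofReal_div_of_pos (by norm_num), ENNReal.ofReal_one, ENNReal.ofReal_ofNat,
            mul_one_div]
  have h4 : (48:ℝ≥0∞) / 100 < 1 := by
    rw [ENNReal.div_lt_iff (by norm_num) (by norm_num)]
    norm_num
  exact absurd (h2.trans h3) (not_le.2 h4)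

end P073.Net
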