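import Vale.Agent.P073.Net.Asm
import Vale.Agent.P073.Net.Maps

/-!
# P073, block NET: moving the crossings to the right positions (NG1)
-/

open Set Metric Topology MeasureTheory Filter
open scoped ENNReal NNReal

namespace P073.Net

open Vale.Agent.P073.St (V euc IsHomeo IsInv)
open ND1 (dyo_sub_dyc isClosed_dyc)

namespace NG1

/-- the box around `p` and `g` with margin `ν` -/
def bx (p g : V) (ν : ℝ) : Set V :=
  {x | ∀ j, min (p j) (g j) - ν ≤ x j ∧ x j ≤ max (p j) (g j) + ν}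

theorem bx_mono {p g : V} {ν ν' : ℝ} (h : ν ≤ ν') : bx p g ν ⊆ bx p g ν' := fun x hx j =>
  ⟨by linarith [(hx j).1], by linarith [(hx j).2]⟩

theorem bx_zero_sub {v p g : V} {m : ℕ} {z : Fin 3 → ℤ} (hp : p ∈ dyc v m z)
    (hg : g ∈ dyc v m z) : bx p g 0 ⊆ dyc v m z := by
  intro x hx j
  have h1 := hx j
  have h2 := hp j
  have h3 := hg j
  constructor
  · have := le_min h2.1 h3.1
    linarith
  · have := max_le h2.2 h3.2
    linarith

/-- the nearest point of the box with margin zero -/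
theorem exists_near {p g p' g' x : V} {ν ν' : ℝ} (hν' : 0 ≤ ν') (h : x ∈ bx p g ν)
    (h' : x ∈ bx p' g' ν') : ∃ y ∈ bx p' g' 0, y ∈ bx p g (ν + ν') := by
  refine ⟨fun j => max (min (p' j) (g' j)) (min (x j) (max (p' j) (g' j))), fun j => ?_,
    fun j => ?_⟩
  · have h1 : min (p' j) (g' j) ≤ max (p' j) (g' j) := min_le_max
    constructor
    · show min (p' j) (g' j) - 0 ≤ max (min (p' j) (g' j)) (min (x j) (max (p' j) (g' j)))
      rw [sub_zero]
      exact le_max_left _ _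
    · show max (min (p' j) (g' j)) (min (x j) (max (p' j) (g' j))) ≤ max (p' j) (g' j) + 0
      rw [add_zero]
      exact max_le h1 (min_le_right _ _)
  · have h1 := h j
    have h2 := h' j
    have h3 : min (p' j) (g' j) ≤ max (p' j) (g' j) := min_le_max
    constructor
    · show _ ≤ max (min (p' j) (g' j)) (min (x j) (max (p' j) (g' j)))
      refine le_max_of_le_right (le_min (by linarith) (by linarith))
    · show max (min (p' j) (g' j)) (min (x j) (max (p' j) (g' j))) ≤ _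
      refine max_le (by linarith) (min_le_of_left_le (by linarith))

theorem isOpen_inBox (lo hi : V) : IsOpen {x : V | InBox lo hi x} := by
  have : {x : V | InBox lo hi x} = ⋂ k, {x : V | lo k < x k ∧ x k < hi k} := by
    ext x; simp [InBox]
  rw [this]
  refine isOpen_iInter_of_finite fun k => ?_
  exact (isOpen_lt continuous_const (continuous_apply k)).inter
    (isOpen_lt (continuous_apply k) continuous_const)

theorem dyc_sub_closure (v : V) (m : ℕ) (z : Fin 3 → ℤ) : dyc v m z ⊆ closure (dyo v m z) := by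
  have e1 : dyc v m z = closedBall (ctr v m z) (hs m) := by
    ext x; rw [mem_dyc_iff, mem_closedBall, dist_eq_norm]
  have e2 : dyo v m z = ball (ctr v m z) (hs m) := by
    ext x; rw [mem_dyo_iff, mem_ball, dist_eq_norm]
  rw [e1, e2, closure_ball _ (hs_pos m).ne']

/-- **the move of one crossing** -/
theorem exists_move (hT2 : SpecT2) {Λ : Set V} {ρ : V → ℝ} (hρ : SizeFn Λ ρ) {v p g : V}
    {k : Fin 3} {m : ℕ} {z : Fin 3 → ℤ} {m' : ℕ} {z' : Fin 3 → ℤ} (hC : IsTile ρ v m z)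
    (hC' : IsTile ρ v m' z') (hne : (m, z) ≠ (m', z')) (hp : p ∈ dyc v m z)
    (hp' : p ∈ dyc v m' z') (hg : g ∈ dyc v m z) (hg' : g ∈ dyc v m' z')
    (hponly : ∀ m₁ z₁, IsTile ρ v m₁ z₁ → p ∈ dyc v m₁ z₁ →
      (m₁, z₁) = (m, z) ∨ (m₁, z₁) = (m', z'))
    (hgonly : ∀ m₁ z₁, IsTile ρ v m₁ z₁ → g ∈ dyc v m₁ z₁ →
      (m₁, z₁) = (m, z) ∨ (m₁, z₁) = (m', z'))
    (hgk : g k = v k + z k / 2 ^ m) (hgk' : g k = v k + (z' k + 1) / 2 ^ m') :
    ∃ ν : ℝ, 0 < ν ∧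
      (∀ x ∈ bx p g (2 * ν), ∀ m₁ z₁, IsTile ρ v m₁ z₁ → x ∈ dyc v m₁ z₁ →
        (m₁, z₁) = (m, z) ∨ (m₁, z₁) = (m', z')) ∧
      (∀ x ∈ bx p g (2 * ν), x ∈ dyc v m z ∨ x ∈ dyc v m' z') ∧
      ∃ Θ : ConHomeo (univ : Set V) (univ : Set V), (∀ x, x ∉ bx p g ν → Θ.toFun x = x) ∧
        Θ.toFun p = g ∧ ∀ x, ∀ m₁ z₁, IsTile ρ v m₁ z₁ →
          (Θ.toFun x ∈ dyc v m₁ z₁ ↔ x ∈ dyc v m₁ z₁) := by
  obtain ⟨_, _, hdis, _, _⟩ := specNC Λ ρ hρ v
  have h2m : (0:ℝ) < 1 / 2 ^ m := by positivity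
  have h2m' : (0:ℝ) < 1 / 2 ^ m' := by positivity
  -- the point `p` is in the same plane
  have hpk : p k = g k := by
    have h1 := (hp k).1
    have h2 := (hp' k).2
    linarith
  have hgin := hT2 Λ ρ hρ v g k m z m' z' hC hC' hne hg hg' hgonly hgk hgk'
  have hpin := hT2 Λ ρ hρ v p k m z m' z' hC hC' hne hp hp' hponly (hpk.trans hgk)
    (hpk.trans hgk')
  -- the big open box
  set c : ℝ := g k with hc
  set Lo : V := fun j => if j = k then c - min (1 / 2 ^ m) (1 / 2 ^ m') else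
    max (v j + z j / 2 ^ m) (v j + z' j / 2 ^ m') with hLo
  set Hi : V := fun j => if j = k then c + min (1 / 2 ^ m) (1 / 2 ^ m') else
    min (v j + (z j + 1) / 2 ^ m) (v j + (z' j + 1) / 2 ^ m') with hHi
  have hminpos : 0 < min (1 / 2 ^ m : ℝ) (1 / 2 ^ m') := lt_min h2m h2m'
  have hLok : Lo k = c - min (1 / 2 ^ m) (1 / 2 ^ m') := by simp [hLo]
  have hHik : Hi k = c + min (1 / 2 ^ m) (1 / 2 ^ m') := by simp [hHi]
  have hLoj : ∀ j, j ≠ k → Lo j = max (v j + z j / 2 ^ m) (v j + z' j / 2 ^ m') := fun j hj => by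
    simp [hLo, hj]
  have hHij : ∀ j, j ≠ k → Hi j = min (v j + (z j + 1) / 2 ^ m) (v j + (z' j + 1) / 2 ^ m') :=
    fun j hj => by simp [hHi, hj]
  have hupp : v k + (z k + 1) / 2 ^ m = c + 1 / 2 ^ m := by rw [hgk]; ring
  have hlow : v k + z' k / 2 ^ m' = c - 1 / 2 ^ m' := by rw [hgk']; ring
  -- membership in the two tiles for points of the big box
  have hmem : ∀ x, InBox Lo Hi x → (x ∈ dyc v m z ↔ c ≤ x k) := by
    intro x hx
    constructor
    · intro h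
      have := (h k).1
      rwa [← hgk] at this
    · intro h j
      by_cases hj : j = k
      · subst hj
        have h3 := (hx j).2
        rw [hHik] at h3
        have h4 : min (1 / 2 ^ m : ℝ) (1 / 2 ^ m') ≤ 1 / 2 ^ m := min_le_left _ _
        rw [hupp, ← hgk]
        exact ⟨h, by linarith⟩
      · have h3 := hx j
        rw [hLoj j hj, hHij j hj] at h3
        exact ⟨((max_lt_iff.1 h3.1).1).le, ((lt_min_iff.1 h3.2).1).le⟩
  have hmem' : ∀ x, InBox Lo Hi x → (x ∈ dyc v m' z' ↔ x k ≤ c) := by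
    intro x hx
    constructor
    · intro h
      have := (h k).2
      rwa [← hgk'] at this
    · intro h j
      by_cases hj : j = k
      · subst hj
        have h3 := (hx j).1
        rw [hLok] at h3
        have h4 : min (1 / 2 ^ m : ℝ) (1 / 2 ^ m') ≤ 1 / 2 ^ m' := min_le_right _ _
        rw [hlow, ← hgk']
        exact ⟨by linarith, h⟩
      · have h3 := hx j
        rw [hLoj j hj, hHij j hj] at h3
        exact ⟨((max_lt_iff.1 h3.1).2).le, ((lt_min_iff.1 h3.2).2).le⟩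
  have hcov : ∀ x, InBox Lo Hi x → x ∈ dyc v m z ∨ x ∈ dyc v m' z' := by
    intro x hx
    rw [hmem x hx, hmem' x hx]
    exact le_total _ _
  have honly : ∀ x, InBox Lo Hi x → ∀ m₁ z₁, IsTile ρ v m₁ z₁ → x ∈ dyc v m₁ z₁ →
      (m₁, z₁) = (m, z) ∨ (m₁, z₁) = (m', z') := by
    intro x hx m₁ z₁ h1 hx1
    by_contra hcon
    push Not at hcon
    obtain ⟨y, hyo, hyb⟩ := mem_closure_iff.1 (dyc_sub_closure v m₁ z₁ hx1) _
      (isOpen_inBox Lo Hi) hx
    rcases hcov y hyo with h | h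
    · exact Set.disjoint_left.1 (hdis m₁ z₁ m z h1 hC hcon.1) hyb h
    · exact Set.disjoint_left.1 (hdis m₁ z₁ m' z' h1 hC' hcon.2) hyb h
  -- the margin
  have hin : ∀ j, Lo j < min (p j) (g j) ∧ max (p j) (g j) < Hi j := by
    intro j
    by_cases hj : j = k
    · subst hj
      rw [hLok, hHik, hpk, min_self, max_self]
      constructor <;> linarith
    · rw [hLoj j hj, hHij j hj]
      have h1 := hgin j hj
      have h2 := hpin j hj
      exact ⟨lt_min (max_lt h2.1.1 h2.2.1) (max_lt h1.1.1 h1.2.1),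
        max_lt (lt_min h2.1.2 h2.2.2) (lt_min h1.1.2 h1.2.2)⟩
  obtain ⟨ν, hν, hνj⟩ : ∃ ν : ℝ, 0 < ν ∧ ∀ j, Lo j < min (p j) (g j) - 2 * ν ∧
      max (p j) (g j) + 2 * ν < Hi j := by
    set d : Fin 3 → ℝ := fun j => min (min (p j) (g j) - Lo j) (Hi j - max (p j) (g j)) with hd
    have hdpos : ∀ j, 0 < d j := fun j =>
      lt_min (by linarith [(hin j).1]) (by linarith [(hin j).2])
    obtain ⟨j₀, hj₀⟩ := Finite.exists_min d
    refine ⟨d j₀ / 3, by linarith [hdpos j₀], fun j => ?_⟩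
    have h1 := hj₀ j
    have h2 : d j ≤ min (p j) (g j) - Lo j := min_le_left _ _
    have h3 : d j ≤ Hi j - max (p j) (g j) := min_le_right _ _
    have h4 := hdpos j₀
    constructor <;> linarith
  have hsub : ∀ x ∈ bx p g (2 * ν), InBox Lo Hi x := fun x hx j =>
    ⟨(hνj j).1.trans_le (hx j).1, (hx j).2.trans_lt (hνj j).2⟩
  refine ⟨ν, hν, fun x hx => honly x (hsub x hx), fun x hx => hcov x (hsub x hx), ?_⟩
  -- the cone move
  set lo : V := fun j => min (p j) (g j) - ν with hlo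
  set hi : V := fun j => max (p j) (g j) + ν with hhi
  have hpb : InBox lo hi p := fun j =>
    ⟨by have := min_le_left (p j) (g j); simp only [hlo]; linarith,
      by have := le_max_left (p j) (g j); simp only [hhi]; linarith⟩
  have hgb : InBox lo hi g := fun j =>
    ⟨by have := min_le_right (p j) (g j); simp only [hlo]; linarith,
      by have := le_max_right (p j) (g j); simp only [hhi]; linarith⟩
  have hfix : ∀ x, ¬ InBox lo hi x → (coneMove lo hi p g hpb hgb).toFun x = x := by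
    intro x hx
    refine coneMove_eq_self ?_
    unfold InBox at hx
    push Not at hx
    obtain ⟨j, hj⟩ := hx
    refine ⟨j, ?_⟩
    by_contra h
    push Not at h
    exact absurd (hj h.1) (not_le.2 h.2)
  have hbig : ∀ x, InBox lo hi x → InBox Lo Hi x := fun x hx => hsub x fun j => by
    have h1 := hx j
    simp only [hlo, hhi] at h1
    constructor <;> linarith
  refine ⟨coneMove lo hi p g hpb hgb, fun x hx => hfix x fun h => hx fun j =>
    ⟨(h j).1.le, (h j).2.le⟩, coneMove_apex, fun x m₁ z₁ h1 => ?_⟩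
  by_cases hx : InBox lo hi x
  · have hx2 : InBox lo hi ((coneMove lo hi p g hpb hgb).toFun x) := coneMove_inBox hx
    have hk : ((coneMove lo hi p g hpb hgb).toFun x) k = x k := by
      obtain ⟨s, _, hs⟩ := coneMove_sub lo hi p g hpb hgb x
      rw [hs]
      simp only [Pi.add_apply, Pi.smul_apply, Pi.sub_apply, hpk, smul_eq_mul, hc]
      ring
    have hX := hbig _ hx
    have hX2 := hbig _ hx2
    by_cases e1 : (m₁, z₁) = (m, z)
    · rw [Prod.mk.injEq] at e1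
      rw [e1.1, e1.2, hmem _ hX, hmem _ hX2, hk]
    · by_cases e2 : (m₁, z₁) = (m', z')
      · rw [Prod.mk.injEq] at e2
        rw [e2.1, e2.2, hmem' _ hX, hmem' _ hX2, hk]
      · constructor
        · intro h
          rcases honly _ hX2 _ _ h1 h with h | h
          · exact absurd h e1
          · exact absurd h e2
        · intro h
          rcases honly _ hX _ _ h1 h with h | h
          · exact absurd h e1
          · exact absurd h e2
  · rw [hfix x hx]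

/-- the crossing, normalised -/
theorem crosses_normal {g : ℝ → V} {ρ : V → ℝ} {v : V} {t : ℝ}
    (h : ∃ k m z m' z', Crosses g ρ v t k m z m' z') :
    ∃ (k : Fin 3) (m : ℕ) (z : Fin 3 → ℤ) (m' : ℕ) (z' : Fin 3 → ℤ), IsTile ρ v m z ∧
      IsTile ρ v m' z' ∧ (m, z) ≠ (m', z') ∧ t ∈ Ioo (0:ℝ) 1 ∧ g t ∈ dyc v m z ∧
      g t ∈ dyc v m' z' ∧
      (∀ m₁ z₁, IsTile ρ v m₁ z₁ → g t ∈ dyc v m₁ z₁ →
        (m₁, z₁) = (m, z) ∨ (m₁, z₁) = (m', z')) ∧
      g t k = v k + z k / 2 ^ m ∧ g t k = v k + (z' k + 1) / 2 ^ m' := by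
  obtain ⟨k, m, z, m', z', h1, h2, h3, h4, h5, h6, h7, _, _, h8 | h8⟩ := h
  · exact ⟨k, m, z, m', z', h1, h2, h3, h4, h5, h6, h7, h8.1, h8.2⟩
  · exact ⟨k, m', z', m, z, h2, h1, h3.symm, h4, h6, h5, fun m₁ z₁ a b => (h7 m₁ z₁ a b).symm,
      h8.2, h8.1⟩

end NG1

open NG1

/-- **NG1** -/
theorem specNG1 (_ : SpecT1) (hT2 : SpecT2) : SpecNG1 := by
  intro Ω Λ f G hΩ hΛ hf ρ v hρ hgen h₀ hcode Q hQ hpair
  obtain ⟨htsub, _, hdis, _, htfin⟩ := specNC Λ ρ hρ v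
  -- the data of the crossings
  have key : ∀ q : Q, ∃ (m : ℕ) (z : Fin 3 → ℤ) (m' : ℕ) (z' : Fin 3 → ℤ) (ν : ℝ)
      (Θ : ConHomeo (univ : Set V) (univ : Set V)),
      IsTile ρ v m z ∧ IsTile ρ v m' z' ∧ (m, z) ≠ (m', z') ∧ q.1.2 ∈ Ioo (0:ℝ) 1 ∧
      h₀.toFun (G.e q.1.1 q.1.2) ∈ dyc v m z ∧ h₀.toFun (G.e q.1.1 q.1.2) ∈ dyc v m' z' ∧
      f (G.e q.1.1 q.1.2) ∈ dyc v m z ∧ f (G.e q.1.1 q.1.2) ∈ dyc v m' z' ∧ 0 < ν ∧
      (∀ x ∈ bx (h₀.toFun (G.e q.1.1 q.1.2)) (f (G.e q.1.1 q.1.2)) (2 * ν), ∀ m₁ z₁,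
        IsTile ρ v m₁ z₁ → x ∈ dyc v m₁ z₁ → (m₁, z₁) = (m, z) ∨ (m₁, z₁) = (m', z')) ∧
      (∀ x ∈ bx (h₀.toFun (G.e q.1.1 q.1.2)) (f (G.e q.1.1 q.1.2)) (2 * ν),
        x ∈ dyc v m z ∨ x ∈ dyc v m' z') ∧
      (∀ x, x ∉ bx (h₀.toFun (G.e q.1.1 q.1.2)) (f (G.e q.1.1 q.1.2)) ν → Θ.toFun x = x) ∧
      Θ.toFun (h₀.toFun (G.e q.1.1 q.1.2)) = f (G.e q.1.1 q.1.2) ∧
      ∀ x, ∀ m₁ z₁, IsTile ρ v m₁ z₁ → (Θ.toFun x ∈ dyc v m₁ z₁ ↔ x ∈ dyc v m₁ z₁) := by
    intro q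
    obtain ⟨k, m, z, m', z', h1, h2, h3, h4, h5, h6, h7, h8, h9⟩ := crosses_normal (hQ q.1 q.2)
    have ht := Ioo_subset_Icc_self h4
    have hp := (hcode q.1.1 q.1.2 ht m z h1).2 h5
    have hp' := (hcode q.1.1 q.1.2 ht m' z' h2).2 h6
    obtain ⟨ν, hν, a1, a2, Θ, b1, b2, b3⟩ := exists_move hT2 hρ h1 h2 h3 hp hp' h5 h6
      (fun m₁ z₁ h h' => h7 m₁ z₁ h ((hcode q.1.1 q.1.2 ht m₁ z₁ h).1 h')) h7 h8 h9
    exact ⟨m, z, m', z', ν, Θ, h1, h2, h3, h4, hp, hp', h5, h6, hν, a1, a2, b1, b2, b3⟩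
  choose m z m' z' ν Θ h1 h2 h3 h4 hp hp' hg hg' hν a1 a2 b1 b2 b3 using key
  set K : Q → Set V := fun q =>
    bx (h₀.toFun (G.e q.1.1 q.1.2)) (f (G.e q.1.1 q.1.2)) (ν q) with hK
  have hK2 : ∀ q : Q, K q ⊆ bx (h₀.toFun (G.e q.1.1 q.1.2)) (f (G.e q.1.1 q.1.2)) (2 * ν q) :=
    fun q => bx_mono (by linarith [hν q])
  have hKcov : ∀ q x, x ∈ K q → x ∈ dyc v (m q) (z q) ∨ x ∈ dyc v (m' q) (z' q) :=
    fun q x hx => a2 q x (hK2 q hx)
  have hKsub : ∀ q, K q ⊆ Λ := fun q x hx => by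
    rcases hKcov q x hx with h | h
    · exact htsub _ _ (h1 q) h
    · exact htsub _ _ (h2 q) h
  -- two boxes do not meet
  have hone : ∀ q q' : Q, ν q' ≤ ν q → ∀ x, x ∈ K q → x ∈ K q' → q = q' := by
    intro q q' hle x hx hx'
    obtain ⟨y, hy, hy'⟩ := exists_near (hν q').le hx hx'
    have hyb := bx_mono (show ν q + ν q' ≤ 2 * ν q by linarith) hy'
    have hyD := bx_zero_sub (hp q') (hg q') hy
    have hyD' := bx_zero_sub (hp' q') (hg' q') hy
    have e1 := a1 q y hyb _ _ (h1 q') hyD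
    have e2 := a1 q y hyb _ _ (h2 q') hyD'
    have hsame : (∀ w, w ∈ dyc v (m q) (z q) → w ∈ dyc v (m' q) (z' q) →
        w ∈ dyc v (m q') (z q') ∧ w ∈ dyc v (m' q') (z' q')) := by
      intro w hw hw'
      rcases e1 with e1 | e1 <;> rcases e2 with e2 | e2
      · exact absurd (e1.trans e2.symm) (h3 q')
      · rw [Prod.mk.injEq] at e1 e2
        rw [e1.1, e1.2, e2.1, e2.2]
        exact ⟨hw, hw'⟩
      · rw [Prod.mk.injEq] at e1 e2
        rw [e1.1, e1.2, e2.1, e2.2]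
        exact ⟨hw', hw⟩
      · exact absurd (e1.trans e2.symm) (h3 q')
    obtain ⟨g1, g2⟩ := hsame _ (hg q) (hg' q)
    exact Subtype.ext (hpair q.1 q.2 q'.1 q'.2 (m q') (z q') (m' q') (z' q') (h1 q') (h2 q')
      (h3 q') g1 g2 (hg q') (hg' q'))
  have hdisj : ∀ q q' : Q, q ≠ q' → ∀ x, x ∈ K q → x ∈ K q' → False := by
    intro q q' hne x hx hx'
    rcases le_total (ν q') (ν q) with h | h
    · exact hne (hone q q' h x hx hx')
    · exact hne (hone q' q h x hx' hx).symm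
  -- finiteness
  have hfin1 : ∀ M Z, IsTile ρ v M Z → {q : Q | f (G.e q.1.1 q.1.2) ∈ dyc v M Z}.Finite := by
    intro M Z hMZ
    have hfinI := gc_locFin G hf _ (htsub M Z hMZ) (isCompact_dyc v M Z)
    choose X hX hX' using hgen
    have hbig : (⋃ i ∈ {i | (gc G f i '' Icc 0 1 ∩ dyc v M Z).Nonempty},
        ((({i} : Set G.ι) ×ˢ (X i : Set ℝ)) : Set (G.ι × ℝ))).Finite := by
      refine hfinI.biUnion fun i _ => ?_
      exact (finite_singleton i).prod (X i).finite_toSet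
    refine Set.Finite.of_finite_image (f := Subtype.val) (hbig.subset ?_)
      Subtype.val_injective.injOn
    rintro _ ⟨q, hq, rfl⟩
    have ht := Ioo_subset_Icc_self (h4 q)
    refine mem_iUnion₂.2 ⟨q.1.1, ⟨_, ⟨q.1.2, ht, rfl⟩, hq⟩, rfl, ?_⟩
    show q.1.2 ∈ X q.1.1
    by_contra hnot
    obtain ⟨M', Z', c1, c2⟩ := hX' q.1.1 q.1.2 ht hnot
    by_cases he : (M', Z') = (m q, z q)
    · exact Set.disjoint_left.1 (hdis M' Z' (m' q) (z' q) c1 (h2 q) (he ▸ h3 q)) c2 (hg' q)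
    · exact Set.disjoint_left.1 (hdis M' Z' (m q) (z q) c1 (h1 q) he) c2 (hg q)
  have hfin : ∀ L ⊆ Λ, IsCompact L → {q : Q | (K q ∩ L).Nonempty}.Finite := by
    intro L hL hLc
    have hT := htfin L hL hLc
    have hbig : (⋃ p ∈ {p : ℕ × (Fin 3 → ℤ) | IsTile ρ v p.1 p.2 ∧ (dyc v p.1 p.2 ∩ L).Nonempty},
        {q : Q | f (G.e q.1.1 q.1.2) ∈ dyc v p.1 p.2}).Finite :=
      hT.biUnion fun p hp => hfin1 p.1 p.2 hp.1
    refine hbig.subset ?_
    rintro q ⟨x, hx, hxL⟩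
    rcases hKcov q x hx with h | h
    · exact mem_iUnion₂.2 ⟨(m q, z q), ⟨h1 q, ⟨x, h, hxL⟩⟩, hg q⟩
    · exact mem_iUnion₂.2 ⟨(m' q, z' q), ⟨h2 q, ⟨x, h, hxL⟩⟩, hg' q⟩
  obtain ⟨Φ, f1, f2, _, _⟩ := exists_glue_ambient hΛ Θ K hKsub b1 (locFin_of_compact hΛ hfin)
    (fun q q' hne x hx hx' => (hdisj q q' hne x hx hx').elim)
  have hΦ : ∀ x, ∀ m₁ z₁, IsTile ρ v m₁ z₁ → (Φ.toFun x ∈ dyc v m₁ z₁ ↔ x ∈ dyc v m₁ z₁) := by
    intro x m₁ z₁ ht
    by_cases hx : ∃ q, x ∈ K q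
    · obtain ⟨q, hq⟩ := hx
      rw [f1 q x hq]
      exact b3 q x m₁ z₁ ht
    · push Not at hx
      rw [f2 x hx]
  refine ⟨h₀.trans Φ, fun i t ht m₁ z₁ hmz => ?_, fun q hq => ?_⟩
  · show Φ.toFun (h₀.toFun (G.e i t)) ∈ _ ↔ _
    rw [hΦ _ _ _ hmz]
    exact hcode i t ht m₁ z₁ hmz
  · show Φ.toFun (h₀.toFun (G.e q.1 q.2)) = _
    have hmem : h₀.toFun (G.e q.1 q.2) ∈ K ⟨q, hq⟩ := by
      intro j
      have h5 := hν ⟨q, hq⟩
      have h6 := min_le_left ((h₀.toFun (G.e q.1 q.2)) j) ((f (G.e q.1 q.2)) j)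
      have h7 := le_max_left ((h₀.toFun (G.e q.1 q.2)) j) ((f (G.e q.1 q.2)) j)
      constructor
      · show min ((h₀.toFun (G.e q.1 q.2)) j) ((f (G.e q.1 q.2)) j) - ν ⟨q, hq⟩ ≤ _
        linarith
      · show _ ≤ max ((h₀.toFun (G.e q.1 q.2)) j) ((f (G.e q.1 q.2)) j) + ν ⟨q, hq⟩
        linarith
    rw [f1 ⟨q, hq⟩ _ hmem]
    exact b2 ⟨q, hq⟩

end P073.Net
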