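import Vale.Agent.P073.Net.Spec2
import Vale.Agent.P073.Net.NC

/-!
# P073, block NET: between two consecutive good crossings (SpecNG3)
-/

open Set Metric Topology MeasureTheory Filter
open scoped ENNReal

namespace P073.Net

open Vale.Agent.P073.St (V euc IsHomeo)

namespace NG3

theorem dyo_sub (v : V) (m : ℕ) (z : Fin 3 → ℤ) : dyo v m z ⊆ dyc v m z :=
  fun _ hx k => ⟨(hx k).1.le, (hx k).2.le⟩

theorem tile_eq {ρ : V → ℝ} {v : V} {m m' : ℕ} {z z' : Fin 3 → ℤ} (h : IsTile ρ v m z)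
    (h' : IsTile ρ v m' z') {x : V} (hx : x ∈ dyo v m z) (hx' : x ∈ dyc v m' z') :
    (m, z) = (m', z') := by
  by_contra hne
  exact Set.disjoint_left.1 (NC.disj h h' hne) hx hx'

theorem ctr_lo (v : V) (m : ℕ) (z : Fin 3 → ℤ) (k : Fin 3) :
    ctr v m z k + hs m * (-1) = v k + z k / 2 ^ m := by
  simp only [ctr, hs]; ring

theorem ctr_hi (v : V) (m : ℕ) (z : Fin 3 → ℤ) (k : Fin 3) :
    ctr v m z k + hs m * 1 = v k + (z k + 1) / 2 ^ m := by
  simp only [ctr, hs]; ring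

theorem side (hT2 : SpecT2) {Λ : Set V} {ρ : V → ℝ} (hρ : SizeFn Λ ρ) {v x : V} {k : Fin 3}
    {m : ℕ} {z : Fin 3 → ℤ} {m' : ℕ} {z' : Fin 3 → ℤ} (hA : IsTile ρ v m z)
    (hB : IsTile ρ v m' z') (hne : (m, z) ≠ (m', z')) (hxA : x ∈ dyc v m z)
    (hxB : x ∈ dyc v m' z')
    (hu : ∀ m₁ z₁, IsTile ρ v m₁ z₁ → x ∈ dyc v m₁ z₁ → (m₁, z₁) = (m, z) ∨ (m₁, z₁) = (m', z'))
    (hor : (x k = v k + z k / 2 ^ m ∧ x k = v k + (z' k + 1) / 2 ^ m') ∨
      (x k = v k + (z k + 1) / 2 ^ m ∧ x k = v k + z' k / 2 ^ m')) :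
    ∃ σ : ℝ, (σ = 1 ∨ σ = -1) ∧ x k = ctr v m z k + hs m * σ ∧
      ∀ j, j ≠ k → |x j - ctr v m z j| < hs m := by
  rcases hor with ⟨h1, h2⟩ | ⟨h1, h2⟩
  · refine ⟨-1, Or.inr rfl, by rw [ctr_lo]; exact h1, fun j hj => ?_⟩
    have h := (hT2 Λ ρ hρ v x k m z m' z' hA hB hne hxA hxB hu h1 h2 j hj).1
    have e1 := ctr_lo v m z j
    have e2 := ctr_hi v m z j
    rw [abs_lt]
    constructor <;> linarith [h.1, h.2]
  · refine ⟨1, Or.inl rfl, by rw [ctr_hi]; exact h1, fun j hj => ?_⟩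
    have h := (hT2 Λ ρ hρ v x k m' z' m z hB hA hne.symm hxB hxA
      (fun m₁ z₁ ht hx => (hu m₁ z₁ ht hx).symm) h2 h1 j hj).2
    have e1 := ctr_lo v m z j
    have e2 := ctr_hi v m z j
    rw [abs_lt]
    constructor <;> linarith [h.1, h.2]

theorem one_side {v x w : V} {k : Fin 3} {m : ℕ} {z : Fin 3 → ℤ} {σ : ℝ} (hσ : σ = 1 ∨ σ = -1)
    (hx : x k = ctr v m z k + hs m * σ) (hw : w ∈ dyc v m z) : σ * (w k - x k) ≤ 0 := by
  have e1 := ctr_lo v m z k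
  have e2 := ctr_hi v m z k
  have h := hw k
  rcases hσ with rfl | rfl
  · linarith [h.1, h.2]
  · linarith [h.1, h.2]

end NG3

/-- **(NG3)** -/
theorem specNG3 (_ : SpecT1) (hT2 : SpecT2) : SpecNG3 := by
  intro Λ ρ hρ v g R n _ _ _ hsmall x y hxy hx hy m z htile hin
  obtain ⟨k, m₁, z₁, m₂, z₂, ⟨hA, hB, hneAB, hx01, hxA, hxB, huAB, -, hafter, horx⟩, hgx⟩ := hx
  obtain ⟨l, m₃, z₃, m₄, z₄, ⟨hC, hD, hneCD, hy01, hyC, hyD, huCD, hbefore, -, hory⟩, hgy⟩ := hy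
  -- identification of the tiles
  have e1 : (m₂, z₂) = (m, z) := by
    have h1 : ∀ᶠ s in 𝓝[>] x, s ∈ Ioo x y := Ioo_mem_nhdsGT hxy
    obtain ⟨s, hs1, hs2⟩ := (hafter.and h1).exists
    exact NG3.tile_eq hB htile hs1 (NG3.dyo_sub _ _ _ (hin s hs2))
  have e2 : (m₃, z₃) = (m, z) := by
    have h1 : ∀ᶠ s in 𝓝[<] y, s ∈ Ioo x y := Ioo_mem_nhdsLT hxy
    obtain ⟨s, hs1, hs2⟩ := (hbefore.and h1).exists
    exact NG3.tile_eq hC htile hs1 (NG3.dyo_sub _ _ _ (hin s hs2))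
  obtain ⟨rfl, rfl⟩ := Prod.mk.inj e1
  obtain ⟨rfl, rfl⟩ := Prod.mk.inj e2
  have hxI : x ∈ Icc (0:ℝ) 1 := Ioo_subset_Icc_self hx01
  have hyI : y ∈ Icc (0:ℝ) 1 := Ioo_subset_Icc_self hy01
  obtain ⟨σ, hσ, hσx, hσj⟩ := NG3.side hT2 hρ (k := k) hB hA hneAB.symm hxB hxA
    (fun m₁ z₁ ht hx => (huAB m₁ z₁ ht hx).symm) (by
      rcases horx with ⟨h1, h2⟩ | ⟨h1, h2⟩
      · exact Or.inr ⟨h2, h1⟩
      · exact Or.inl ⟨h2, h1⟩)
  obtain ⟨τ, hτ, hτy, hτj⟩ := NG3.side hT2 hρ (k := l) hC hD hneCD hyC hyD huCD hory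
  obtain ⟨hRx, σ', hσ', hmx⟩ := hgx
  obtain ⟨hRy, τ', hτ', hmy⟩ := hgy
  have hn : (0:ℝ) < 1 / (n + 1) := by positivity
  -- the tile is small
  have hdx : ∀ w ∈ dyc v m₃ z₃, ‖w - g x‖ < 1 / (n + 1 : ℝ) := fun w hw =>
    ((NC.dist_le hw hxB).trans (htile.1 _ hxB)).trans_lt (hsmall x hxI)
  have hdy : ∀ w ∈ dyc v m₃ z₃, ‖w - g y‖ < 1 / (n + 1 : ℝ) := fun w hw =>
    ((NC.dist_le hw hyC).trans (htile.1 _ hyC)).trans_lt (hsmall y hyI)
  obtain ⟨t, ht⟩ := nonempty_Ioo.2 hxy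
  have htI : t ∈ Icc (0:ℝ) 1 := ⟨hxI.1.trans ht.1.le, ht.2.le.trans hyI.2⟩
  have htC := NG3.dyo_sub _ _ _ (hin t ht)
  -- signs
  have hs1 : σ' = -σ := by
    have h1 := hmx t htI (hdx _ htC)
    have h2 : 0 < 1 / (n + 1 : ℝ) * (t - x) ^ 2 := mul_pos hn (pow_pos (sub_pos.2 ht.1) 2)
    have h3 : 0 < σ' * (g t k - g x k) := by
      by_contra hcon
      push Not at hcon
      have := mul_nonpos_of_nonpos_of_nonneg hcon (sub_pos.2 ht.1).le
      linarith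
    have h4 := NG3.one_side hσ hσx htC
    rcases hσ with rfl | rfl <;> rcases hσ' with rfl | rfl <;> first | (exfalso; linarith) | norm_num
  have hs2 : τ' = τ := by
    have h1 := hmy t htI (hdy _ htC)
    have h2 : 0 < 1 / (n + 1 : ℝ) * (t - y) ^ 2 :=
      mul_pos hn (by have := (sub_neg.2 ht.2).ne; positivity)
    have h3 : τ' * (g t l - g y l) < 0 := by
      by_contra hcon
      push Not at hcon
      have := mul_nonpos_of_nonneg_of_nonpos hcon (sub_neg.2 ht.2).le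
      linarith
    have h4 := NG3.one_side hτ hτy htC
    rcases hτ with rfl | rfl <;> rcases hτ' with rfl | rfl <;> first | (exfalso; linarith) | norm_num
  refine ⟨?_, ?_, k, l, σ, τ, hσ, hτ, ?_, hσx, hσj, hτy, hτj⟩
  · intro w hw hwC
    have h1 := hRx w hw
    have h2 := hdx w hwC
    linarith
  · intro u hu huC
    constructor
    · by_contra hcon
      push Not at hcon
      have h1 := hmx u hu (hdx _ huC)
      have h2 : 0 < 1 / (n + 1 : ℝ) * (u - x) ^ 2 :=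
        mul_pos hn (by have := (sub_neg.2 hcon).ne; positivity)
      have h4 := NG3.one_side hσ hσx huC
      have h5 : 0 ≤ σ' * (g u k - g x k) := by rw [hs1]; linarith
      have := mul_nonpos_of_nonneg_of_nonpos h5 (sub_neg.2 hcon).le
      linarith
    · by_contra hcon
      push Not at hcon
      have h1 := hmy u hu (hdy _ huC)
      have h2 : 0 < 1 / (n + 1 : ℝ) * (u - y) ^ 2 :=
        mul_pos hn (by have := sub_pos.2 hcon; positivity)
      have h4 := NG3.one_side hτ hτy huC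
      have h5 : τ' * (g u l - g y l) ≤ 0 := by rw [hs2]; exact h4
      have := mul_nonpos_of_nonpos_of_nonneg h5 (sub_pos.2 hcon).le
      linarith
  · by_cases hkl : k = l
    · right
      subst hkl
      have h1 := hmx y hyI (hdx _ hyC)
      have h2 : 0 < 1 / (n + 1 : ℝ) * (y - x) ^ 2 :=
        mul_pos hn (by have := sub_pos.2 hxy; positivity)
      have h3 : σ ≠ τ := by
        intro h
        rw [h] at hσx
        have h4 : g y k - g x k = 0 := by linarith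
        rw [h4] at h1
        simp only [mul_zero, zero_mul] at h1
        linarith
      rcases hσ with rfl | rfl <;> rcases hτ with rfl | rfl <;>
        first | exact absurd rfl h3 | norm_num
    · exact Or.inl hkl

end P073.Net
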