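import Vale.Agent.P073.Net.GlueFam

/-!
# P073, block NET, NH1: reparametrisation of one segment by an ambient conical homeomorphism

`tubeMap r ℓ a d δ x = x + (p - s) • d` with `s = ℓ (x - a)`, `w = x - a - s • d`,
`κ = ‖w‖ / δ` and `p = max (r s - κ) (min s (r s + κ))` (soft threshold).
-/

open Set Metric Topology Filter

namespace P073.Net

/-- soft threshold of `r` at height `κ` -/
noncomputable def soft (r : ℝ ≃o ℝ) (κ s : ℝ) : ℝ := max (r s - κ) (min s (r s + κ))

/-- the inverse of the soft threshold -/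
noncomputable def softInv (r : ℝ ≃o ℝ) (κ s : ℝ) : ℝ :=
  min (r.symm (s + κ)) (max s (r.symm (s - κ)))

theorem softInv_soft (r : ℝ ≃o ℝ) (κ s : ℝ) : softInv r κ (soft r κ s) = s := by
  unfold softInv soft
  apply le_antisymm
  · rcases le_total (r s - κ) (min s (r s + κ)) with h | h
    · rw [max_eq_right h]
      refine (min_le_right _ _).trans (max_le (min_le_left _ _) ?_)
      rw [r.symm_apply_le]
      have := min_le_right s (r s + κ)
      linarith
    · rw [max_eq_left h, sub_add_cancel, r.symm_apply_apply]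
      exact min_le_left _ _
  · refine le_min ?_ ?_
    · rw [r.le_symm_apply]
      have := le_max_left (r s - κ) (min s (r s + κ))
      linarith
    · have h2 := le_max_right (r s - κ) (min s (r s + κ))
      rcases le_total s (r s + κ) with h | h
      · rw [min_eq_left h] at h2 ⊢
        exact h2.trans (le_max_left _ _)
      · rw [min_eq_right h] at h2 ⊢
        refine le_max_of_le_right ?_
        rw [r.le_symm_apply]
        linarith

theorem soft_softInv (r : ℝ ≃o ℝ) (κ s : ℝ) : soft r κ (softInv r κ s) = s := by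
  unfold softInv soft
  set q := min (r.symm (s + κ)) (max s (r.symm (s - κ))) with hq
  apply le_antisymm
  · refine max_le ?_ ?_
    · have h1 : q ≤ r.symm (s + κ) := min_le_left _ _
      rw [r.le_symm_apply] at h1
      linarith
    · have h1 : q ≤ max s (r.symm (s - κ)) := min_le_right _ _
      rcases le_max_iff.1 h1 with h | h
      · exact (min_le_left _ _).trans h
      · rw [r.le_symm_apply] at h
        refine (min_le_right _ _).trans ?_
        linarith
  · rcases le_total (r.symm (s + κ)) (max s (r.symm (s - κ))) with h | h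
    · have : q = r.symm (s + κ) := by rw [hq, min_eq_left h]
      refine le_max_of_le_left ?_
      rw [this, r.apply_symm_apply]
      linarith
    · have : q = max s (r.symm (s - κ)) := by rw [hq, min_eq_right h]
      refine le_max_of_le_right (le_min (this ▸ le_max_left _ _) ?_)
      have h1 : r.symm (s - κ) ≤ q := this ▸ le_max_right _ _
      rw [r.symm_apply_le] at h1
      linarith

theorem soft_zero (r : ℝ ≃o ℝ) (s : ℝ) : soft r 0 s = r s := by
  unfold soft
  rw [sub_zero, add_zero]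
  exact max_eq_left (min_le_right _ _)

theorem soft_of_le (r : ℝ ≃o ℝ) {κ s : ℝ} (h : |r s - s| ≤ κ) : soft r κ s = s := by
  unfold soft
  rw [abs_le] at h
  rw [min_eq_left (by linarith), max_eq_right (by linarith)]

variable {E : Type*} [NormedAddCommGroup E] [NormedSpace ℝ E]

/-- the coordinate along the segment -/
noncomputable def cs (ℓ : E →L[ℝ] ℝ) (a : E) (x : E) : ℝ := ℓ (x - a)

/-- the transversal component -/
noncomputable def cw (ℓ : E →L[ℝ] ℝ) (a d : E) (x : E) : E := x - a - ℓ (x - a) • d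

theorem cs_add {ℓ : E →L[ℝ] ℝ} {a d : E} (hd : ℓ d = 1) (x : E) (c : ℝ) :
    cs ℓ a (x + c • d) = cs ℓ a x + c := by
  unfold cs
  rw [add_sub_right_comm, map_add, map_smul, hd, smul_eq_mul, mul_one]

theorem cw_add {ℓ : E →L[ℝ] ℝ} {a d : E} (hd : ℓ d = 1) (x : E) (c : ℝ) :
    cw ℓ a d (x + c • d) = cw ℓ a d x := by
  unfold cw
  rw [add_sub_right_comm, map_add, map_smul, hd, smul_eq_mul, mul_one, add_smul]
  abel

theorem cs_seg {ℓ : E →L[ℝ] ℝ} {a d : E} (hd : ℓ d = 1) (t : ℝ) : cs ℓ a (a + t • d) = t := by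
  unfold cs
  rw [add_sub_cancel_left, map_smul, hd, smul_eq_mul, mul_one]

theorem cw_seg {ℓ : E →L[ℝ] ℝ} {a d : E} (hd : ℓ d = 1) (t : ℝ) : cw ℓ a d (a + t • d) = 0 := by
  unfold cw
  rw [add_sub_cancel_left, map_smul, hd, smul_eq_mul, mul_one, sub_self]

theorem eq_seg_add_cw (ℓ : E →L[ℝ] ℝ) (a d x : E) :
    x = (a + cs ℓ a x • d) + cw ℓ a d x := by
  unfold cs cw; abel

theorem continuous_cs (ℓ : E →L[ℝ] ℝ) (a : E) : Continuous (cs ℓ a) := by
  unfold cs; fun_prop

theorem continuous_cw (ℓ : E →L[ℝ] ℝ) (a d : E) : Continuous (cw ℓ a d) := by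
  unfold cw; fun_prop

/-- the tube map -/
noncomputable def tubeMap (r : ℝ ≃o ℝ) (ℓ : E →L[ℝ] ℝ) (a d : E) (δ : ℝ) (x : E) : E :=
  x + (soft r (‖cw ℓ a d x‖ / δ) (cs ℓ a x) - cs ℓ a x) • d

/-- the inverse of the tube map -/
noncomputable def tubeInv (r : ℝ ≃o ℝ) (ℓ : E →L[ℝ] ℝ) (a d : E) (δ : ℝ) (x : E) : E :=
  x + (softInv r (‖cw ℓ a d x‖ / δ) (cs ℓ a x) - cs ℓ a x) • d

theorem tubeInv_tubeMap (r : ℝ ≃o ℝ) {ℓ : E →L[ℝ] ℝ} (a : E) {d : E} (hd : ℓ d = 1) (δ : ℝ) (x : E) :
    tubeInv r ℓ a d δ (tubeMap r ℓ a d δ x) = x := by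
  unfold tubeInv tubeMap
  rw [cs_add hd, cw_add hd, add_sub_cancel, softInv_soft, add_assoc, ← add_smul]
  simp

theorem tubeMap_tubeInv (r : ℝ ≃o ℝ) {ℓ : E →L[ℝ] ℝ} (a : E) {d : E} (hd : ℓ d = 1) (δ : ℝ) (x : E) :
    tubeMap r ℓ a d δ (tubeInv r ℓ a d δ x) = x := by
  unfold tubeInv tubeMap
  rw [cs_add hd, cw_add hd, add_sub_cancel, soft_softInv, add_assoc, ← add_smul]
  simp

theorem continuous_tubeMap (r : ℝ ≃o ℝ) (ℓ : E →L[ℝ] ℝ) (a d : E) (δ : ℝ) :
    Continuous (tubeMap r ℓ a d δ) := by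
  have h1 := continuous_cs ℓ a
  have h2 := continuous_cw ℓ a d
  have h3 := r.continuous
  unfold tubeMap soft
  fun_prop

theorem continuous_tubeInv (r : ℝ ≃o ℝ) (ℓ : E →L[ℝ] ℝ) (a d : E) (δ : ℝ) :
    Continuous (tubeInv r ℓ a d δ) := by
  have h1 := continuous_cs ℓ a
  have h2 := continuous_cw ℓ a d
  have h3 := r.symm.continuous
  unfold tubeInv softInv
  fun_prop

theorem tubeMap_seg (r : ℝ ≃o ℝ) {ℓ : E →L[ℝ] ℝ} (a : E) {d : E} (hd : ℓ d = 1) (δ t : ℝ) :
    tubeMap r ℓ a d δ (a + t • d) = a + r t • d := by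
  unfold tubeMap
  rw [cs_seg hd, cw_seg hd, norm_zero, zero_div, soft_zero, add_assoc, ← add_smul,
    add_sub_cancel]

theorem tubeMap_of_le (r : ℝ ≃o ℝ) (ℓ : E →L[ℝ] ℝ) (a d : E) (δ : ℝ) {x : E}
    (h : |r (cs ℓ a x) - cs ℓ a x| ≤ ‖cw ℓ a d x‖ / δ) : tubeMap r ℓ a d δ x = x := by
  unfold tubeMap
  rw [soft_of_le r h, sub_self, zero_smul, add_zero]

/-- a norm which is a conical function -/
def ConNorm (E : Type*) [NormedAddCommGroup E] [NormedSpace ℝ E] : Prop :=
  ConicalOn (fun x : E => ‖x‖) univ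

theorem conNorm_pi : ConNorm (Fin 3 → ℝ) := by
  have hu : ConicalSet (univ : Set (Fin 3 → ℝ)) := IsOpen.conicalSet isOpen_univ
  have hp : ∀ k : Fin 3, ConicalOn (fun x : Fin 3 → ℝ => |x k|) univ := by
    intro k
    have h1 : ConicalOn (fun x : Fin 3 → ℝ => x k) univ :=
      conicalOn_linear (LinearMap.proj k : (Fin 3 → ℝ) →ₗ[ℝ] ℝ) hu
    have h2 := h1.rmax h1.neg (by fun_prop) (by fun_prop)
    exact h2
  have h := ((hp 0).rmax (hp 1) (by fun_prop) (by fun_prop)).rmax (hp 2) (by fun_prop) (by fun_prop)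
  refine h.congr fun x _ => ?_
  show ‖x‖ = max (max |x 0| |x 1|) |x 2|
  apply le_antisymm
  · rw [pi_norm_le_iff_of_nonneg (le_max_of_le_right (abs_nonneg _))]
    intro k
    fin_cases k
    · exact (le_max_left _ _).trans (le_max_left _ _)
    · exact (le_max_right _ _).trans (le_max_left _ _)
    · exact le_max_right _ _
  · exact max_le (max_le (norm_le_pi_norm x 0) (norm_le_pi_norm x 1)) (norm_le_pi_norm x 2)

theorem conicalOn_cs (ℓ : E →L[ℝ] ℝ) (a : E) : ConicalOn (cs ℓ a) univ := by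
  have hu : ConicalSet (univ : Set E) := IsOpen.conicalSet isOpen_univ
  exact ((conicalOn_id hu).sub (conicalOn_const a hu)).linear_comp ℓ.toLinearMap

theorem conicalOn_cw (ℓ : E →L[ℝ] ℝ) (a d : E) : ConicalOn (cw ℓ a d) univ := by
  have hu : ConicalSet (univ : Set E) := IsOpen.conicalSet isOpen_univ
  have h1 := (conicalOn_id hu).sub (conicalOn_const a hu)
  have h2 := (conicalOn_cs ℓ a).linear_comp (LinearMap.toSpanSingleton ℝ E d)
  exact h1.sub h2

theorem conicalOn_tubeMap (hE : ConNorm E) (r : ℝ ≃o ℝ) (hr : ConicalOn (fun s => r s) univ)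
    (ℓ : E →L[ℝ] ℝ) (a d : E) (δ : ℝ) : ConicalOn (tubeMap r ℓ a d δ) univ := by
  have hu : ConicalSet (univ : Set E) := IsOpen.conicalSet isOpen_univ
  have c1 := continuous_cs ℓ a
  have c2 := continuous_cw ℓ a d
  have c3 := r.continuous
  have hs := conicalOn_cs ℓ a
  have hw : ConicalOn (fun x => ‖cw ℓ a d x‖) univ :=
    ConicalOn.comp (g := fun x : E => ‖x‖) (h := cw ℓ a d) hE (conicalOn_cw ℓ a d)
      (mapsTo_univ _ _) c2.continuousOn
  have hκ : ConicalOn (fun x => ‖cw ℓ a d x‖ / δ) univ := by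
    have := hw.const_smul δ⁻¹
    refine this.congr fun x _ => ?_
    show ‖cw ℓ a d x‖ / δ = δ⁻¹ • ‖cw ℓ a d x‖
    rw [smul_eq_mul, div_eq_inv_mul]
  have hrs : ConicalOn (fun x => r (cs ℓ a x)) univ :=
    ConicalOn.comp (g := fun s : ℝ => r s) (h := cs ℓ a) hr hs (mapsTo_univ _ _) c1.continuousOn
  have hsoft : ConicalOn (fun x => soft r (‖cw ℓ a d x‖ / δ) (cs ℓ a x)) univ := by
    unfold soft
    refine (hrs.sub hκ).rmax (hs.rmin (hrs.add hκ) ?_ ?_) ?_ ?_
    · exact c1.continuousOn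
    · exact (by fun_prop : Continuous fun x => r (cs ℓ a x) + ‖cw ℓ a d x‖ / δ).continuousOn
    · exact (by fun_prop : Continuous fun x => r (cs ℓ a x) - ‖cw ℓ a d x‖ / δ).continuousOn
    · exact (by fun_prop : Continuous fun x =>
        min (cs ℓ a x) (r (cs ℓ a x) + ‖cw ℓ a d x‖ / δ)).continuousOn
  exact (conicalOn_id hu).add ((hsoft.sub hs).linear_comp (LinearMap.toSpanSingleton ℝ E d))

/-- the tube homeomorphism -/
noncomputable def tubeHomeo (hE : ConNorm E) (r : ℝ ≃o ℝ) (hr : ConicalOn (fun s => r s) univ)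
    (ℓ : E →L[ℝ] ℝ) (a d : E) (hd : ℓ d = 1) (δ : ℝ) :
    ConHomeo (univ : Set E) (univ : Set E) where
  toFun := tubeMap r ℓ a d δ
  invFun := tubeInv r ℓ a d δ
  mapsTo := mapsTo_univ _ _
  mapsTo_inv := mapsTo_univ _ _
  left_inv := fun x _ => tubeInv_tubeMap r a hd δ x
  right_inv := fun x _ => tubeMap_tubeInv r a hd δ x
  cont := (continuous_tubeMap r ℓ a d δ).continuousOn
  cont_inv := (continuous_tubeInv r ℓ a d δ).continuousOn
  conical := conicalOn_tubeMap hE r hr ℓ a d δ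

/-! ### Extension of a reparametrisation of `[0,1]` by the identity -/

open Classical in
/-- extension by the identity -/
noncomputable def extId (r : ℝ → ℝ) (t : ℝ) : ℝ := if t ∈ Icc (0:ℝ) 1 then r t else t

section ext

variable {r : ℝ → ℝ} {τ : ℝ}

theorem extId_of_mem {t : ℝ} (ht : t ∈ Icc (0:ℝ) 1) : extId r t = r t := if_pos ht

theorem extId_of_notMem {t : ℝ} (ht : t ∉ Icc (0:ℝ) 1) : extId r t = t := if_neg ht

variable (hτ : 0 < τ) (hid : ∀ t ∈ Icc (0:ℝ) 1, (t ≤ τ ∨ 1 - τ ≤ t) → r t = t)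
include hτ hid

omit hτ in
theorem extId_eq {t : ℝ} (ht : t ≤ τ ∨ 1 - τ ≤ t) : extId r t = t := by
  by_cases h : t ∈ Icc (0:ℝ) 1
  · rw [extId_of_mem h, hid t h ht]
  · rw [extId_of_notMem h]

theorem strictMono_extId (hm : StrictMonoOn r (Icc 0 1)) : StrictMono (extId r) := by
  have r0 : r 0 = 0 := hid 0 ⟨le_refl _, zero_le_one⟩ (Or.inl hτ.le)
  have r1 : r 1 = 1 := hid 1 ⟨zero_le_one, le_refl _⟩ (Or.inr (by linarith))
  have h01 : ∀ t ∈ Icc (0:ℝ) 1, r t ∈ Icc (0:ℝ) 1 := by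
    intro t ht
    refine ⟨?_, ?_⟩
    · rw [← r0]; exact hm.monotoneOn ⟨le_refl _, zero_le_one⟩ ht ht.1
    · rw [← r1]; exact hm.monotoneOn ht ⟨zero_le_one, le_refl _⟩ ht.2
  intro s t hst
  by_cases hs : s ∈ Icc (0:ℝ) 1
  · by_cases ht : t ∈ Icc (0:ℝ) 1
    · rw [extId_of_mem hs, extId_of_mem ht]; exact hm hs ht hst
    · rw [extId_of_mem hs, extId_of_notMem ht]
      have : 1 < t := by
        by_contra h; push Not at h
        exact ht ⟨hs.1.trans hst.le, h⟩
      exact (h01 s hs).2.trans_lt this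
  · by_cases ht : t ∈ Icc (0:ℝ) 1
    · rw [extId_of_notMem hs, extId_of_mem ht]
      have : s < 0 := by
        by_contra h; push Not at h
        exact hs ⟨h, hst.le.trans ht.2⟩
      exact this.trans_le (h01 t ht).1
    · rw [extId_of_notMem hs, extId_of_notMem ht]; exact hst

/-- `ℝ` is covered by three open sets on which `extId r` is `r` or the identity -/
theorem extId_local (t : ℝ) : (∀ᶠ s in 𝓝 t, extId r s = s) ∨
    (t ∈ Ioo (0:ℝ) 1 ∧ ∀ᶠ s in 𝓝 t, extId r s = r s) := by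
  by_cases h : t < τ
  · left
    filter_upwards [Iio_mem_nhds h] with s hs
    exact extId_eq hid (Or.inl (le_of_lt hs))
  by_cases h' : 1 - τ < t
  · left
    filter_upwards [Ioi_mem_nhds h'] with s hs
    exact extId_eq hid (Or.inr (le_of_lt hs))
  · right
    have ht : t ∈ Ioo (0:ℝ) 1 := ⟨by linarith, by linarith⟩
    refine ⟨ht, ?_⟩
    filter_upwards [Ioo_mem_nhds ht.1 ht.2] with s hs
    exact extId_of_mem (Ioo_subset_Icc_self hs)

theorem continuous_extId (hc : ContinuousOn r (Icc 0 1)) : Continuous (extId r) := by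
  rw [continuous_iff_continuousAt]
  intro t
  rcases extId_local hτ hid t with h | ⟨ht, h⟩
  · exact continuousAt_id.congr (h.mono fun s hs => hs.symm)
  · exact (hc.continuousAt (Icc_mem_nhds ht.1 ht.2)).congr (h.mono fun s hs => hs.symm)

theorem conicalOn_extId (hc : ConicalOn r (Icc 0 1)) : ConicalOn (extId r) univ := by
  intro t _
  rcases extId_local hτ hid t with h | ⟨ht, h⟩
  · exact (conicalOn_id (IsOpen.conicalSet isOpen_univ) t (mem_univ t)).congr_nhds
      (Eventually.of_forall fun y => Iff.rfl) (h.mono fun y hy _ => hy) h.self_of_nhds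
  · refine (hc t (Ioo_subset_Icc_self ht)).congr_nhds ?_ (h.mono fun y hy _ => hy) h.self_of_nhds
    filter_upwards [Icc_mem_nhds ht.1 ht.2] with s hs
    exact ⟨fun _ => hs, fun _ => mem_univ s⟩

theorem surjective_extId (hc : ContinuousOn r (Icc 0 1)) : Function.Surjective (extId r) := by
  refine (continuous_extId hτ hid hc).surjective ?_ ?_
  · refine tendsto_id.congr' ?_
    filter_upwards [Ioi_mem_atTop (1:ℝ)] with s hs
    refine (extId_of_notMem ?_).symm
    exact fun h => absurd h.2 (not_le.2 hs)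
  · refine tendsto_id.congr' ?_
    filter_upwards [Iio_mem_atBot (0:ℝ)] with s hs
    refine (extId_of_notMem ?_).symm
    exact fun h => absurd h.1 (not_le.2 hs)

/-- the order isomorphism of `ℝ` which extends `r` -/
theorem exists_orderIso (hm : StrictMonoOn r (Icc 0 1)) (hc : ContinuousOn r (Icc 0 1))
    (hcon : ConicalOn r (Icc 0 1)) :
    ∃ R : ℝ ≃o ℝ, (∀ t ∈ Icc (0:ℝ) 1, R t = r t) ∧ ConicalOn (fun s => R s) univ ∧
      (∀ t, (t ≤ τ ∨ 1 - τ ≤ t) → R t = t) ∧ ∀ t, |R t - t| ≤ 1 := by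
  refine ⟨(strictMono_extId hτ hid hm).orderIsoOfSurjective _ (surjective_extId hτ hid hc),
    fun t ht => ?_, ?_, fun t ht => ?_, fun t => ?_⟩
  · exact extId_of_mem ht
  · exact conicalOn_extId hτ hid hcon
  · exact extId_eq hid ht
  · show |extId r t - t| ≤ 1
    by_cases h : t ∈ Icc (0:ℝ) 1
    · have r0 : r 0 = 0 := hid 0 ⟨le_refl _, zero_le_one⟩ (Or.inl hτ.le)
      have r1 : r 1 = 1 := hid 1 ⟨zero_le_one, le_refl _⟩ (Or.inr (by linarith))
      have h0 : 0 ≤ r t := by
        rw [← r0]; exact hm.monotoneOn ⟨le_refl _, zero_le_one⟩ h h.1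
      have h1 : r t ≤ 1 := by
        have := hm.monotoneOn h (right_mem_Icc.2 zero_le_one) h.2
        rwa [r1] at this
      rw [extId_of_mem h, abs_le]
      exact ⟨by linarith [h.2], by linarith [h.1]⟩
    · rw [extId_of_notMem h, sub_self, abs_zero]
      exact zero_le_one

end ext

end P073.Net
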