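import Vale.Agent.P073.Net.Defs
import Vale.Agent.P073.Net.NH1a

/-!
# P073, block NET, NH1: reparametrisation of a straight net by a conical homeomorphism
-/

open Set Metric Topology Filter

namespace P073.Net

open Vale.Agent.P073.St (V)

/-- every open set has a size function -/
theorem exists_sizeFn {Λ : Set V} (hΛ : IsOpen Λ) : ∃ ρ, SizeFn Λ ρ := by
  by_cases hne : (Λᶜ).Nonempty
  · refine ⟨fun x => min 1 (infDist x Λᶜ), ?_, ?_, ?_, ?_⟩
    · intro x y
      have h1 : infDist x Λᶜ ≤ infDist y Λᶜ + dist x y := infDist_le_infDist_add_dist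
      rw [dist_eq_norm] at h1
      have h2 := norm_nonneg (x - y)
      rw [← min_add_add_right]
      exact le_min ((min_le_left _ _).trans (by linarith)) ((min_le_right _ _).trans h1)
    · intro x hx
      refine lt_min one_pos ?_
      rw [← hΛ.isClosed_compl.notMem_iff_infDist_pos hne]
      exact fun h => h hx
    · intro x hx
      refine (min_le_right _ _).trans ?_
      rw [infDist_zero_of_mem (show x ∈ Λᶜ from hx)]
    · intro x; exact min_le_left _ _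
  · rw [not_nonempty_iff_eq_empty, compl_empty_iff] at hne
    refine ⟨fun _ => 1, ?_, ?_, ?_, ?_⟩
    · intro x y
      have := norm_nonneg (x - y)
      linarith
    · intro x _; exact one_pos
    · intro x hx
      rw [hne] at hx
      exact absurd (mem_univ x) hx
    · intro x; exact le_refl _

theorem SizeFn.continuous {Λ : Set V} {ρ : V → ℝ} (h : SizeFn Λ ρ) : Continuous ρ := by
  have : LipschitzWith 1 ρ := LipschitzWith.of_le_add fun x y => by
    rw [dist_eq_norm]; exact h.lip x y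
  exact this.continuous

theorem SizeFn.mem {Λ : Set V} {ρ : V → ℝ} (h : SizeFn Λ ρ) {x : V} (hx : 0 < ρ x) : x ∈ Λ := by
  by_contra hn
  exact absurd (h.off x hn) (not_le.2 hx)

variable {Ω : Set V} (G : Graph Ω)

theorem Graph.e_mem (i : G.ι) {t : ℝ} (ht : t ∈ Icc (0:ℝ) 1) :
    G.e i t ∈ segment ℝ (G.a i) (G.b i) := by
  rw [segment_eq_image']
  exact ⟨t, ht, rfl⟩

theorem Graph.isCompact_seg (i : G.ι) : IsCompact (segment ℝ (G.a i) (G.b i)) := by
  rw [segment_eq_image']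
  exact isCompact_Icc.image (by fun_prop)

theorem Graph.continuous_e (i : G.ι) : Continuous (G.e i) := by
  unfold Graph.e; fun_prop

theorem Graph.e_zero (i : G.ι) : G.e i 0 = G.a i := by simp [Graph.e]

theorem Graph.e_one (i : G.ι) : G.e i 1 = G.b i := by simp [Graph.e]

theorem Graph.e_injective (i : G.ι) : Function.Injective (G.e i) := by
  intro s t h
  unfold Graph.e at h
  have h1 : s • (G.b i - G.a i) = t • (G.b i - G.a i) := add_left_cancel h
  have h2 : (s - t) • (G.b i - G.a i) = 0 := by rw [sub_smul, h1, sub_self]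
  rcases smul_eq_zero.1 h2 with h3 | h3
  · linarith
  · exact absurd (sub_eq_zero.1 h3).symm (G.ne i)

/-- interior points of an edge are not on other edges -/
theorem Graph.notMem_of_mem_Ioo {i j : G.ι} (hij : i ≠ j) {t : ℝ} (ht : t ∈ Ioo (0:ℝ) 1) :
    G.e i t ∉ segment ℝ (G.a j) (G.b j) := by
  intro h
  have h1 := G.meet i j hij ⟨G.e_mem i (Ioo_subset_Icc_self ht), h⟩
  rcases h1.1 with h2 | h2
  · rw [← G.e_zero i] at h2
    exact ht.1.ne' (G.e_injective i h2)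
  · rw [mem_singleton_iff, ← G.e_one i] at h2
    exact ht.2.ne (G.e_injective i h2)

/-- the union of the other edges is closed in `Ω` -/
theorem Graph.isClosed_others (hΩ : IsOpen Ω) (i : G.ι) {x : V} (hx : x ∈ Ω)
    (hcl : x ∈ closure (⋃ j ∈ {j | j ≠ i}, segment ℝ (G.a j) (G.b j))) :
    ∃ j, j ≠ i ∧ x ∈ segment ℝ (G.a j) (G.b j) := by
  obtain ⟨r, hr, hb⟩ := Metric.nhds_basis_closedBall.mem_iff.1 (hΩ.mem_nhds hx)
  have hfin := G.fin _ hb (isCompact_closedBall x r)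
  have hC : IsClosed (⋃ j ∈ {j | j ≠ i ∧ (segment ℝ (G.a j) (G.b j) ∩ closedBall x r).Nonempty},
      segment ℝ (G.a j) (G.b j)) := by
    refine Set.Finite.isClosed_biUnion (hfin.subset fun j hj => hj.2) fun j _ => ?_
    exact (G.isCompact_seg j).isClosed
  have hx' : x ∈ ⋃ j ∈ {j | j ≠ i ∧ (segment ℝ (G.a j) (G.b j) ∩ closedBall x r).Nonempty},
      segment ℝ (G.a j) (G.b j) := by
    rw [← hC.closure_eq]
    rw [mem_closure_iff_nhds] at hcl ⊢
    intro U hU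
    obtain ⟨y, ⟨hyU, hyb⟩, hy⟩ := hcl (U ∩ closedBall x r)
      (Filter.inter_mem hU (closedBall_mem_nhds x hr))
    obtain ⟨j, hj, hyj⟩ := mem_iUnion₂.1 hy
    exact ⟨y, hyU, mem_iUnion₂.2 ⟨j, ⟨hj, ⟨y, hyj, hyb⟩⟩, hyj⟩⟩
  obtain ⟨j, hj, hxj⟩ := mem_iUnion₂.1 hx'
  exact ⟨j, hj.1, hxj⟩

/-- the size of the tube around the middle part `[τ, 1 - τ]` of the edge `i` -/
theorem Graph.exists_tube_size (hΩ : IsOpen Ω) {ρ : V → ℝ} (hρ : SizeFn Ω ρ) (i : G.ι) {τ : ℝ}
    (hτ : 0 < τ) :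
    ∃ ε > 0, ∀ t ∈ Icc τ (1 - τ), 4 * ε ≤ ρ (G.e i t) ∧
      ∀ j, j ≠ i → ∀ y ∈ segment ℝ (G.a j) (G.b j), 3 * ε ≤ ‖G.e i t - y‖ := by
  by_cases hne : (Icc τ (1 - τ)).Nonempty
  swap
  · exact ⟨1, one_pos, fun t ht => absurd ⟨t, ht⟩ hne⟩
  have hC : IsCompact (G.e i '' Icc τ (1 - τ)) := isCompact_Icc.image (G.continuous_e i)
  have hmem : ∀ t ∈ Icc τ (1 - τ), t ∈ Ioo (0:ℝ) 1 := fun t ht =>
    ⟨hτ.trans_le ht.1, ht.2.trans_lt (by linarith)⟩
  have hCΩ : G.e i '' Icc τ (1 - τ) ⊆ Ω := by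
    rintro _ ⟨t, ht, rfl⟩
    exact G.sub i (G.e_mem i (Ioo_subset_Icc_self (hmem t ht)))
  -- the minimum of `ρ`
  obtain ⟨x₀, hx₀, hmin⟩ := hC.exists_isMinOn (hne.image _) hρ.continuous.continuousOn
  have hρ0 : 0 < ρ x₀ := hρ.pos x₀ (hCΩ hx₀)
  -- the distance to the other edges
  set F := closure (⋃ j ∈ {j | j ≠ i}, segment ℝ (G.a j) (G.b j)) with hF
  have hdisj : Disjoint (G.e i '' Icc τ (1 - τ)) F := by
    rw [Set.disjoint_left]
    rintro _ ⟨t, ht, rfl⟩ hcl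
    obtain ⟨j, hj, hxj⟩ := G.isClosed_others hΩ i (hCΩ ⟨t, ht, rfl⟩) hcl
    exact G.notMem_of_mem_Ioo hj.symm (hmem t ht) hxj
  obtain ⟨δ, hδ, hd⟩ := hdisj.exists_thickenings hC isClosed_closure
  refine ⟨min (ρ x₀ / 4) (δ / 3), lt_min (by linarith) (by linarith), fun t ht => ⟨?_, ?_⟩⟩
  · have h1 := hmin (mem_image_of_mem (G.e i) ht)
    have h2 := min_le_left (ρ x₀ / 4) (δ / 3)
    have h3 : ρ x₀ ≤ ρ (G.e i t) := h1
    linarith
  · intro j hj y hy
    have h2 := min_le_right (ρ x₀ / 4) (δ / 3)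
    by_contra hlt
    push Not at hlt
    have h3 : ‖G.e i t - y‖ < δ := by linarith
    rw [Set.disjoint_left] at hd
    refine hd (a := y) ?_ ?_
    · rw [mem_thickening_iff]
      exact ⟨G.e i t, mem_image_of_mem _ ht, by rwa [dist_comm, dist_eq_norm]⟩
    · rw [mem_thickening_iff]
      refine ⟨y, subset_closure (mem_iUnion₂.2 ⟨j, hj, hy⟩), by rwa [dist_self]⟩

theorem specNH1 : SpecNH1 := by
  intro Ω G hΩ τ r hτ hm hcon hcont hid
  obtain ⟨ρ, hρ⟩ := exists_sizeFn hΩ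
  choose ε hε hε4 using fun i => G.exists_tube_size hΩ hρ i (hτ i)
  choose R hR hRcon hRid hR1 using fun i => exists_orderIso (hτ i) (hid i) (hm i) (hcont i) (hcon i)
  -- linear functionals
  have hℓ : ∀ i, ∃ ℓ : V →L[ℝ] ℝ, ℓ (G.b i - G.a i) = 1 := by
    intro i
    have hne : G.b i - G.a i ≠ 0 := sub_ne_zero.2 (G.ne i).symm
    obtain ⟨k, hk⟩ : ∃ k, (G.b i - G.a i) k ≠ 0 := by
      by_contra h
      push Not at h
      exact hne (funext h)
    refine ⟨((G.b i - G.a i) k)⁻¹ • ContinuousLinearMap.proj (R := ℝ) (φ := fun _ : Fin 3 => ℝ) k, ?_⟩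
    show ((G.b i - G.a i) k)⁻¹ * (G.b i - G.a i) k = 1
    exact inv_mul_cancel₀ hk
  choose ℓ hℓ using hℓ
  let d : G.ι → V := fun i => G.b i - G.a i
  let K : G.ι → Set V := fun i =>
    {x | cs (ℓ i) (G.a i) x ∈ Icc (τ i) (1 - τ i) ∧ ‖cw (ℓ i) (G.a i) (d i) x‖ ≤ ε i}
  let Θ : G.ι → ConHomeo (univ : Set V) (univ : Set V) := fun i =>
    tubeHomeo conNorm_pi (R i) (hRcon i) (ℓ i) (G.a i) (d i) (hℓ i) (ε i)
  -- points of `K i` are close to the edge
  have hnear : ∀ i, ∀ x ∈ K i, ∃ t ∈ Icc (τ i) (1 - τ i), ‖x - G.e i t‖ ≤ ε i := by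
    intro i x hx
    refine ⟨_, hx.1, ?_⟩
    have h1 := eq_seg_add_cw (ℓ i) (G.a i) (d i) x
    have h2 : x - G.e i (cs (ℓ i) (G.a i) x) = cw (ℓ i) (G.a i) (d i) x := by
      show x - (G.a i + cs (ℓ i) (G.a i) x • d i) = _
      rw [sub_eq_iff_eq_add, add_comm (cw (ℓ i) (G.a i) (d i) x)]
      exact h1
    rw [h2]
    exact hx.2
  have hKΩ : ∀ i, K i ⊆ Ω := by
    intro i x hx
    obtain ⟨t, ht, hxt⟩ := hnear i x hx
    refine hρ.mem ?_
    have h1 := (hε4 i t ht).1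
    have h2 := hρ.lip (G.e i t) x
    rw [norm_sub_rev] at h2
    have := hε i
    linarith
  have hidoff : ∀ i x, x ∉ K i → (Θ i).toFun x = x := by
    intro i x hx
    refine tubeMap_of_le _ _ _ _ _ ?_
    by_cases h1 : cs (ℓ i) (G.a i) x ∈ Icc (τ i) (1 - τ i)
    · have h2 : ε i < ‖cw (ℓ i) (G.a i) (d i) x‖ := by
        by_contra h
        push Not at h
        exact hx ⟨h1, h⟩
      refine (hR1 i _).trans ?_
      rw [one_le_div (hε i)]
      exact h2.le
    · have h2 : cs (ℓ i) (G.a i) x ≤ τ i ∨ 1 - τ i ≤ cs (ℓ i) (G.a i) x := by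
        by_contra h
        push Not at h
        exact h1 ⟨h.1.le, h.2.le⟩
      rw [hRid i _ h2, sub_self, abs_zero]
      exact div_nonneg (norm_nonneg _) (hε i).le
  have hdisj : ∀ i j, i ≠ j → ∀ x ∈ K i, x ∉ K j := by
    intro i j hij x hx hxj
    wlog hle : ε j ≤ ε i generalizing i j
    · exact this j i hij.symm hxj hx (le_of_not_ge hle)
    obtain ⟨t, ht, hxt⟩ := hnear i x hx
    obtain ⟨u, hu, hxu⟩ := hnear j x hxj
    have hu' : u ∈ Icc (0:ℝ) 1 := ⟨(hτ j).le.trans hu.1, hu.2.trans (by linarith [hτ j])⟩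
    have h1 := (hε4 i t ht).2 j hij.symm _ (G.e_mem j hu')
    have h2 : ‖G.e i t - G.e j u‖ ≤ ‖x - G.e i t‖ + ‖x - G.e j u‖ := by
      have : G.e i t - G.e j u = (x - G.e j u) - (x - G.e i t) := by abel
      rw [this, add_comm]
      exact norm_sub_le _ _
    have := hε i
    linarith
  have hfin : ∀ z ∈ Ω, ∃ U ∈ 𝓝 z, {c | (K c ∩ U).Nonempty}.Finite := by
    intro z hz
    have hz0 := hρ.pos z hz
    have hsub : closedBall z (2 / 3 * ρ z) ⊆ Ω := by
      intro y hy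
      rw [mem_closedBall, dist_eq_norm, norm_sub_rev] at hy
      refine hρ.mem ?_
      have := hρ.lip z y
      linarith
    have hf := G.fin _ hsub (isCompact_closedBall z _)
    refine ⟨closedBall z (ρ z / 4), closedBall_mem_nhds z (by linarith), hf.subset ?_⟩
    rintro i ⟨x, hx, hxz⟩
    obtain ⟨t, ht, hxt⟩ := hnear i x hx
    have ht' : t ∈ Icc (0:ℝ) 1 := ⟨(hτ i).le.trans ht.1, ht.2.trans (by linarith [hτ i])⟩
    refine ⟨G.e i t, G.e_mem i ht', ?_⟩
    rw [mem_closedBall, dist_eq_norm] at hxz ⊢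
    have h1 := (hε4 i t ht).1
    have h2 := hρ.lip (G.e i t) x
    have h3 := hρ.lip x z
    have h4 : ‖G.e i t - z‖ ≤ ‖G.e i t - x‖ + ‖x - z‖ := by
      have : G.e i t - z = (G.e i t - x) + (x - z) := by abel
      rw [this]
      exact norm_add_le _ _
    rw [norm_sub_rev] at hxt
    linarith
  obtain ⟨Φ, hΦ1, hΦ2, -, -⟩ := exists_glue_ambient hΩ Θ K hKΩ hidoff hfin
    (fun i j hij x hx hxj => absurd hxj (hdisj i j hij x hx))
  refine ⟨Φ, fun i t ht => ?_⟩
  by_cases htτ : t ∈ Icc (τ i) (1 - τ i)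
  · have hxK : G.e i t ∈ K i := by
      refine ⟨?_, ?_⟩
      · show cs (ℓ i) (G.a i) (G.a i + t • d i) ∈ _
        rw [cs_seg (hℓ i)]; exact htτ
      · show ‖cw (ℓ i) (G.a i) (d i) (G.a i + t • d i)‖ ≤ _
        rw [cw_seg (hℓ i), norm_zero]; exact (hε i).le
    rw [hΦ1 i _ hxK]
    show tubeMap (R i) (ℓ i) (G.a i) (d i) (ε i) (G.a i + t • d i) = _
    rw [tubeMap_seg (R i) (G.a i) (hℓ i), hR i t ht]
    rfl
  · have h2 : t ≤ τ i ∨ 1 - τ i ≤ t := by
      by_contra h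
      push Not at h
      exact htτ ⟨h.1.le, h.2.le⟩
    rw [hid i t ht h2]
    refine hΦ2 _ fun j hj => ?_
    by_cases hij : j = i
    · subst hij
      apply htτ
      have h3 := hj.1
      change cs (ℓ j) (G.a j) (G.a j + t • d j) ∈ _ at h3
      rwa [cs_seg (hℓ j)] at h3
    · obtain ⟨u, hu, hxu⟩ := hnear j _ hj
      have h1 := (hε4 j u hu).2 i (Ne.symm hij) _ (G.e_mem i ht)
      rw [norm_sub_rev] at h1
      have := hε j
      linarith

end P073.Net
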