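import Vale.Agent.P073.Net.NH2f

/-!
# P073, block NET, NH2: the `W^{1,p}` form of the NET theorem
-/

open Set Metric Topology MeasureTheory Filter
open scoped ENNReal NNReal

namespace P073.Net

open Vale.Agent.P073.St (V euc IsHomeo)

variable {Ω Λ : Set V}

theorem Graph.conical_e (G : Graph Ω) (i : G.ι) : ConicalOn (G.e i) (Icc 0 1) := by
  have h1 : ConicalOn (G.e i) univ := by
    have := conicalOn_clm_add ((1 : ℝ →L[ℝ] ℝ).smulRight (G.b i - G.a i)) (G.a i)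
    refine this.congr fun t _ => ?_
    simp [Graph.e, add_comm]
  exact h1.mono (Convex.conicalSet (convex_Icc 0 1)) (subset_univ _)

theorem Graph.e_mem_Ω (G : Graph Ω) (i : G.ι) : MapsTo (G.e i) (Icc 0 1) Ω :=
  fun _ ht => G.sub i (G.e_mem i ht)

/-- the curve of a conical homeomorphism along an edge is conical -/
theorem Graph.conical_curve (G : Graph Ω) (h : ConHomeo Ω Λ) (i : G.ι) :
    ConicalOn (fun t => h.toFun (G.e i t)) (Icc 0 1) :=
  ConicalOn.comp (g := h.toFun) h.conical (G.conical_e i) (G.e_mem_Ω i)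
    (G.continuous_e i).continuousOn

/-- increments of an absolutely continuous curve -/
theorem ACOn.sub_eq {G : Graph Ω} {f : V → V} {D : G.ι → ℝ → V} (h : ACOn G f D) (i : G.ι)
    {s t : ℝ} (hs : 0 ≤ s) (hst : s ≤ t) (ht : t ≤ 1) :
    f (G.e i t) - f (G.e i s) = ∫ u in Icc s t, D i u := by
  rw [h.eq i t ⟨hs.trans hst, ht⟩, h.eq i s ⟨hs, hst.trans ht⟩, add_sub_add_left_eq_sub,
    integral_Icc_eq_integral_Ioc, ← intervalIntegral.integral_of_le hst]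
  have h0 : ∀ x ∈ Icc (0:ℝ) 1, IntervalIntegrable (D i) volume 0 x := fun x hx =>
    (h.int i).mono_set (by
      rw [uIcc_of_le hx.1, uIcc_of_le zero_le_one]; exact Icc_subset_Icc le_rfl hx.2)
  exact intervalIntegral.integral_interval_sub_left (h0 t ⟨hs.trans hst, ht⟩)
    (h0 s ⟨hs, hst.trans ht⟩)

/-- choice of the parameters on one edge -/
theorem edge_params {p : ℝ} (hp : 1 ≤ p) (hp2 : p ≤ 2) {D F : ℝ → V}
    (hD : IntegrableOn D (Icc 0 1)) (hDp : IntegrableOn (fun t => euc (D t) ^ p) (Icc 0 1))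
    (hF : ContinuousOn F (Icc 0 1)) {ε : ℝ} (hε : 0 < ε) :
    ∃ (n : ℕ) (θ C δ e : ℝ) (c : ℕ → V), 0 < n ∧ 0 ≤ θ ∧ 0 < C ∧ PieceBd p θ C ∧ 0 < e ∧
      e ≤ ε / 2 ∧ (∀ s ∈ Icc (0:ℝ) 1, ∀ t ∈ Icc (0:ℝ) 1, |s - t| ≤ 1 / n → ‖F s - F t‖ ≤ ε / 2) ∧
      ∑ k ∈ Finset.range n,
        ∫ t in Icc ((k:ℝ) / n) ((k + 1 : ℝ) / n), euc (D t - c k) ^ p ≤ δ ∧
      θ * (∫ t in Icc (0:ℝ) 1, euc (D t) ^ p) ≤ ε / 8 ∧
      C * δ ≤ ε / 8 ∧ 8 * n * e ≤ 1 ∧ C * (8 * n * e) ≤ ε / 8 := by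
  set I : ℝ := ∫ t in Icc (0:ℝ) 1, euc (D t) ^ p with hI
  have hI0 : 0 ≤ I := integral_nonneg fun t => by
    have := euc_nonneg (D t); simp only [Pi.zero_apply]; positivity
  have hθ : 0 < ε / (8 * (I + 1)) := by positivity
  obtain ⟨C, hC0, hC⟩ := piece_estimate hp hp2 hθ
  obtain ⟨n₀, hn₀⟩ := exists_step hp hp2 hD hDp (δ := ε / (8 * C)) (by positivity)
  have hu : UniformContinuousOn F (Icc 0 1) :=
    isCompact_Icc.uniformContinuousOn_of_continuous hF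
  rw [Metric.uniformContinuousOn_iff] at hu
  obtain ⟨d, hd, hud⟩ := hu (ε / 2) (by positivity)
  obtain ⟨m, hm⟩ := exists_nat_gt (1 / d)
  have hm0 : (0:ℝ) < m := lt_trans (by positivity) hm
  set n : ℕ := max n₀ m with hn
  have hmn : (m:ℝ) ≤ n := by exact_mod_cast le_max_right n₀ m
  have hnpos : (0:ℝ) < n := hm0.trans_le hmn
  have hn0 : 0 < n := by exact_mod_cast hnpos
  obtain ⟨c, hc⟩ := hn₀ n (le_max_left _ _) hn0
  refine ⟨n, ε / (8 * (I + 1)), C, ε / (8 * C), min (ε / 2) (min (1 / (8 * n)) (ε / (64 * n * C))),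
    c, hn0, hθ.le, hC0, hC, by positivity, min_le_left _ _, ?_, hc, ?_, ?_, ?_, ?_⟩
  · intro s hs t ht hst
    have h1 : |s - t| < d := by
      refine hst.trans_lt ?_
      have h2 : 1 < d * m := by
        have := (div_lt_iff₀ hd).1 hm
        linarith
      rw [div_lt_iff₀ hnpos]
      have := mul_le_mul_of_nonneg_left hmn hd.le
      linarith
    have := hud s hs t ht (by rwa [Real.dist_eq])
    rw [dist_eq_norm] at this
    exact this.le
  · rw [div_mul_eq_mul_div, div_le_div_iff₀ (by positivity) (by norm_num)]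
    nlinarith
  · rw [show C * (ε / (8 * C)) = ε / 8 by field_simp]
  · have h1 : min (ε / 2) (min (1 / (8 * n)) (ε / (64 * n * C))) ≤ 1 / (8 * n) :=
      (min_le_right _ _).trans (min_le_left _ _)
    have h2 : 8 * (n:ℝ) * (1 / (8 * n)) = 1 := by field_simp
    calc 8 * (n:ℝ) * min (ε / 2) (min (1 / (8 * n)) (ε / (64 * n * C)))
        ≤ 8 * (n:ℝ) * (1 / (8 * n)) := mul_le_mul_of_nonneg_left h1 (by positivity)
      _ = 1 := h2
  · have h1 : min (ε / 2) (min (1 / (8 * n)) (ε / (64 * n * C))) ≤ ε / (64 * n * C) :=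
      (min_le_right _ _).trans (min_le_right _ _)
    have h2 : C * (8 * (n:ℝ) * (ε / (64 * n * C))) = ε / 8 := by field_simp; norm_num
    calc C * (8 * (n:ℝ) * min (ε / 2) (min (1 / (8 * n)) (ε / (64 * n * C))))
        ≤ C * (8 * (n:ℝ) * (ε / (64 * n * C))) :=
          mul_le_mul_of_nonneg_left (mul_le_mul_of_nonneg_left h1 (by positivity)) hC0.le
      _ = ε / 8 := h2

/-- the derivative data on the subdivided graph -/
noncomputable def subD {G : Graph Ω} (D : G.ι → ℝ → V) (n : G.ι → ℕ) (hn : ∀ i, 0 < n i)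
    (j : (G.subdiv n hn).ι) (t : ℝ) : V :=
  ((n j.1 : ℝ)⁻¹) • D j.1 (((j.2 : ℕ) : ℝ) / n j.1 + t / n j.1)

theorem icc_piece {n : ℕ} (hn : 0 < n) (k : Fin n) :
    (0:ℝ) ≤ ((k:ℕ):ℝ) / n ∧ (((k:ℕ):ℝ) + 1) / n ≤ 1 ∧ ((k:ℕ):ℝ) / n ≤ (((k:ℕ):ℝ) + 1) / n := by
  have h0 : (0:ℝ) < n := by exact_mod_cast hn
  refine ⟨by positivity, ?_, by gcongr; linarith⟩
  rw [div_le_one h0]
  exact_mod_cast k.2

/-- change of variables on a piece -/
theorem subD_integral {G : Graph Ω} (D : G.ι → ℝ → V) (n : G.ι → ℕ) (hn : ∀ i, 0 < n i)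
    (j : (G.subdiv n hn).ι) (t : ℝ) :
    ∫ s in (0:ℝ)..t, subD D n hn j s =
      ∫ s in (((j.2 : ℕ) : ℝ) / n j.1)..((((j.2 : ℕ) : ℝ) + t) / n j.1), D j.1 s := by
  have h0 : (n j.1 : ℝ) ≠ 0 := by exact_mod_cast (hn j.1).ne'
  unfold subD
  rw [intervalIntegral.integral_smul, intervalIntegral.integral_comp_add_div _ h0, smul_smul,
    inv_mul_cancel₀ h0, one_smul, zero_div, add_zero, ← add_div]

theorem subD_euc {G : Graph Ω} (D : G.ι → ℝ → V) (n : G.ι → ℕ) (hn : ∀ i, 0 < n i)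
    (j : (G.subdiv n hn).ι) :
    ∫ s in (0:ℝ)..1, euc (subD D n hn j s) =
      ∫ s in Icc (((j.2 : ℕ) : ℝ) / n j.1) ((((j.2 : ℕ) : ℝ) + 1) / n j.1), euc (D j.1 s) := by
  have h0 : (0:ℝ) < n j.1 := by exact_mod_cast hn j.1
  have h1 : ∀ s, euc (subD D n hn j s) =
      (n j.1 : ℝ)⁻¹ * euc (D j.1 (((j.2 : ℕ) : ℝ) / n j.1 + s / n j.1)) := by
    intro s
    unfold subD
    rw [euc_smul, abs_of_pos (inv_pos.2 h0)]
  simp only [h1]
  rw [intervalIntegral.integral_const_mul,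
    intervalIntegral.integral_comp_add_div (fun u => euc (D j.1 u)) h0.ne', smul_eq_mul,
    ← mul_assoc, inv_mul_cancel₀ h0.ne', one_mul, zero_div, add_zero, ← add_div,
    intervalIntegral.integral_of_le (icc_piece (hn j.1) j.2).2.2, integral_Icc_eq_integral_Ioc]

theorem subdiv_e' {G : Graph Ω} (n : G.ι → ℕ) (hn : ∀ i, 0 < n i) (j : (G.subdiv n hn).ι)
    (t : ℝ) : (G.subdiv n hn).e j t = G.e j.1 ((((j.2 : ℕ) : ℝ) + t) / n j.1) :=
  Graph.subdiv_e G n hn j.1 j.2 t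

theorem subdiv_acon {G : Graph Ω} {f : V → V} {D : G.ι → ℝ → V} (h : ACOn G f D)
    (n : G.ι → ℕ) (hn : ∀ i, 0 < n i) : ACOn (G.subdiv n hn) f (subD D n hn) := by
  constructor
  · intro j
    have h0 : (0:ℝ) < n j.1 := by exact_mod_cast hn j.1
    have h1 : IntervalIntegrable (D j.1) volume (((j.2 : ℕ) : ℝ) / n j.1)
        ((((j.2 : ℕ) : ℝ) + 1) / n j.1) :=
      (h.int j.1).mono_set (by
        obtain ⟨a1, a2, a3⟩ := icc_piece (hn j.1) j.2
        rw [uIcc_of_le a3, uIcc_of_le zero_le_one]; exact Icc_subset_Icc a1 a2)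
    have h2 := (h1.comp_add_left (((j.2 : ℕ) : ℝ) / n j.1)).comp_mul_right
      (c := (n j.1 : ℝ)⁻¹)
    have e1 : (((j.2 : ℕ) : ℝ) / n j.1 - ((j.2 : ℕ) : ℝ) / n j.1) / (n j.1 : ℝ)⁻¹ = 0 := by simp
    have e2 : ((((j.2 : ℕ) : ℝ) + 1) / n j.1 - ((j.2 : ℕ) : ℝ) / n j.1) / (n j.1 : ℝ)⁻¹ = 1 := by
      field_simp; ring
    rw [e1, e2] at h2
    exact h2.smul ((n j.1 : ℝ)⁻¹)
  · intro j t ht
    have h0 : (0:ℝ) < n j.1 := by exact_mod_cast hn j.1
    obtain ⟨a1, a2, a3⟩ := icc_piece (hn j.1) j.2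
    rw [subD_integral, subdiv_e', subdiv_e', add_zero]
    have h2 : ((j.2 : ℕ) : ℝ) / n j.1 ≤ (((j.2 : ℕ) : ℝ) + t) / n j.1 := by
      gcongr; linarith [ht.1]
    have h3 : (((j.2 : ℕ) : ℝ) + t) / n j.1 ≤ 1 :=
      le_trans (by gcongr; exact ht.2) a2
    have h4 := h.sub_eq j.1 a1 h2 h3
    rw [intervalIntegral.integral_of_le h2, ← integral_Icc_eq_integral_Ioc, ← h4]
    abel

/-- lengths of the pieces -/
theorem len_piece {G : Graph Ω} (n : G.ι → ℕ) (hn : ∀ i, 0 < n i) (j : (G.subdiv n hn).ι)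
    (h : V → V) : len (fun t => h ((G.subdiv n hn).e j t)) (Icc 0 1) =
      len (fun t => h (G.e j.1 t)) (Icc (((j.2 : ℕ) : ℝ) / n j.1)
        ((((j.2 : ℕ) : ℝ) + 1) / n j.1)) := by
  have h0 : (0:ℝ) < n j.1 := by exact_mod_cast hn j.1
  set φ : ℝ → ℝ := fun t => (((j.2 : ℕ) : ℝ) + t) / n j.1 with hφ
  have hmono : Monotone φ := fun s t hst => by
    simp only [hφ]; gcongr
  have himg : φ '' Icc 0 1 = Icc (((j.2 : ℕ) : ℝ) / n j.1) ((((j.2 : ℕ) : ℝ) + 1) / n j.1) := by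
    apply Subset.antisymm
    · rintro _ ⟨t, ht, rfl⟩
      simp only [hφ]
      exact ⟨by gcongr; linarith [ht.1], by gcongr; exact ht.2⟩
    · intro u hu
      have h1 := (div_le_iff₀ h0).1 hu.1
      have h2 := (le_div_iff₀ h0).1 hu.2
      refine ⟨u * n j.1 - ((j.2 : ℕ) : ℝ), ⟨by linarith, by linarith⟩, ?_⟩
      simp only [hφ]
      field_simp
      ring
  unfold len
  rw [← himg, ← eVariationOn.comp_eq_of_monotoneOn _ φ (hmono.monotoneOn _)]
  congr 1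
  funext t
  simp only [Function.comp, hφ]
  rw [subdiv_e']

/-- **(NH2)** -/
theorem specNH2 : SpecNH2 := by
  intro hLen hNH1 p Ω Λ f G D hp hp2 hΩ hΛ hf hD hDp hTT ε hε
  have hDi : ∀ i, IntegrableOn (D i) (Icc 0 1) := fun i =>
    (intervalIntegrable_iff_integrableOn_Icc_of_le zero_le_one).1 (hD.int i)
  have hDpi : ∀ i, IntegrableOn (fun t => euc (D i t) ^ p) (Icc 0 1) := fun i =>
    (intervalIntegrable_iff_integrableOn_Icc_of_le zero_le_one).1 (hDp i)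
  have hfc : ContinuousOn f Ω := by
    obtain ⟨_, _, h, _⟩ := hf; exact h
  have hFc : ∀ i, ContinuousOn (fun t => f (G.e i t)) (Icc 0 1) := fun i =>
    hfc.comp (G.continuous_e i).continuousOn (G.e_mem_Ω i)
  choose n θ C δ e c hn hθ hC0 hC he heε hclose hstep hθε hδε he1 heC using fun i =>
    edge_params hp hp2 (hDi i) (hDpi i) (hFc i) (hε i)
  obtain ⟨h₀, hh₀⟩ := hLen Ω Λ f (G.subdiv n hn) (subD D n hn) hΩ hΛ hf (subdiv_acon hD n hn)
    (fun ρ hρ => hTT (G.subdiv n hn) (fun j => ⟨j.1, G.subdiv_seg n hn j⟩) ρ hρ)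
    (fun j => e j.1) (fun j => he j.1)
  -- the curves
  have hq : ∀ i, ConicalOn (fun t => h₀.toFun (G.e i t)) (Icc 0 1) := fun i =>
    G.conical_curve h₀ i
  have hinj : ∀ i, InjOn (fun t => h₀.toFun (G.e i t)) (Icc 0 1) := fun i s hs t ht hst =>
    G.e_injective i (h₀.injOn (G.e_mem_Ω i hs) (G.e_mem_Ω i ht) hst)
  have hcl : ∀ i, ∀ t ∈ Icc (0:ℝ) 1, ‖h₀.toFun (G.e i t) - f (G.e i t)‖ ≤ e i := by
    intro i t ht
    have h0 : (0:ℝ) < n i := by exact_mod_cast hn i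
    obtain ⟨k, hk, hkt⟩ := partition_cover (fun k => (k:ℝ) / n i) (n i) (hn i) (t := t) (by
      simpa [div_self h0.ne'] using ht)
    simp only [Nat.cast_add, Nat.cast_one] at hkt
    have h1 := (div_le_iff₀ h0).1 hkt.1
    have h2 := (le_div_iff₀ h0).1 hkt.2
    let j : (G.subdiv n hn).ι := ⟨i, ⟨k, hk⟩⟩
    have h3 := (hh₀ j).1 (t * n i - k) ⟨by linarith, by linarith⟩
    rw [subdiv_e'] at h3
    have h4 : ((((j.2 : ℕ) : ℝ) + (t * n i - k)) / n j.1) = t := by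
      show ((k:ℝ) + (t * n i - k)) / n i = t
      field_simp
      ring
    rw [h4] at h3
    exact h3
  have hlen : ∀ i, ∀ k < n i, len (fun t => h₀.toFun (G.e i t))
      (Icc ((k:ℝ) / n i) ((k + 1 : ℝ) / n i)) ≤
      ENNReal.ofReal ((∫ t in Icc ((k:ℝ) / n i) ((k + 1 : ℝ) / n i), euc (D i t)) + e i) := by
    intro i k hk
    let j : (G.subdiv n hn).ι := ⟨i, ⟨k, hk⟩⟩
    have h3 := (hh₀ j).2
    rw [len_piece, subD_euc] at h3
    exact h3
  choose τ hτ r hr hrτ hrn hrE using fun i =>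
    edge_rep (F := fun t => f (G.e i t)) hp hp2 (hn i) (hC0 i) (hC i) (hq i) (hinj i) (hDi i)
      (hDpi i) (fun s t hs hst ht => hD.sub_eq i hs hst ht) (he i) (hcl i) (hlen i) (c i) (hstep i)
      (hθ i) (hε i) (hθε i) (hδε i) (he1 i) (heC i)
  obtain ⟨R, hR⟩ := hNH1 Ω G hΩ τ r hτ (fun i => (hr i).mono) (fun i => (hr i).con)
    (fun i => (hr i).cont) hrτ
  have hcurve : ∀ i, ∀ t ∈ Icc (0:ℝ) 1, (R.trans h₀).toFun (G.e i t) =
      h₀.toFun (G.e i (r i t)) := by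
    intro i t ht
    simp only [ConHomeo.trans_toFun, Function.comp]
    rw [hR i t ht]
  refine ⟨R.trans h₀, fun i => ⟨?_, ?_, ?_⟩⟩
  · intro t ht
    rw [hcurve i t ht]
    have h1 := (hr i).mapsTo ht
    have h2 := hcl i (r i t) h1
    have h3 := hclose i (r i t) h1 t ht (hrn i t ht)
    calc ‖h₀.toFun (G.e i (r i t)) - f (G.e i t)‖ =
          ‖(h₀.toFun (G.e i (r i t)) - f (G.e i (r i t))) + (f (G.e i (r i t)) - f (G.e i t))‖ := by
            congr 1; abel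
      _ ≤ _ := norm_add_le _ _
      _ ≤ e i + ε i / 2 := add_le_add h2 h3
      _ ≤ ε i := by linarith [heε i]
  · obtain ⟨K, hK⟩ := conical_lipschitz zero_le_one (G.conical_curve (R.trans h₀) i)
    exact ⟨K, hK⟩
  · exact hrE i (fun s => (R.trans h₀).toFun (G.e i s)) fun t ht => hcurve i t ht

end P073.Net
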