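import Vale.Agent.P073.Net.Defs

/-!
# P073, block NET: specs of the pieces of the assembly NG
-/

open Set Metric Topology MeasureTheory Filter
open scoped ENNReal

namespace P073.Net

open Vale.Agent.P073.St (V euc IsHomeo)

/-- (T1) a point of `Λ` on the boundary of a tile belongs to another tile -/
def SpecT1 : Prop :=
  ∀ (Λ : Set V) (ρ : V → ℝ), SizeFn Λ ρ → ∀ (v : V) m z, IsTile ρ v m z →
    ∀ x ∈ dyc v m z, x ∉ dyo v m z →
    ∃ m' z', IsTile ρ v m' z' ∧ (m', z') ≠ (m, z) ∧ x ∈ dyc v m' z'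

/-- (T2) if `x` is in exactly two tiles, which touch in the direction `k`, then `x` is strictly
inside in the other directions, and the two tiles form a neighbourhood of `x` -/
def SpecT2 : Prop :=
  ∀ (Λ : Set V) (ρ : V → ℝ), SizeFn Λ ρ → ∀ (v x : V) (k : Fin 3) m z m' z',
    IsTile ρ v m z → IsTile ρ v m' z' → (m, z) ≠ (m', z') → x ∈ dyc v m z → x ∈ dyc v m' z' →
    (∀ m₁ z₁, IsTile ρ v m₁ z₁ → x ∈ dyc v m₁ z₁ → (m₁, z₁) = (m, z) ∨ (m₁, z₁) = (m', z')) →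
    x k = v k + z k / 2 ^ m → x k = v k + (z' k + 1) / 2 ^ m' →
    (∀ j, j ≠ k → (v j + z j / 2 ^ m < x j ∧ x j < v j + (z j + 1) / 2 ^ m) ∧
      (v j + z' j / 2 ^ m' < x j ∧ x j < v j + (z' j + 1) / 2 ^ m'))

/-- (NG1) moving the crossings to the right positions: `Q` is a set of crossings `(i,t)` such that
no pair of different tiles contains two of them -/
def SpecNG1 : Prop :=
  ∀ (Ω Λ : Set V) (f : V → V) (G : Graph Ω), IsOpen Ω → IsOpen Λ → IsHomeo Ω Λ f →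
    ∀ (ρ : V → ℝ) (v : V), SizeFn Λ ρ → (∀ i, GenPos (fun t => f (G.e i t)) ρ v) →
    ∀ h₀ : ConHomeo Ω Λ, SameCode G f h₀.toFun ρ v →
    ∀ Q : Set (G.ι × ℝ),
    (∀ q ∈ Q, ∃ k m z m' z', Crosses (fun t => f (G.e q.1 t)) ρ v q.2 k m z m' z') →
    (∀ q ∈ Q, ∀ q' ∈ Q, ∀ m z m' z', IsTile ρ v m z → IsTile ρ v m' z' → (m, z) ≠ (m', z') →
      f (G.e q.1 q.2) ∈ dyc v m z → f (G.e q.1 q.2) ∈ dyc v m' z' →
      f (G.e q'.1 q'.2) ∈ dyc v m z → f (G.e q'.1 q'.2) ∈ dyc v m' z' → q = q') →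
    ∃ h₁ : ConHomeo Ω Λ, SameCode G f h₁.toFun ρ v ∧
      ∀ q ∈ Q, h₁.toFun (G.e q.1 q.2) = f (G.e q.1 q.2)

/-- centre of a tile -/
noncomputable def ctr (v : V) (m : ℕ) (z : Fin 3 → ℤ) : V := fun k => v k + (z k + 1 / 2) / 2 ^ m

/-- half side of a tile -/
noncomputable def hs (m : ℕ) : ℝ := 1 / 2 / 2 ^ m

/-- (NG3) between two consecutive good crossings `x < y` the curve is in a tile which contains
nothing else, and it enters and leaves through different faces -/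
def SpecNG3 : Prop :=
  ∀ (Λ : Set V) (ρ : V → ℝ), SizeFn Λ ρ → ∀ (v : V) (g : ℝ → V) (R : Set V) (n : ℕ),
    ContinuousOn g (Icc 0 1) → InjOn g (Icc 0 1) → MapsTo g (Icc 0 1) Λ →
    (∀ t ∈ Icc (0:ℝ) 1, ρ (g t) < 1 / (n + 1 : ℝ)) →
    ∀ x y : ℝ, x < y →
    (∃ k m z m' z', Crosses g ρ v x k m z m' z' ∧ GoodT g R k n x) →
    (∃ k m z m' z', Crosses g ρ v y k m z m' z' ∧ GoodT g R k n y) →
    ∀ m z, IsTile ρ v m z → (∀ t ∈ Ioo x y, g t ∈ dyo v m z) →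
    (∀ w ∈ R, w ∉ dyc v m z) ∧
    (∀ u ∈ Icc (0:ℝ) 1, g u ∈ dyc v m z → x ≤ u ∧ u ≤ y) ∧
    ∃ (k l : Fin 3) (σ τ : ℝ), (σ = 1 ∨ σ = -1) ∧ (τ = 1 ∨ τ = -1) ∧ (k ≠ l ∨ σ = -τ) ∧
      g x k = ctr v m z k + hs m * σ ∧ (∀ j, j ≠ k → |g x j - ctr v m z j| < hs m) ∧
      g y l = ctr v m z l + hs m * τ ∧ (∀ j, j ≠ l → |g y j - ctr v m z j| < hs m)

end P073.Net
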