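import Vale.Agent.P073.Net.ND1
import Vale.Agent.P073.Net.NC
import Vale.Agent.P073.Net.Spec2

/-!
# P073, block NET: tile geometry (SpecT1, SpecT2)
-/

open Set Metric Topology MeasureTheory Filter
open scoped ENNReal

namespace P073.Net

open Vale.Agent.P073.St (V euc IsHomeo)

/-- in every direction from `x` there is a tile which contains `x` and points in this direction -/
theorem exists_tile_dir {Λ : Set V} {ρ : V → ℝ} (hρ : SizeFn Λ ρ) (v : V) {x : V} (hx : x ∈ Λ)
    (w : V) : ∃ s : ℝ, 0 < s ∧ ∃ m z, IsTile ρ v m z ∧ x ∈ dyc v m z ∧ x + s • w ∈ dyc v m z := by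
  have hΛ := ND1.SizeFn.isOpen hρ
  obtain ⟨_, hcov, _, _, hfin⟩ := specNC Λ ρ hρ v
  have hloc := ND1.local_tiles hΛ hfin hx
  have ht : Tendsto (fun s : ℝ => x + s • w) (𝓝 0) (𝓝 x) := by
    have : Continuous fun s : ℝ => x + s • w := by fun_prop
    have h := this.tendsto 0
    simpa using h
  have h1 : ∀ᶠ s in 𝓝[>] (0:ℝ), x + s • w ∈ Λ ∧ ∀ m z, IsTile ρ v m z →
      x + s • w ∈ dyc v m z → x ∈ dyc v m z :=
    (ht.eventually ((hΛ.eventually_mem hx).and hloc)).filter_mono nhdsWithin_le_nhds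
  obtain ⟨s, ⟨hs1, hs2⟩, hs3⟩ := (h1.and self_mem_nhdsWithin).exists
  obtain ⟨m, z, hm, hz⟩ := hcov _ hs1
  exact ⟨s, hs3, m, z, hm, hs2 m z hm hz, hz⟩

/-- **(T1)** -/
theorem specT1 : SpecT1 := by
  intro Λ ρ hρ v m z ht x hx hxo
  obtain ⟨hsub, _⟩ := specNC Λ ρ hρ v
  obtain ⟨k, hk⟩ := ND1.bdry hx hxo
  have key : ∀ σ : ℝ, (∀ s : ℝ, 0 < s → x + s • (Pi.single k σ : V) ∉ dyc v m z) →
      ∃ m' z', IsTile ρ v m' z' ∧ (m', z') ≠ (m, z) ∧ x ∈ dyc v m' z' := by
    intro σ hσ
    obtain ⟨s, hs, m', z', h1, h2, h3⟩ := exists_tile_dir hρ v (hsub m z ht hx)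
      (Pi.single k σ : V)
    refine ⟨m', z', h1, fun he => ?_, h2⟩
    rw [Prod.mk.injEq] at he
    rw [he.1, he.2] at h3
    exact hσ s hs h3
  rcases hk with hk | hk
  · refine key (-1) fun s hs h => ?_
    have := (h k).1
    simp only [Pi.add_apply, Pi.smul_apply, Pi.single_eq_same, smul_eq_mul] at this
    linarith
  · refine key 1 fun s hs h => ?_
    have := (h k).2
    simp only [Pi.add_apply, Pi.smul_apply, Pi.single_eq_same, smul_eq_mul] at this
    linarith

/-- **(T2)** -/
theorem specT2 : SpecT2 := by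
  intro Λ ρ hρ v x k m z m' z' ht ht' hne hx hx' honly hk hk' j hj
  obtain ⟨hsub, _⟩ := specNC Λ ρ hρ v
  have hxΛ := hsub m z ht hx
  -- no direction leaves both tiles
  have key : ∀ a b : ℝ,
      (∀ s : ℝ, 0 < s → x + s • (Pi.single k a + Pi.single j b : V) ∉ dyc v m z) →
      (∀ s : ℝ, 0 < s → x + s • (Pi.single k a + Pi.single j b : V) ∉ dyc v m' z') → False := by
    intro a b h1 h2
    obtain ⟨s, hs, m₁, z₁, e1, e2, e3⟩ := exists_tile_dir hρ v hxΛ
      (Pi.single k a + Pi.single j b : V)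
    rcases honly m₁ z₁ e1 e2 with he | he
    · rw [Prod.mk.injEq] at he
      rw [he.1, he.2] at e3
      exact h1 s hs e3
    · rw [Prod.mk.injEq] at he
      rw [he.1, he.2] at e3
      exact h2 s hs e3
  have ck : ∀ a b s : ℝ, (x + s • (Pi.single k a + Pi.single j b : V)) k = x k + s * a := by
    intro a b s
    simp [Pi.single_eq_of_ne hj.symm]
  have cj : ∀ a b s : ℝ, (x + s • (Pi.single k a + Pi.single j b : V)) j = x j + s * b := by
    intro a b s
    simp [Pi.single_eq_of_ne hj]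
  refine ⟨⟨lt_of_le_of_ne (hx j).1 fun he => ?_, lt_of_le_of_ne (hx j).2 fun he => ?_⟩,
    ⟨lt_of_le_of_ne (hx' j).1 fun he => ?_, lt_of_le_of_ne (hx' j).2 fun he => ?_⟩⟩
  · refine key 1 (-1) (fun s hs h => ?_) (fun s hs h => ?_)
    · have := (h j).1
      rw [cj] at this
      linarith
    · have := (h k).2
      rw [ck] at this
      linarith
  · refine key 1 1 (fun s hs h => ?_) (fun s hs h => ?_)
    · have := (h j).2
      rw [cj] at this
      linarith
    · have := (h k).2
      rw [ck] at this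
      linarith
  · refine key (-1) (-1) (fun s hs h => ?_) (fun s hs h => ?_)
    · have := (h k).1
      rw [ck] at this
      linarith
    · have := (h j).1
      rw [cj] at this
      linarith
  · refine key (-1) 1 (fun s hs h => ?_) (fun s hs h => ?_)
    · have := (h k).1
      rw [ck] at this
      linarith
    · have := (h j).2
      rw [cj] at this
      linarith

end P073.Net
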