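import Vale.Agent.P073.Net.NG
import Vale.Agent.P073.Net.ND2
import Vale.Agent.P073.Net.NG3
import Vale.Agent.P073.Net.NH1
import Vale.Agent.P073.Net.NG1
import Vale.Agent.P073.Net.NA
import Vale.Agent.P073.Net.NB
import Vale.Agent.P073.Net.T12
import Vale.Agent.P073.Net.NH2

/-!
# P073, block NET: final forms
-/

open Set Metric Topology MeasureTheory Filter
open scoped ENNReal

namespace P073.Net

open Vale.Agent.P073.St (V euc IsHomeo)

variable {Ω Λ : Set V}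

theorem Graph.e_mem_segment (G : Graph Ω) (i : G.ι) {t : ℝ} (ht : t ∈ Icc (0:ℝ) 1) :
    G.e i t ∈ segment ℝ (G.a i) (G.b i) := by
  rw [segment_eq_image']
  exact ⟨t, ht, rfl⟩

theorem Graph.exists_e (G : Graph Ω) (i : G.ι) {x : V} (hx : x ∈ segment ℝ (G.a i) (G.b i)) :
    ∃ t ∈ Icc (0:ℝ) 1, G.e i t = x := by
  rw [segment_eq_image'] at hx
  obtain ⟨t, ht, h⟩ := hx
  exact ⟨t, ht, h⟩

/-- the same coding on a bigger graph gives the same coding on a smaller one -/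
theorem SameCode.mono {G G' : Graph Ω} {f h : V → V} {ρ : V → ℝ} {v : V}
    (hG : ∀ j : G'.ι, segment ℝ (G'.a j) (G'.b j) ⊆ ⋃ i : G.ι, segment ℝ (G.a i) (G.b i))
    (H : SameCode G f h ρ v) : SameCode G' f h ρ v := by
  intro j t ht m z hmz
  obtain ⟨i, hi⟩ := mem_iUnion.1 (hG j (G'.e_mem_segment j ht))
  obtain ⟨s, hs, he⟩ := G.exists_e i hi
  rw [← he]
  exact H i s hs m z hmz

/-- `TT` is monotone in the graph -/
theorem TT.mono {G G' : Graph Ω} {f : V → V} {ρ : V → ℝ} {v : V}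
    (hG : ∀ j : G'.ι, segment ℝ (G'.a j) (G'.b j) ⊆ ⋃ i : G.ι, segment ℝ (G.a i) (G.b i))
    (H : TT Ω Λ f G ρ v) : TT Ω Λ f G' ρ v := by
  obtain ⟨h, hh⟩ := H
  exact ⟨h, hh.mono hG⟩

/-- the form of `NetLp` in which `TT` is assumed for `G` only -/
theorem NetLp.of_tt (H : NetLp) (p : ℝ) (Ω Λ : Set V) (f : V → V) (G : Graph Ω)
    (D : G.ι → ℝ → V) (hp : 1 ≤ p) (hp2 : p ≤ 2) (hΩ : IsOpen Ω) (hΛ : IsOpen Λ)
    (hf : IsHomeo Ω Λ f) (hD : ACOn G f D)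
    (hDp : ∀ i, IntervalIntegrable (fun t => euc (D i t) ^ p) volume 0 1)
    (hTT : ∀ ρ, SizeFn Λ ρ → ∀ᵐ v : V, TT Ω Λ f G ρ v)
    (ε : G.ι → ℝ) (hε : ∀ i, 0 < ε i) :
    ∃ h : ConHomeo Ω Λ, ∀ i,
      (∀ t ∈ Icc (0:ℝ) 1, ‖h.toFun (G.e i t) - f (G.e i t)‖ ≤ ε i) ∧
      (∃ K : NNReal, LipschitzOnWith K (fun t => h.toFun (G.e i t)) (Icc 0 1)) ∧
      ∫⁻ t in Icc (0:ℝ) 1, ENNReal.ofReal
        (euc (deriv (fun s => h.toFun (G.e i s)) t - D i t) ^ p) ≤ ENNReal.ofReal (ε i) := by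
  refine H p Ω Λ f G D hp hp2 hΩ hΛ hf hD hDp (fun G' hG' ρ hρ => ?_) ε hε
  filter_upwards [hTT ρ hρ] with v hv
  refine hv.mono fun j => ?_
  obtain ⟨i, hi⟩ := hG' j
  exact hi.trans (subset_iUnion (fun i : G.ι => segment ℝ (G.a i) (G.b i)) i)

/-- **NET, length form** -/
theorem netLen : NetLen :=
  netLen_of specNB specNC (specND specNA1 specNA2 specNC) specT1 (specNG1 specT1 specT2)
    (specNG3 specT1 specT2)

/-- **NET, `W^{1,p}` form** -/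
theorem netLp : NetLp := specNH2 netLen specNH1

end P073.Net
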