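import Vale.Agent.P073.ConHomeo

/-!
# P073, block NET: gluing a locally finite family of ambient conical homeomorphisms

`Θ c` are conical homeomorphisms of the whole space, `Θ c = id` off `K c`; the sets `K c ⊆ Λ` are
locally finite in the open set `Λ`, and points which are in two of these sets are fixed.  Then there
is one conical homeomorphism of `Λ` which is equal to `Θ c` on `K c`.
-/

open Set Metric Topology Filter

namespace P073.Net

variable {E : Type*} [NormedAddCommGroup E] [NormedSpace ℝ E]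

section finite

variable {γ : Type*}

/-- the data: supports and maps -/
structure GlueData (Θ : γ → ConHomeo (univ : Set E) (univ : Set E)) (K : γ → Set E) : Prop where
  id_off : ∀ c x, x ∉ K c → (Θ c).toFun x = x
  meet : ∀ c d, c ≠ d → ∀ x ∈ K c, x ∈ K d → (Θ c).toFun x = x

variable {Θ : γ → ConHomeo (univ : Set E) (univ : Set E)} {K : γ → Set E}

theorem GlueData.inv_off (H : GlueData Θ K) (c : γ) (x : E) (hx : x ∉ K c) :
    (Θ c).invFun x = x := by
  have h1 := H.id_off c x hx
  have h2 := (Θ c).left_inv (mem_univ x)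
  rwa [h1] at h2

theorem GlueData.symm (H : GlueData Θ K) : GlueData (fun c => (Θ c).symm) K where
  id_off := fun c x hx => H.inv_off c x hx
  meet := fun c d hcd x hc hd => by
    have h1 := H.meet c d hcd x hc hd
    have h2 := (Θ c).left_inv (mem_univ x)
    rwa [h1] at h2

theorem GlueData.maps (H : GlueData Θ K) (c : γ) {x : E} (hx : x ∈ K c) :
    (Θ c).toFun x ∈ K c := by
  by_contra h
  have h1 := H.inv_off c _ h
  rw [(Θ c).left_inv (mem_univ x)] at h1
  exact h (h1 ▸ hx)

/-- a point moved by `Θ c` goes to a point fixed by the other maps -/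
theorem GlueData.fixed (H : GlueData Θ K) {c d : γ} (hcd : c ≠ d) {x : E} (hx : x ∈ K c) :
    (Θ d).toFun ((Θ c).toFun x) = (Θ c).toFun x := by
  by_cases h : (Θ c).toFun x ∈ K d
  · exact H.meet d c hcd.symm _ h (H.maps c hx)
  · exact H.id_off d _ h

/-- composition of finitely many of the maps -/
theorem GlueData.exists_finset (H : GlueData Θ K) (S : Finset γ) :
    ∃ P : ConHomeo (univ : Set E) (univ : Set E), (∀ c ∈ S, ∀ x ∈ K c, P.toFun x = (Θ c).toFun x) ∧
      ∀ x, (∀ c ∈ S, x ∉ K c) → P.toFun x = x := by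
  classical
  induction S using Finset.induction_on with
  | empty => exact ⟨ConHomeo.refl (IsOpen.conicalSet isOpen_univ), by simp, fun x _ => rfl⟩
  | insert a S ha ih =>
    obtain ⟨P, hP1, hP2⟩ := ih
    refine ⟨P.trans (Θ a), fun c hc x hx => ?_, fun x hx => ?_⟩
    · show (Θ a).toFun (P.toFun x) = _
      rcases Finset.mem_insert.1 hc with rfl | hc
      · -- `x ∈ K a`: the others fix `x`
        have : P.toFun x = x := by
          by_cases h : ∃ d ∈ S, x ∈ K d
          · obtain ⟨d, hd, hxd⟩ := h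
            rw [hP1 d hd x hxd]
            exact H.meet d c (fun h => ha (h ▸ hd)) x hxd hx
          · push Not at h
            exact hP2 x h
        rw [this]
      · rw [hP1 c hc x hx]
        exact H.fixed (fun h : c = a => ha (h ▸ hc)) hx
    · show (Θ a).toFun (P.toFun x) = _
      rw [hP2 x fun c hc => hx c (Finset.mem_insert_of_mem hc)]
      exact H.id_off a x (hx a (Finset.mem_insert_self a S))

open Classical in
/-- the glued map -/
noncomputable def glueMap (Θ : γ → ConHomeo (univ : Set E) (univ : Set E)) (K : γ → Set E)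
    (x : E) : E :=
  if h : ∃ c, x ∈ K c then (Θ h.choose).toFun x else x

theorem GlueData.glueMap_of_mem (H : GlueData Θ K) {c : γ} {x : E} (hx : x ∈ K c) :
    glueMap Θ K x = (Θ c).toFun x := by
  have hex : ∃ c, x ∈ K c := ⟨c, hx⟩
  unfold glueMap
  rw [dif_pos hex]
  by_cases h : hex.choose = c
  · rw [h]
  · rw [H.meet _ _ h x hex.choose_spec hx, H.meet _ _ (Ne.symm h) x hx hex.choose_spec]

theorem glueMap_of_notMem {x : E} (hx : ∀ c, x ∉ K c) : glueMap Θ K x = x := by
  unfold glueMap
  rw [dif_neg]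
  push Not
  exact hx

theorem GlueData.glueMap_symm_glueMap (H : GlueData Θ K) (x : E) :
    glueMap (fun c => (Θ c).symm) K (glueMap Θ K x) = x := by
  by_cases h : ∃ c, x ∈ K c
  · obtain ⟨c, hc⟩ := h
    rw [H.glueMap_of_mem hc, H.symm.glueMap_of_mem (H.maps c hc)]
    exact (Θ c).left_inv (mem_univ x)
  · push Not at h
    rw [glueMap_of_notMem h, glueMap_of_notMem h]

/-- near a point the glued map is equal to a conical homeomorphism of the space -/
theorem GlueData.exists_local (H : GlueData Θ K) {z : E}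
    (hfin : ∃ U ∈ 𝓝 z, {c | (K c ∩ U).Nonempty}.Finite) :
    ∃ P : ConHomeo (univ : Set E) (univ : Set E), ∀ᶠ x in 𝓝 z, glueMap Θ K x = P.toFun x := by
  obtain ⟨U, hU, hf⟩ := hfin
  obtain ⟨P, hP1, hP2⟩ := H.exists_finset hf.toFinset
  refine ⟨P, ?_⟩
  filter_upwards [hU] with x hx
  by_cases h : ∃ c, x ∈ K c
  · obtain ⟨c, hc⟩ := h
    rw [H.glueMap_of_mem hc, hP1 c _ x hc]
    rw [Set.Finite.mem_toFinset]
    exact ⟨x, hc, hx⟩
  · push Not at h
    rw [glueMap_of_notMem h, hP2 x fun c _ => h c]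

end finite

/-- **Gluing of a locally finite family of ambient conical homeomorphisms.** -/
theorem exists_glue_ambient {γ : Type*} {Λ : Set E} (hΛ : IsOpen Λ)
    (Θ : γ → ConHomeo (univ : Set E) (univ : Set E)) (K : γ → Set E) (hK : ∀ c, K c ⊆ Λ)
    (hid : ∀ c x, x ∉ K c → (Θ c).toFun x = x)
    (hfin : ∀ z ∈ Λ, ∃ U ∈ 𝓝 z, {c | (K c ∩ U).Nonempty}.Finite)
    (hmeet : ∀ c d, c ≠ d → ∀ x ∈ K c, x ∈ K d → (Θ c).toFun x = x) :
    ∃ Φ : ConHomeo Λ Λ, (∀ c, ∀ x ∈ K c, Φ.toFun x = (Θ c).toFun x) ∧
      (∀ x, (∀ c, x ∉ K c) → Φ.toFun x = x) ∧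
      (∀ c, ∀ x ∈ K c, Φ.invFun x = (Θ c).invFun x) ∧
      (∀ x, (∀ c, x ∉ K c) → Φ.invFun x = x) := by
  have H : GlueData Θ K := ⟨hid, hmeet⟩
  have maps : ∀ {Θ : γ → ConHomeo (univ : Set E) (univ : Set E)}, GlueData Θ K →
      MapsTo (glueMap Θ K) Λ Λ := by
    intro Θ H x hx
    by_cases h : ∃ c, x ∈ K c
    · obtain ⟨c, hc⟩ := h
      rw [H.glueMap_of_mem hc]
      exact hK c (H.maps c hc)
    · push Not at h
      rw [glueMap_of_notMem h]
      exact hx
  have cont : ∀ {Θ : γ → ConHomeo (univ : Set E) (univ : Set E)}, GlueData Θ K →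
      ContinuousOn (glueMap Θ K) Λ := by
    intro Θ H x hx
    obtain ⟨P, hP⟩ := H.exists_local (hfin x hx)
    have h1 : ContinuousAt P.toFun x := (P.cont x (mem_univ x)).continuousAt univ_mem
    exact (h1.congr (hP.mono fun y hy => hy.symm)).continuousWithinAt
  refine ⟨{ toFun := glueMap Θ K
            invFun := glueMap (fun c => (Θ c).symm) K
            mapsTo := maps H
            mapsTo_inv := maps H.symm
            left_inv := fun x _ => H.glueMap_symm_glueMap x
            right_inv := fun x _ => H.symm.glueMap_symm_glueMap x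
            cont := cont H
            cont_inv := cont H.symm
            conical := ?_ }, fun c x hx => H.glueMap_of_mem hx, fun x hx => glueMap_of_notMem hx,
            fun c x hx => H.symm.glueMap_of_mem hx,
            fun x hx => glueMap_of_notMem (Θ := fun c => (Θ c).symm) hx⟩
  intro x hx
  obtain ⟨P, hP⟩ := H.exists_local (hfin x hx)
  have h1 : ConicalWithinAt P.toFun Λ x :=
    (P.conical x (mem_univ x)).mono_set (conicalSetAt_of_mem_nhds (hΛ.mem_nhds hx))
      (subset_univ _)
  exact h1.congr_nhds (Eventually.of_forall fun y => Iff.rfl) (hP.mono fun y hy _ => hy)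
    hP.self_of_nhds

omit [NormedSpace ℝ E] in
/-- local finiteness from the compact form -/
theorem locFin_of_compact [ProperSpace E] {γ : Type*} {Λ : Set E} (hΛ : IsOpen Λ) {K : γ → Set E}
    (h : ∀ L ⊆ Λ, IsCompact L → {c | (K c ∩ L).Nonempty}.Finite) :
    ∀ z ∈ Λ, ∃ U ∈ 𝓝 z, {c | (K c ∩ U).Nonempty}.Finite := by
  intro z hz
  obtain ⟨r, hr, hb⟩ := Metric.nhds_basis_closedBall.mem_iff.1 (hΛ.mem_nhds hz)
  exact ⟨_, closedBall_mem_nhds z hr, h _ hb (isCompact_closedBall z r)⟩

end P073.Net
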