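import Vale.Agent.P073.Net.Cube
import Vale.Agent.P073.Net.NC
import Vale.Agent.P073.Net.ND1
import Vale.Agent.P073.Net.NH1
import Vale.Agent.P073.Net.GlueFam

/-!
# P073, block NET: assembly, part one (curves, strands, the map in one tile)
-/

open Set Metric Topology MeasureTheory Filter
open scoped ENNReal NNReal

namespace P073.Net

open Vale.Agent.P073.St (V euc IsHomeo IsInv)
open ND1 (dyo_sub_dyc isClosed_dyc)

/-- the image curve of the edge `i` -/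
noncomputable def gc {Ω : Set V} (G : Graph Ω) (f : V → V) (i : G.ι) (t : ℝ) : V := f (G.e i t)

/-- the image of the other edges -/
def oth {Ω : Set V} (G : Graph Ω) (f : V → V) (i : G.ι) : Set V :=
  {x | ∃ j, j ≠ i ∧ ∃ u ∈ Icc (0:ℝ) 1, gc G f j u = x}

section facts

variable {Ω Λ : Set V} {f : V → V} (G : Graph Ω)

theorem e_mem_dom (i : G.ι) {t : ℝ} (ht : t ∈ Icc (0:ℝ) 1) : G.e i t ∈ Ω :=
  G.sub i (G.e_mem i ht)

theorem gc_mapsTo (hf : IsHomeo Ω Λ f) (i : G.ι) : MapsTo (gc G f i) (Icc 0 1) Λ := by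
  obtain ⟨h, ⟨h1, _⟩, _, _⟩ := hf
  intro t ht
  exact (h1 _ (e_mem_dom G i ht)).1

theorem gc_injOn (hf : IsHomeo Ω Λ f) (i : G.ι) : InjOn (gc G f i) (Icc 0 1) := by
  obtain ⟨h, ⟨h1, _⟩, _, _⟩ := hf
  intro s hs t ht hst
  have e1 := (h1 _ (e_mem_dom G i hs)).2
  have e2 := (h1 _ (e_mem_dom G i ht)).2
  have : G.e i s = G.e i t := by
    rw [← e1, ← e2]; exact congrArg h hst
  exact G.e_injective i this

theorem gc_continuousOn (hf : IsHomeo Ω Λ f) (i : G.ι) : ContinuousOn (gc G f i) (Icc 0 1) := by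
  obtain ⟨h, _, hc, _⟩ := hf
  exact hc.comp (G.continuous_e i).continuousOn fun t ht => e_mem_dom G i ht

theorem gc_locFin (hf : IsHomeo Ω Λ f) : ∀ K ⊆ Λ, IsCompact K →
    {i | (gc G f i '' Icc 0 1 ∩ K).Nonempty}.Finite := by
  obtain ⟨h, ⟨h1, h2⟩, _, hc⟩ := hf
  intro K hK hKc
  have hcomp : IsCompact (h '' K) := hKc.image_of_continuousOn (hc.mono hK)
  have hsub : h '' K ⊆ Ω := by
    rintro _ ⟨y, hy, rfl⟩
    exact (h2 y (hK hy)).1
  refine (G.fin _ hsub hcomp).subset ?_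
  rintro i ⟨_, ⟨t, ht, rfl⟩, hy⟩
  refine ⟨G.e i t, G.e_mem i ht, _, hy, ?_⟩
  exact (h1 _ (e_mem_dom G i ht)).2

theorem gc_far (hΩ : IsOpen Ω) (hf : IsHomeo Ω Λ f) (i : G.ι) {t : ℝ} (ht : t ∈ Ioo (0:ℝ) 1) :
    ∃ r > 0, ∀ x ∈ oth G f i, r ≤ ‖x - gc G f i t‖ := by
  have hmem := e_mem_dom G i (Ioo_subset_Icc_self ht)
  obtain ⟨h, ⟨h1, h2⟩, _, hc⟩ := hf
  have hg : gc G f i t ∈ Λ := (h1 _ hmem).1
  by_contra hcon
  push Not at hcon
  -- `gc i t` is in the closure of the others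
  have hcl : gc G f i t ∈ closure (oth G f i) := by
    rw [Metric.mem_closure_iff]
    intro r hr
    obtain ⟨x, hx, hxr⟩ := hcon r hr
    exact ⟨x, hx, by rw [dist_eq_norm, norm_sub_rev]; exact hxr⟩
  have hsub : oth G f i ⊆ Λ := by
    rintro _ ⟨j, _, u, hu, rfl⟩
    exact (h1 _ (e_mem_dom G j hu)).1
  have hcl2 : h (gc G f i t) ∈ closure (h '' oth G f i) :=
    ContinuousWithinAt.mem_closure_image ((hc _ hg).mono hsub) hcl
  have e1 : h (gc G f i t) = G.e i t := (h1 _ hmem).2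
  rw [e1] at hcl2
  have hcl3 : G.e i t ∈ closure (⋃ j ∈ {j | j ≠ i}, segment ℝ (G.a j) (G.b j)) := by
    refine closure_mono ?_ hcl2
    rintro _ ⟨_, ⟨j, hj, u, hu, rfl⟩, rfl⟩
    refine mem_iUnion₂.2 ⟨j, hj, ?_⟩
    have : h (gc G f j u) = G.e j u := (h1 _ (e_mem_dom G j hu)).2
    rw [this]
    exact G.e_mem j hu
  obtain ⟨j, hj, hx⟩ := G.isClosed_others hΩ i hmem hcl3
  exact G.notMem_of_mem_Ioo hj.symm ht hx

theorem graph_countable (hΩ : IsOpen Ω) : Countable G.ι := by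
  obtain ⟨ρ, hρ⟩ := exists_sizeFn hΩ
  set K : ℕ → Set V := fun n => closedBall 0 n ∩ {x | 1 / (n + 1 : ℝ) ≤ ρ x} with hK
  have hKc : ∀ n, IsCompact (K n) := fun n =>
    (isCompact_closedBall (0:V) n).inter_right (isClosed_le continuous_const hρ.continuous)
  have hKs : ∀ n, K n ⊆ Ω := fun n x hx => hρ.mem (lt_of_lt_of_le (by positivity) hx.2)
  have hfin : ∀ n, {i | G.a i ∈ K n}.Finite := fun n =>
    (G.fin _ (hKs n) (hKc n)).subset fun i hi => ⟨G.a i, left_mem_segment _ _ _, hi⟩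
  have huniv : (univ : Set G.ι) = ⋃ n, {i | G.a i ∈ K n} := by
    refine (eq_univ_of_forall fun i => ?_).symm
    have hi : G.a i ∈ Ω := G.sub i (left_mem_segment _ _ _)
    have hp := hρ.pos _ hi
    obtain ⟨n, hn⟩ := exists_nat_gt (max ‖G.a i‖ (1 / ρ (G.a i)))
    refine mem_iUnion.2 ⟨n, ?_, ?_⟩
    · rw [mem_closedBall, dist_zero_right]
      exact (le_max_left _ _).trans hn.le
    · have h1 : 1 / ρ (G.a i) ≤ n + 1 := ((le_max_right _ _).trans hn.le).trans (by linarith)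
      show 1 / (n + 1 : ℝ) ≤ ρ (G.a i)
      rw [div_le_iff₀ (by positivity)]
      rw [div_le_iff₀ hp] at h1
      linarith
  rw [← countable_univ_iff, huniv]
  exact countable_iUnion fun n => (hfin n).countable

theorem e_conical (i : G.ι) : ConicalOn (G.e i) (Icc 0 1) := by
  have h : ConicalOn (fun t : ℝ => t • (G.b i - G.a i) + G.a i) (Icc 0 1) := by
    have := conicalOn_clm_add (E := ℝ) (F := V)
      (ContinuousLinearMap.toSpanSingleton ℝ (G.b i - G.a i)) (G.a i)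
    have h2 := this.mono (Convex.conicalSet (convex_Icc (0:ℝ) 1)) (subset_univ _)
    exact h2.congr fun t _ => by simp
  exact h.congr fun t _ => by unfold Graph.e; rw [add_comm]

theorem h_conical (h : ConHomeo Ω Λ) (i : G.ι) :
    ConicalOn (fun t => h.toFun (G.e i t)) (Icc 0 1) ∧
      ContinuousOn (fun t => h.toFun (G.e i t)) (Icc 0 1) :=
  ⟨h.conical.comp (e_conical G i) (fun _ ht => e_mem_dom G i ht) (G.continuous_e i).continuousOn,
    h.cont.comp (G.continuous_e i).continuousOn fun _ ht => e_mem_dom G i ht⟩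

end facts

/-! ### Strands -/

theorem isOpen_dyo (v : V) (m : ℕ) (z : Fin 3 → ℤ) : IsOpen (dyo v m z) := by
  have : dyo v m z = {x | ‖x - ctr v m z‖ < hs m} := by
    ext x; exact mem_dyo_iff
  rw [this]
  exact isOpen_lt (by fun_prop) continuous_const

theorem isCompact_dyc (v : V) (m : ℕ) (z : Fin 3 → ℤ) : IsCompact (dyc v m z) := by
  have : dyc v m z = closedBall (ctr v m z) (hs m) := by
    ext x; rw [mem_dyc_iff, mem_closedBall, dist_eq_norm]
  rw [this]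
  exact isCompact_closedBall _ _

/-- on an interval without crossings the curve stays in one open tile -/
theorem exists_tile_interval (hNC : SpecNC) {Λ : Set V} {ρ : V → ℝ} (hρ : SizeFn Λ ρ) {v : V}
    {g : ℝ → V} {x y : ℝ} (hxy : x < y) (hg : ContinuousOn g (Ioo x y))
    (h : ∀ t ∈ Ioo x y, ∃ m z, IsTile ρ v m z ∧ g t ∈ dyo v m z) :
    ∃ m z, IsTile ρ v m z ∧ ∀ t ∈ Ioo x y, g t ∈ dyo v m z := by
  obtain ⟨_, _, hdis, _, _⟩ := hNC Λ ρ hρ v
  have hmid : (x + y) / 2 ∈ Ioo x y := ⟨by linarith, by linarith⟩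
  obtain ⟨m, z, ht, hmz⟩ := h _ hmid
  refine ⟨m, z, ht, ?_⟩
  have hpre : IsPreconnected (g '' Ioo x y) := isPreconnected_Ioo.image g hg
  set W : Set V := ⋃ p ∈ {p : ℕ × (Fin 3 → ℤ) | IsTile ρ v p.1 p.2 ∧ p ≠ (m, z)},
    dyo v p.1 p.2 with hW
  have hWo : IsOpen W := isOpen_biUnion fun p _ => isOpen_dyo v p.1 p.2
  have hsub : g '' Ioo x y ⊆ dyo v m z ∪ W := by
    rintro _ ⟨t, ht', rfl⟩
    obtain ⟨m', z', h1, h2⟩ := h t ht'
    by_cases he : (m', z') = (m, z)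
    · left
      rw [Prod.mk.injEq] at he
      rw [← he.1, ← he.2]; exact h2
    · right
      exact mem_iUnion₂.2 ⟨(m', z'), ⟨h1, he⟩, h2⟩
  have hdisj : Disjoint (dyo v m z) W := by
    rw [Set.disjoint_left]
    intro a ha haW
    obtain ⟨p, ⟨hp1, hp2⟩, hp3⟩ := mem_iUnion₂.1 haW
    exact Set.disjoint_left.1 (hdis m z p.1 p.2 ht hp1 (fun h => hp2 h.symm)) ha
      (dyo_sub_dyc _ _ _ hp3)
  have := hpre.subset_left_of_subset_union (isOpen_dyo v m z) hWo hdisj hsub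
    ⟨_, ⟨_, hmid, rfl⟩, hmz⟩
  intro t ht'
  exact this ⟨t, ht', rfl⟩

/-- closure of a strand -/
theorem strand_closed {v : V} {g : ℝ → V} {x y : ℝ} (hxy : x < y) (hg : ContinuousOn g (Icc x y))
    {m : ℕ} {z : Fin 3 → ℤ} (h : ∀ t ∈ Ioo x y, g t ∈ dyo v m z) :
    ∀ t ∈ Icc x y, g t ∈ dyc v m z := by
  have h1 : closure (Ioo x y) = Icc x y := closure_Ioo hxy.ne
  intro t ht
  have h2 : g t ∈ closure (g '' Ioo x y) :=
    ContinuousWithinAt.mem_closure_image ((hg t ht).mono Ioo_subset_Icc_self) (by rw [h1]; exact ht)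
  have h3 : closure (g '' Ioo x y) ⊆ dyc v m z :=
    closure_minimal (by rintro _ ⟨s, hs, rfl⟩; exact dyo_sub_dyc _ _ _ (h s hs)) (isClosed_dyc _ _ _)
  exact h3 h2

section strands

variable {Ω Λ : Set V} {f : V → V} {G : Graph Ω} {ρ : V → ℝ} {v : V}

/-- the conical curve is in the same open tile -/
theorem strand_open (hNC : SpecNC) (hT1 : SpecT1) (hρ : SizeFn Λ ρ) {h : ConHomeo Ω Λ}
    (hcode : SameCode G f h.toFun ρ v) {i : G.ι} {t : ℝ} (ht : t ∈ Icc (0:ℝ) 1) {m : ℕ}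
    {z : Fin 3 → ℤ} (hmz : IsTile ρ v m z) (hg : gc G f i t ∈ dyo v m z) :
    h.toFun (G.e i t) ∈ dyo v m z := by
  obtain ⟨_, _, hdis, _, _⟩ := hNC Λ ρ hρ v
  by_contra hcon
  have h1 : h.toFun (G.e i t) ∈ dyc v m z := (hcode i t ht m z hmz).2 (dyo_sub_dyc _ _ _ hg)
  obtain ⟨m', z', h2, h3, h4⟩ := hT1 Λ ρ hρ v m z hmz _ h1 hcon
  have h5 := (hcode i t ht m' z' h2).1 h4
  exact Set.disjoint_left.1 (hdis m z m' z' hmz h2 h3.symm) hg h5

/-- **the map in one tile** -/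
theorem exists_tile_map (hNC : SpecNC) (hT1 : SpecT1) (hNG3 : SpecNG3) (hρ : SizeFn Λ ρ)
    (hf : IsHomeo Ω Λ f) {h : ConHomeo Ω Λ} (hcode : SameCode G f h.toFun ρ v)
    (S : G.ι → Finset ℝ) (hS : ∀ i, ∀ x ∈ S i, x ∈ Icc (0:ℝ) 1) (n : G.ι → ℕ)
    (hsmall : ∀ i, ∀ t ∈ Icc (0:ℝ) 1, ρ (gc G f i t) < 1 / (n i + 1 : ℝ))
    (good : G.ι → ℝ → Prop)
    (hgood : ∀ i x, good i x → (∃ k m z m' z', Crosses (gc G f i) ρ v x k m z m' z' ∧
      GoodT (gc G f i) (oth G f i) k (n i) x) ∧ h.toFun (G.e i x) = gc G f i x)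
    (er : G.ι → ℝ) (her : ∀ i, 0 < er i) {m : ℕ} {z : Fin 3 → ℤ} (hmz : IsTile ρ v m z) :
    ∃ Θ : ConHomeo (univ : Set V) (univ : Set V), (∀ x, x ∉ dyo v m z → Θ.toFun x = x) ∧
      (∀ x ∈ dyo v m z, Θ.toFun x ∈ dyo v m z) ∧
      ∀ i, ∀ x ∈ S i, ∀ y ∈ S i, x < y → (∀ w ∈ S i, w ≤ x ∨ y ≤ w) →
        (∀ t ∈ Ioo x y, gc G f i t ∈ dyo v m z) →
        ((good i x ∧ good i y) →
          len (Θ.toFun ∘ fun t => h.toFun (G.e i t)) (Icc x y) ≤
            ENNReal.ofReal (euc (gc G f i x - gc G f i y) + er i)) ∧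
        (¬ (good i x ∧ good i y) →
          len (Θ.toFun ∘ fun t => h.toFun (G.e i t)) (Icc x y) ≤
            ENNReal.ofReal (4 * hs m + er i)) := by
  obtain ⟨htsub, _, hdis, _, htfin⟩ := hNC Λ ρ hρ v
  have hcon := fun i => h_conical G h i
  have hsub : ∀ i, ∀ x ∈ S i, ∀ y ∈ S i, Icc x y ⊆ Icc (0:ℝ) 1 := fun i x hx y hy =>
    Icc_subset_Icc (hS i x hx).1 (hS i y hy).2
  have hgcont : ∀ i, ∀ x ∈ S i, ∀ y ∈ S i, ContinuousOn (gc G f i) (Icc x y) :=
    fun i x hx y hy => (gc_continuousOn G hf i).mono (hsub i x hx y hy)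
  by_cases hex : ∃ i, ∃ x ∈ S i, ∃ y ∈ S i, x < y ∧ (∀ w ∈ S i, w ≤ x ∨ y ≤ w) ∧
      (∀ t ∈ Ioo x y, gc G f i t ∈ dyo v m z) ∧ good i x ∧ good i y
  · -- a good tile
    obtain ⟨i, x, hx, y, hy, hxy, hcons, hstr, hgx, hgy⟩ := hex
    obtain ⟨a1, a2⟩ := hgood i x hgx
    obtain ⟨b1, b2⟩ := hgood i y hgy
    obtain ⟨c1, c2, k, l, σ, τ, hσ, hτ, hkl, d1, d2, d3, d4⟩ := hNG3 Λ ρ hρ v (gc G f i)
      (oth G f i) (n i) (gc_continuousOn G hf i) (gc_injOn G hf i) (gc_mapsTo G hf i) (hsmall i)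
      x y hxy a1 b1 m z hmz hstr
    obtain ⟨Θ, p1, p2, p3⟩ := sq_good_cube (c := ctr v m z) (s := hs m) (hs_pos m)
      (γ := fun t => h.toFun (G.e i t)) hxy
      ((hcon i).1.mono (Convex.conicalSet (convex_Icc x y)) (hsub i x hx y hy))
      ((hcon i).2.mono (hsub i x hx y hy))
      (fun t ht => mem_dyo_iff.1 (strand_open hNC hT1 hρ hcode
        (hsub i x hx y hy (Ioo_subset_Icc_self ht)) hmz (hstr t ht)))
      hσ hτ hkl (by rw [a2]; exact d1) (by rw [a2]; exact d2) (by rw [b2]; exact d3)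
      (by rw [b2]; exact d4) (her i)
    refine ⟨Θ, fun w hw => p1 w ?_, fun w hw => mem_dyo_iff.2 (p2 w (mem_dyo_iff.1 hw)), ?_⟩
    · rw [mem_dyo_iff] at hw
      exact not_lt.1 hw
    · intro i' x' hx' y' hy' hxy' hcons' hstr'
      -- it is the same strand
      have hmid : (x' + y') / 2 ∈ Ioo x' y' := ⟨by linarith, by linarith⟩
      have hi : i' = i := by
        by_contra hne
        refine c1 (gc G f i' ((x' + y') / 2)) ⟨i', hne, _,
          hsub i' x' hx' y' hy' (Ioo_subset_Icc_self hmid), rfl⟩ ?_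
        exact dyo_sub_dyc _ _ _ (hstr' _ hmid)
      subst hi
      have hcl := strand_closed hxy' (hgcont i' x' hx' y' hy') hstr'
      have e1 := c2 x' (hS i' x' hx') (hcl x' ⟨le_refl _, hxy'.le⟩)
      have e2 := c2 y' (hS i' y' hy') (hcl y' ⟨hxy'.le, le_refl _⟩)
      have e3 : x' = x := by
        rcases hcons x' hx' with h | h
        · exact le_antisymm h e1.1
        · exact absurd (lt_of_lt_of_le hxy' e2.2) (not_lt.2 h)
      have e4 : y' = y := by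
        rcases hcons y' hy' with h | h
        · exact absurd (lt_of_le_of_lt e1.1 hxy') (not_lt.2 h)
        · exact le_antisymm e2.2 h
      subst e3 e4
      refine ⟨fun _ => ?_, fun hn => absurd ⟨hgx, hgy⟩ hn⟩
      have := p3
      rw [a2, b2] at this
      exact this
  · -- a bad tile
    push Not at hex
    have hdc : dyc v m z ⊆ Λ := htsub m z hmz
    have hfinI := gc_locFin G hf _ hdc (isCompact_dyc v m z)
    -- the finite set of strands
    set T : Set (G.ι × ℝ × ℝ) := {q | q.2.1 ∈ S q.1 ∧ q.2.2 ∈ S q.1 ∧ q.2.1 < q.2.2 ∧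
      (∀ t ∈ Ioo q.2.1 q.2.2, gc G f q.1 t ∈ dyo v m z)} with hT
    have hTfin : T.Finite := by
      have hbig : (⋃ i ∈ {i | (gc G f i '' Icc 0 1 ∩ dyc v m z).Nonempty},
          ((({i} : Set G.ι) ×ˢ ((S i : Set ℝ) ×ˢ (S i : Set ℝ))) : Set (G.ι × ℝ × ℝ))).Finite := by
        refine hfinI.biUnion fun i _ => ?_
        exact (finite_singleton i).prod ((S i).finite_toSet.prod (S i).finite_toSet)
      refine hbig.subset ?_
      rintro ⟨i, x, y⟩ ⟨hx, hy, hxy, hstr⟩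
      simp only at hx hy hxy hstr
      refine mem_iUnion₂.2 ⟨i, ?_, rfl, hx, hy⟩
      have hmid : (x + y) / 2 ∈ Ioo x y := ⟨by linarith, by linarith⟩
      exact ⟨_, ⟨_, hsub i x hx y hy (Ioo_subset_Icc_self hmid), rfl⟩,
        dyo_sub_dyc _ _ _ (hstr _ hmid)⟩
    have hmemT : ∀ q, q ∈ hTfin.toFinset ↔ q ∈ T := fun q => hTfin.mem_toFinset
    obtain ⟨Θ, p1, p2, p3⟩ := sq_bad_cube (c := ctr v m z) (s := hs m) (hs_pos m)
      hTfin.toFinset (fun q t => h.toFun (G.e q.1 t)) (fun q => q.2.1) (fun q => q.2.2)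
      (fun q hq => ((hmemT q).1 hq).2.2.1.le)
      (fun q hq => (hcon q.1).1.mono (Convex.conicalSet (convex_Icc _ _))
        (hsub q.1 _ ((hmemT q).1 hq).1 _ ((hmemT q).1 hq).2.1))
      (fun q hq => (hcon q.1).2.mono (hsub q.1 _ ((hmemT q).1 hq).1 _ ((hmemT q).1 hq).2.1))
      (fun q hq t ht => mem_dyo_iff.1 (strand_open hNC hT1 hρ hcode
        (hsub q.1 _ ((hmemT q).1 hq).1 _ ((hmemT q).1 hq).2.1 (Ioo_subset_Icc_self ht)) hmz
        (((hmemT q).1 hq).2.2.2 t ht)))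
      (fun q hq t ht => by
        have h1 := hsub q.1 _ ((hmemT q).1 hq).1 _ ((hmemT q).1 hq).2.1 ht
        have h2 := strand_closed ((hmemT q).1 hq).2.2.1
          (hgcont q.1 _ ((hmemT q).1 hq).1 _ ((hmemT q).1 hq).2.1) ((hmemT q).1 hq).2.2.2 t ht
        exact mem_dyc_iff.1 ((hcode q.1 t h1 m z hmz).2 h2))
      (fun q => er q.1) (fun q _ => her q.1)
    refine ⟨Θ, fun w hw => p1 w ?_, fun w hw => mem_dyo_iff.2 (p2 w (mem_dyo_iff.1 hw)), ?_⟩
    · rw [mem_dyo_iff] at hw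
      exact not_lt.1 hw
    · intro i x hx y hy hxy hcons hstr
      refine ⟨fun hg => absurd hg.2 (hex i x hx y hy hxy hcons hstr hg.1), fun _ => ?_⟩
      exact p3 (i, x, y) ((hmemT _).2 ⟨hx, hy, hxy, hstr⟩)

end strands

end P073.Net
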