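import Vale.Agent.P073.Net.SqGood
import Vale.Agent.P073.Net.Spec2

/-!
# P073, block NET: squeezes in general cubes, summation over consecutive times
-/

open Set Metric Topology MeasureTheory Filter
open scoped ENNReal NNReal

namespace P073.Net

open Vale.Agent.P073.St (V euc)

/-- the homothety `x ↦ s x + c` -/
noncomputable def scaleH (c : V) (s : ℝ) (hs : 0 < s) :
    ConHomeo (univ : Set V) (univ : Set V) where
  toFun := fun x => s • x + c
  invFun := fun x => s⁻¹ • (x - c)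
  mapsTo := mapsTo_univ _ _
  mapsTo_inv := mapsTo_univ _ _
  left_inv := fun x _ => by
    simp only [add_sub_cancel_right]
    rw [smul_smul, inv_mul_cancel₀ hs.ne', one_smul]
  right_inv := fun x _ => by
    simp only
    rw [smul_smul, mul_inv_cancel₀ hs.ne', one_smul, sub_add_cancel]
  cont := by fun_prop
  cont_inv := by fun_prop
  conical := by
    have h := conicalOn_clm_add (E := V) (F := V) (s • ContinuousLinearMap.id ℝ V) c
    exact h.congr fun x _ => by simp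

theorem norm_scale_le {c x : V} {s : ℝ} (hs : 0 < s) : ‖s⁻¹ • (x - c)‖ ≤ 1 ↔ ‖x - c‖ ≤ s := by
  rw [norm_smul, norm_inv, Real.norm_of_nonneg hs.le, inv_mul_eq_div, div_le_one hs]

theorem norm_scale_lt {c x : V} {s : ℝ} (hs : 0 < s) : ‖s⁻¹ • (x - c)‖ < 1 ↔ ‖x - c‖ < s := by
  rw [norm_smul, norm_inv, Real.norm_of_nonneg hs.le, inv_mul_eq_div, div_lt_one hs]

/-- conjugation by a homothety -/
noncomputable def cj (c : V) (s : ℝ) (hs : 0 < s) (Θ : ConHomeo (univ : Set V) (univ : Set V)) :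
    ConHomeo (univ : Set V) (univ : Set V) :=
  (scaleH c s hs).symm.trans (Θ.trans (scaleH c s hs))

theorem cj_apply (c : V) (s : ℝ) (hs : 0 < s) (Θ : ConHomeo (univ : Set V) (univ : Set V))
    (x : V) : (cj c s hs Θ).toFun x = s • Θ.toFun (s⁻¹ • (x - c)) + c := rfl

theorem cj_props {c : V} {s : ℝ} {hs : 0 < s} {Θ : ConHomeo (univ : Set V) (univ : Set V)}
    (h1 : ∀ x, 1 ≤ ‖x‖ → Θ.toFun x = x) (h2 : ∀ x, ‖x‖ < 1 → ‖Θ.toFun x‖ < 1) :
    (∀ x, s ≤ ‖x - c‖ → (cj c s hs Θ).toFun x = x) ∧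
    (∀ x, ‖x - c‖ < s → ‖(cj c s hs Θ).toFun x - c‖ < s) := by
  constructor
  · intro x hx
    rw [cj_apply, h1]
    · rw [smul_smul, mul_inv_cancel₀ hs.ne', one_smul, sub_add_cancel]
    · by_contra h
      push Not at h
      rw [norm_scale_lt hs] at h
      linarith
  · intro x hx
    rw [cj_apply, add_sub_cancel_right, norm_smul, Real.norm_of_nonneg hs.le]
    have := h2 _ ((norm_scale_lt hs).2 hx)
    nlinarith

theorem len_cj {c : V} {s : ℝ} {hs : 0 < s} {Θ : ConHomeo (univ : Set V) (univ : Set V)}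
    (γ : ℝ → V) (t : Set ℝ) : len ((cj c s hs Θ).toFun ∘ γ) t ≤
      ENNReal.ofReal s * len (Θ.toFun ∘ (fun u => s⁻¹ • (γ u - c))) t := by
  refine eVariationOn_le_of_edist fun x _ y _ => ?_
  rw [edist_toLp, edist_toLp, ← ENNReal.ofReal_mul hs.le]
  refine ENNReal.ofReal_le_ofReal (le_of_eq ?_)
  have : ((cj c s hs Θ).toFun ∘ γ) x - ((cj c s hs Θ).toFun ∘ γ) y =
      s • ((Θ.toFun ∘ (fun u => s⁻¹ • (γ u - c))) x -
        (Θ.toFun ∘ (fun u => s⁻¹ • (γ u - c))) y) := by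
    simp only [Function.comp, cj_apply]
    module
  rw [this, euc_smul, abs_of_pos hs]

theorem scaled_conical {γ : ℝ → V} {t : Set ℝ} (hγ : ConicalOn γ t) (hc : ContinuousOn γ t)
    (c : V) (s : ℝ) : ConicalOn (fun u => s⁻¹ • (γ u - c)) t ∧
      ContinuousOn (fun u => s⁻¹ • (γ u - c)) t := by
  refine ⟨?_, by fun_prop⟩
  have h1 : ConicalOn (fun u => γ u - c) t := hγ.sub (conicalOn_const c hγ.conicalSet)
  exact h1.const_smul s⁻¹

/-- a good cube, general position -/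
theorem sq_good_cube {c : V} {s : ℝ} (hs : 0 < s) {γ : ℝ → V} {α β : ℝ} (hαβ : α < β)
    (hγ : ConicalOn γ (Icc α β)) (hc : ContinuousOn γ (Icc α β))
    (hin : ∀ t ∈ Ioo α β, ‖γ t - c‖ < s) {k l : Fin 3} {σ τ : ℝ} (hσ : σ = 1 ∨ σ = -1)
    (hτ : τ = 1 ∨ τ = -1) (hkl : k ≠ l ∨ σ = -τ)
    (ha1 : γ α k = c k + s * σ) (ha2 : ∀ j, j ≠ k → |γ α j - c j| < s)
    (hb1 : γ β l = c l + s * τ) (hb2 : ∀ j, j ≠ l → |γ β j - c j| < s) {ε : ℝ} (hε : 0 < ε) :
    ∃ Θ : ConHomeo (univ : Set V) (univ : Set V), (∀ x, s ≤ ‖x - c‖ → Θ.toFun x = x) ∧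
      (∀ x, ‖x - c‖ < s → ‖Θ.toFun x - c‖ < s) ∧
      len (Θ.toFun ∘ γ) (Icc α β) ≤ ENNReal.ofReal (euc (γ α - γ β) + ε) := by
  obtain ⟨h1, h2⟩ := scaled_conical hγ hc c s
  have hco : ∀ x : V, ∀ j, (s⁻¹ • (x - c)) j = s⁻¹ * (x j - c j) := fun x j => by simp
  have habs : ∀ x : V, ∀ j, |x j - c j| < s → |(s⁻¹ • (x - c)) j| < 1 := by
    intro x j h
    rw [hco, abs_mul, abs_inv, abs_of_pos hs, inv_mul_eq_div, div_lt_one hs]; exact h
  obtain ⟨Θ, t1, t2, t3⟩ := sq_good (a := s⁻¹ • (γ α - c)) (b := s⁻¹ • (γ β - c))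
    (γ := fun u => s⁻¹ • (γ u - c)) hαβ h1 h2 (fun t ht => (norm_scale_lt hs).2 (hin t ht)) rfl rfl
    hσ hτ hkl (by rw [hco, ha1, add_sub_cancel_left, ← mul_assoc, inv_mul_cancel₀ hs.ne', one_mul])
    (fun j hj => habs _ j (ha2 j hj))
    (by rw [hco, hb1, add_sub_cancel_left, ← mul_assoc, inv_mul_cancel₀ hs.ne', one_mul])
    (fun j hj => habs _ j (hb2 j hj)) (ε := ε / s) (div_pos hε hs)
  obtain ⟨p1, p2⟩ := cj_props (c := c) (s := s) (hs := hs) t1 t2
  refine ⟨cj c s hs Θ, p1, p2, (len_cj γ _).trans ?_⟩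
  calc _ ≤ ENNReal.ofReal s * ENNReal.ofReal
        (euc (s⁻¹ • (γ α - c) - s⁻¹ • (γ β - c)) + ε / s) := by gcongr
    _ = ENNReal.ofReal (euc (γ α - γ β) + ε) := by
        rw [← ENNReal.ofReal_mul hs.le]
        congr 1
        have : s⁻¹ • (γ α - c) - s⁻¹ • (γ β - c) = s⁻¹ • (γ α - γ β) := by module
        rw [this, euc_smul, abs_inv, abs_of_pos hs]
        field_simp

/-- a bad cube with finitely many strands -/
theorem sq_bad_cube {c : V} {s : ℝ} (hs : 0 < s) {ι : Type*} (S : Finset ι) (γ : ι → ℝ → V)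
    (α β : ι → ℝ) (hαβ : ∀ i ∈ S, α i ≤ β i) (hγ : ∀ i ∈ S, ConicalOn (γ i) (Icc (α i) (β i)))
    (hc : ∀ i ∈ S, ContinuousOn (γ i) (Icc (α i) (β i)))
    (hin : ∀ i ∈ S, ∀ t ∈ Ioo (α i) (β i), ‖γ i t - c‖ < s)
    (hle : ∀ i ∈ S, ∀ t ∈ Icc (α i) (β i), ‖γ i t - c‖ ≤ s) (ε : ι → ℝ)
    (hε : ∀ i ∈ S, 0 < ε i) :
    ∃ Θ : ConHomeo (univ : Set V) (univ : Set V), (∀ x, s ≤ ‖x - c‖ → Θ.toFun x = x) ∧
      (∀ x, ‖x - c‖ < s → ‖Θ.toFun x - c‖ < s) ∧
      ∀ i ∈ S, len (Θ.toFun ∘ γ i) (Icc (α i) (β i)) ≤ ENNReal.ofReal (4 * s + ε i) := by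
  classical
  have key : ∀ i ∈ S, ∃ δ₀ > 0, ∀ (κ δ : ℝ) (hκ : 0 < κ) (hκ1 : κ < 1) (hδ : 0 < δ) (hδ1 : δ < 1),
      κ ≤ δ₀ → δ ≤ δ₀ →
      len ((cj c s hs (phi κ δ hκ hκ1 hδ hδ1)).toFun ∘ γ i) (Icc (α i) (β i)) ≤
        ENNReal.ofReal (4 * s + ε i) := by
    intro i hi
    obtain ⟨h1, h2⟩ := scaled_conical (hγ i hi) (hc i hi) c s
    obtain ⟨δ₀, hδ₀, H⟩ := sq_bad (hαβ i hi) h1 h2
      (fun t ht => (norm_scale_lt hs).2 (hin i hi t ht))
      (fun t ht => (norm_scale_le hs).2 (hle i hi t ht)) (ε := ε i / (2 * s))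
      (div_pos (hε i hi) (by linarith))
    refine ⟨δ₀, hδ₀, fun κ δ hκ hκ1 hδ hδ1 h3 h4 => ?_⟩
    refine (len_cj (γ i) _).trans ?_
    have h5 := (len_le_var ((phi κ δ hκ hκ1 hδ hδ1).toFun ∘ fun u => s⁻¹ • (γ i u - c))
      (Icc (α i) (β i))).trans (mul_le_mul_right (H κ δ hκ hκ1 hδ hδ1 h3 h4) 2)
    calc _ ≤ ENNReal.ofReal s * (2 * ENNReal.ofReal (2 + ε i / (2 * s))) := by gcongr
      _ = ENNReal.ofReal (s * (2 * (2 + ε i / (2 * s)))) := by
          have := hε i hi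
          rw [ENNReal.ofReal_mul hs.le, ENNReal.ofReal_mul (by norm_num : (0:ℝ) ≤ 2),
            ENNReal.ofReal_ofNat]
      _ = ENNReal.ofReal (4 * s + ε i) := by
          congr 1
          field_simp
          ring
  choose! d hd H using key
  -- a common parameter
  obtain ⟨e, he0, he1, heS⟩ : ∃ e : ℝ, 0 < e ∧ e < 1 ∧ ∀ i ∈ S, e ≤ d i := by
    clear H hε hle hin hc hγ hαβ
    induction S using Finset.induction_on with
    | empty => exact ⟨1 / 2, by norm_num, by norm_num, fun i hi => absurd hi (Finset.notMem_empty i)⟩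
    | insert j T hj ih =>
      obtain ⟨e, h1, h2, h3⟩ := ih (fun i hi => hd i (Finset.mem_insert_of_mem hi))
      refine ⟨min e (d j), lt_min h1 (hd j (Finset.mem_insert_self j T)),
        (min_le_left _ _).trans_lt h2, fun i hi => ?_⟩
      rcases Finset.mem_insert.1 hi with rfl | hi
      · exact min_le_right _ _
      · exact (min_le_left _ _).trans (h3 i hi)
  obtain ⟨p1, p2⟩ := cj_props (c := c) (s := s) (hs := hs)
    (Θ := phi e e he0 he1 he0 he1) (fun x hx => phi_of_one_le hx) (fun x hx => phi_norm_lt hx)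
  exact ⟨cj c s hs (phi e e he0 he1 he0 he1), p1, p2,
    fun i hi => H i hi e e he0 he1 he0 he1 (heS i hi) (heS i hi)⟩

/-- **summation over consecutive times** -/
theorem len_chain {q : ℝ → V} {F w : ℝ → ℝ} {S : Finset ℝ} {a : ℝ} (ha : a ∈ S)
    (hmin : ∀ x ∈ S, a ≤ x) (hF : ∀ x ∈ S, ∀ y ∈ S, x ≤ y → F x ≤ F y) (hw : ∀ x ∈ S, 0 ≤ w x)
    (H : ∀ x ∈ S, ∀ y ∈ S, x < y → (∀ z ∈ S, z ≤ x ∨ y ≤ z) →
      len q (Icc x y) ≤ ENNReal.ofReal (F y - F x + (w x + w y))) :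
    ∀ b ∈ S, len q (Icc a b) ≤
      ENNReal.ofReal (F b - F a + 2 * ∑ x ∈ S.filter (· ≤ b), w x - w b) := by
  classical
  have hsum0 : ∀ b, 0 ≤ ∑ x ∈ S.filter (· ≤ b), w x := fun b =>
    Finset.sum_nonneg fun x hx => hw x (Finset.mem_filter.1 hx).1
  have hsumb : ∀ b ∈ S, w b ≤ ∑ x ∈ S.filter (· ≤ b), w x := fun b hb =>
    Finset.single_le_sum (f := w) (fun x hx => hw x (Finset.mem_filter.1 hx).1)
      (Finset.mem_filter.2 ⟨hb, le_refl _⟩)
  suffices ∀ n : ℕ, ∀ b ∈ S, (S.filter (· < b)).card = n → len q (Icc a b) ≤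
      ENNReal.ofReal (F b - F a + 2 * ∑ x ∈ S.filter (· ≤ b), w x - w b) from
    fun b hb => this _ b hb rfl
  intro n
  induction n using Nat.strong_induction_on with
  | _ n ih =>
    intro b hb hn
    rcases (hmin b hb).eq_or_lt with h | h
    · subst h
      have : len q (Icc a a) = 0 := eVariationOn.subsingleton _ (by
        rw [Icc_self]; exact subsingleton_singleton)
      rw [this]; exact zero_le
    · have hne : (S.filter (· < b)).Nonempty := ⟨a, Finset.mem_filter.2 ⟨ha, h⟩⟩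
      set c := (S.filter (· < b)).max' hne with hc
      have hcm := (S.filter (· < b)).max'_mem hne
      rw [← hc] at hcm
      obtain ⟨hcS, hcb⟩ := Finset.mem_filter.1 hcm
      have hmax : ∀ x ∈ S, x < b → x ≤ c := fun x hx hxb =>
        Finset.le_max' _ x (Finset.mem_filter.2 ⟨hx, hxb⟩)
      have hcard : (S.filter (· < c)).card < n := by
        rw [← hn]
        apply Finset.card_lt_card
        refine ⟨fun x hx => ?_, fun hsub => ?_⟩
        · obtain ⟨h1, h2⟩ := Finset.mem_filter.1 hx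
          exact Finset.mem_filter.2 ⟨h1, h2.trans hcb⟩
        · have := hsub hcm
          exact lt_irrefl c (Finset.mem_filter.1 this).2
      have h1 := ih _ hcard c hcS rfl
      have h2 := H c hcS b hb hcb (fun z hz => by
        rcases lt_or_ge z b with h' | h'
        · left; exact hmax z hz h'
        · right; exact h')
      have hsplit : S.filter (· ≤ b) = insert b (S.filter (· ≤ c)) := by
        ext x
        simp only [Finset.mem_filter, Finset.mem_insert]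
        constructor
        · rintro ⟨h3, h4⟩
          rcases h4.eq_or_lt with h5 | h5
          · left; exact h5
          · right; exact ⟨h3, hmax x h3 h5⟩
        · rintro (rfl | ⟨h3, h4⟩)
          · exact ⟨hb, le_refl _⟩
          · exact ⟨h3, h4.trans hcb.le⟩
      have hnot : b ∉ S.filter (· ≤ c) := fun h' => by
        have := (Finset.mem_filter.1 h').2
        linarith
      rw [len_add (hmin c hcS) hcb.le, hsplit, Finset.sum_insert hnot]
      have hFa := hF a ha c hcS (hmin c hcS)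
      have hFb := hF c hcS b hb hcb.le
      have hwb := hw b hb
      have hwc := hw c hcS
      have hsc := hsumb c hcS
      refine (add_le_add h1 h2).trans ?_
      rw [← ENNReal.ofReal_add (by linarith) (by linarith)]
      exact ENNReal.ofReal_le_ofReal (by linarith)

/-! ### Tiles as cubes -/

theorem hs_pos (m : ℕ) : 0 < hs m := by unfold hs; positivity

theorem mem_dyc_iff {v x : V} {m : ℕ} {z : Fin 3 → ℤ} :
    x ∈ dyc v m z ↔ ‖x - ctr v m z‖ ≤ hs m := by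
  have h2 : (0:ℝ) < 2 ^ m := by positivity
  rw [pi_norm_le_iff_of_nonneg (hs_pos m).le]
  unfold dyc
  refine forall_congr' fun k => ?_
  rw [Real.norm_eq_abs, abs_le]
  simp only [Pi.sub_apply, ctr, hs]
  have e1 : (z k + 1 / 2 : ℝ) / 2 ^ m = z k / 2 ^ m + 1 / 2 / 2 ^ m := by ring
  have e2 : (z k + 1 : ℝ) / 2 ^ m = z k / 2 ^ m + 2 * (1 / 2 / 2 ^ m) := by ring
  rw [e1, e2]
  constructor
  · rintro ⟨h, h'⟩; constructor <;> linarith
  · rintro ⟨h, h'⟩; constructor <;> linarith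

theorem mem_dyo_iff {v x : V} {m : ℕ} {z : Fin 3 → ℤ} :
    x ∈ dyo v m z ↔ ‖x - ctr v m z‖ < hs m := by
  have h2 : (0:ℝ) < 2 ^ m := by positivity
  rw [pi_norm_lt_iff (hs_pos m)]
  unfold dyo
  refine forall_congr' fun k => ?_
  rw [Real.norm_eq_abs, abs_lt]
  simp only [Pi.sub_apply, ctr, hs]
  have e1 : (z k + 1 / 2 : ℝ) / 2 ^ m = z k / 2 ^ m + 1 / 2 / 2 ^ m := by ring
  have e2 : (z k + 1 : ℝ) / 2 ^ m = z k / 2 ^ m + 2 * (1 / 2 / 2 ^ m) := by ring
  rw [e1, e2]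
  constructor
  · rintro ⟨h, h'⟩; constructor <;> linarith
  · rintro ⟨h, h'⟩; constructor <;> linarith

end P073.Net
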