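import Vale.Agent.P073.Net.Defs

/-!
# P073, block NET: the size function
-/

open Set Metric Topology MeasureTheory Filter
open scoped ENNReal

namespace P073.Net

open Vale.Agent.P073.St (V euc IsHomeo)

namespace NDrho

variable {ι : Type}

/-- the values whose infimum is the size function -/
def vals (Λ : Set V) (g : ι → ℝ → V) (δ : ι → ℝ) (x : V) : Set ℝ :=
  {a | a = 1 ∨ (∃ y, y ∉ Λ ∧ a = ‖x - y‖) ∨ ∃ i, ∃ t ∈ Icc (0:ℝ) 1, a = δ i + ‖x - g i t‖}

/-- the size function -/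
noncomputable def rho (Λ : Set V) (g : ι → ℝ → V) (δ : ι → ℝ) (x : V) : ℝ :=
  sInf (vals Λ g δ x)

variable {Λ : Set V} {g : ι → ℝ → V} {δ : ι → ℝ}

theorem vals_nonempty (x : V) : (vals Λ g δ x).Nonempty := ⟨1, Or.inl rfl⟩

theorem vals_nonneg (hδ : ∀ i, 0 < δ i) (x : V) : ∀ a ∈ vals Λ g δ x, 0 ≤ a := by
  rintro a (rfl | ⟨y, -, rfl⟩ | ⟨i, t, -, rfl⟩)
  · exact zero_le_one
  · exact norm_nonneg _
  · exact add_nonneg (hδ i).le (norm_nonneg _)

theorem vals_bdd (hδ : ∀ i, 0 < δ i) (x : V) : BddBelow (vals Λ g δ x) :=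
  ⟨0, fun a ha => vals_nonneg hδ x a ha⟩

theorem rho_le (hδ : ∀ i, 0 < δ i) {x : V} {a : ℝ} (ha : a ∈ vals Λ g δ x) :
    rho Λ g δ x ≤ a := csInf_le (vals_bdd hδ x) ha

theorem rho_lip (hδ : ∀ i, 0 < δ i) (x y : V) : rho Λ g δ x ≤ rho Λ g δ y + ‖x - y‖ := by
  have h : rho Λ g δ x - ‖x - y‖ ≤ rho Λ g δ y := by
    refine le_csInf (vals_nonempty y) ?_
    rintro a (rfl | ⟨w, hw, rfl⟩ | ⟨i, t, ht, rfl⟩)
    · have h1 := rho_le hδ (x := x) (Λ := Λ) (g := g) (a := 1) (Or.inl rfl)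
      have h2 := norm_nonneg (x - y)
      linarith
    · have h1 := rho_le hδ (x := x) (Λ := Λ) (g := g) (Or.inr (Or.inl ⟨w, hw, rfl⟩))
      have h2 := norm_sub_le_norm_sub_add_norm_sub x y w
      linarith
    · have h1 := rho_le hδ (x := x) (Λ := Λ) (g := g) (Or.inr (Or.inr ⟨i, t, ht, rfl⟩))
      have h2 := norm_sub_le_norm_sub_add_norm_sub x y (g i t)
      linarith
  linarith

theorem rho_pos (hΛ : IsOpen Λ)
    (hfin : ∀ K ⊆ Λ, IsCompact K → {i | (g i '' Icc 0 1 ∩ K).Nonempty}.Finite)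
    (hδ : ∀ i, 0 < δ i) {x : V} (hx : x ∈ Λ) : 0 < rho Λ g δ x := by
  obtain ⟨r, hr, hball⟩ := Metric.isOpen_iff.1 hΛ x hx
  have hK : closedBall x (r / 2) ⊆ Λ := (closedBall_subset_ball (half_lt_self hr)).trans hball
  have hf := hfin _ hK (isCompact_closedBall x (r / 2))
  obtain ⟨c, hc, hcδ⟩ : ∃ c > 0, ∀ i ∈ {i | (g i '' Icc 0 1 ∩ closedBall x (r / 2)).Nonempty},
      c ≤ δ i := by
    rcases ({i | (g i '' Icc 0 1 ∩ closedBall x (r / 2)).Nonempty}).eq_empty_or_nonempty with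
      he | hne
    · exact ⟨1, one_pos, by rw [he]; simp⟩
    · obtain ⟨i₀, -, hi₀⟩ := Set.exists_min_image _ δ hf hne
      exact ⟨δ i₀, hδ i₀, hi₀⟩
  have hpos : 0 < min (min 1 (r / 2)) c := by positivity
  refine lt_of_lt_of_le hpos (le_csInf (vals_nonempty x) ?_)
  rintro a (rfl | ⟨y, hy, rfl⟩ | ⟨i, t, ht, rfl⟩)
  · exact (min_le_left _ _).trans (min_le_left _ _)
  · refine ((min_le_left _ _).trans (min_le_right _ _)).trans ?_
    by_contra hcon
    push Not at hcon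
    refine hy (hK ?_)
    rw [mem_closedBall, dist_comm, dist_eq_norm]
    exact hcon.le
  · by_cases hi : i ∈ {i | (g i '' Icc 0 1 ∩ closedBall x (r / 2)).Nonempty}
    · have h1 := hcδ i hi
      have h2 := norm_nonneg (x - g i t)
      exact (min_le_right _ _).trans (by linarith)
    · refine ((min_le_left _ _).trans (min_le_right _ _)).trans ?_
      have h1 := hδ i
      have h3 : r / 2 ≤ ‖x - g i t‖ := by
        by_contra hcon
        push Not at hcon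
        refine hi ⟨g i t, ⟨t, ht, rfl⟩, ?_⟩
        rw [mem_closedBall, dist_comm, dist_eq_norm]
        exact hcon.le
      linarith

end NDrho

/-- Existence of the size function: small along the curves `g i`. -/
theorem exists_rho {ι : Type} {Λ : Set V} (hΛ : IsOpen Λ) {g : ι → ℝ → V}
    (hfin : ∀ K ⊆ Λ, IsCompact K → {i | (g i '' Icc 0 1 ∩ K).Nonempty}.Finite)
    {δ : ι → ℝ} (hδ : ∀ i, 0 < δ i) :
    ∃ ρ, SizeFn Λ ρ ∧ ∀ i, ∀ t ∈ Icc (0:ℝ) 1, ρ (g i t) ≤ δ i := by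
  refine ⟨NDrho.rho Λ g δ, ⟨?_, ?_, ?_, ?_⟩, ?_⟩
  · intro x y
    exact NDrho.rho_lip hδ x y
  · intro x hx
    exact NDrho.rho_pos hΛ hfin hδ hx
  · intro x hx
    exact NDrho.rho_le hδ (Or.inr (Or.inl ⟨x, hx, by simp⟩))
  · intro x
    exact NDrho.rho_le hδ (Or.inl rfl)
  · intro i t ht
    exact NDrho.rho_le hδ (Or.inr (Or.inr ⟨i, t, ht, by simp⟩))

end P073.Net
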