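import Vale.Agent.P073.Net.Asm

/-!
# P073, block NET: assembly, part two (`NetLen`)
-/

open Set Metric Topology MeasureTheory Filter
open scoped ENNReal NNReal

namespace P073.Net

open Vale.Agent.P073.St (V euc IsHomeo IsInv)
open ND1 (dyo_sub_dyc isClosed_dyc)

/-! ### The Euclidean norm of integrals -/

/-- the identity as a continuous linear map to Euclidean space -/
noncomputable def toE : V →L[ℝ] EuclideanSpace ℝ (Fin 3) :=
  ((PiLp.continuousLinearEquiv 2 ℝ (fun _ : Fin 3 => ℝ)).symm :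
    V →L[ℝ] EuclideanSpace ℝ (Fin 3))

theorem norm_toE (x : V) : ‖toE x‖ = euc x := by
  rw [euc_eq]; rfl

theorem intervalIntegrable_euc {D : ℝ → V} {a b : ℝ} (hD : IntervalIntegrable D volume a b) :
    IntervalIntegrable (fun t => euc (D t)) volume a b := by
  have h : IntervalIntegrable (fun t => toE (D t)) volume a b := by
    rw [intervalIntegrable_iff] at hD ⊢
    exact toE.integrable_comp hD
  have := h.norm
  simpa only [norm_toE] using this

theorem ng_euc_integral_le {D : ℝ → V} {a b : ℝ} (hab : a ≤ b)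
    (hD : IntervalIntegrable D volume a b) :
    euc (∫ t in a..b, D t) ≤ ∫ t in a..b, euc (D t) := by
  rw [← norm_toE, ← ContinuousLinearMap.intervalIntegral_comp_comm toE hD]
  refine (intervalIntegral.norm_integral_le_integral_norm hab).trans (le_of_eq ?_)
  simp only [norm_toE]

/-! ### Uniqueness of good crossings -/

section uniq

variable {Ω Λ : Set V} {f : V → V} {G : Graph Ω} {ρ : V → ℝ} {v : V}

theorem good_unique {i : G.ι} {t : ℝ} {k : Fin 3} {m m' : ℕ} {z z' : Fin 3 → ℤ} {n : ℕ}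
    (hc : Crosses (gc G f i) ρ v t k m z m' z') (hg : GoodT (gc G f i) (oth G f i) k n t)
    (hsmall : ρ (gc G f i t) < 1 / (n + 1 : ℝ)) {i' : G.ι} {t' : ℝ} (ht' : t' ∈ Icc (0:ℝ) 1)
    {a a' : ℕ} {b b' : Fin 3 → ℤ} (h1 : IsTile ρ v a b) (h1' : IsTile ρ v a' b')
    (hne : (a, b) ≠ (a', b')) (h2 : gc G f i t ∈ dyc v a b) (h2' : gc G f i t ∈ dyc v a' b')
    (h3 : gc G f i' t' ∈ dyc v a b) (h3' : gc G f i' t' ∈ dyc v a' b') :
    (i, t) = (i', t') := by
  obtain ⟨hm, hm', hmm, ht, g1, g1', huniq, _, _, hface⟩ := hc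
  -- the point is in both tiles of the crossing
  have hboth : gc G f i' t' ∈ dyc v m z ∧ gc G f i' t' ∈ dyc v m' z' := by
    rcases huniq a b h1 h2 with e | e <;> rcases huniq a' b' h1' h2' with e' | e'
    · exact absurd (e.trans e'.symm) hne
    · rw [Prod.mk.injEq] at e e'
      rw [← e.1, ← e.2, ← e'.1, ← e'.2]
      exact ⟨h3, h3'⟩
    · rw [Prod.mk.injEq] at e e'
      rw [← e.1, ← e.2, ← e'.1, ← e'.2]
      exact ⟨h3', h3⟩
    · exact absurd (e.trans e'.symm) hne
  have hdist : ‖gc G f i' t' - gc G f i t‖ < 1 / (n + 1 : ℝ) := by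
    have h4 := mem_dyc_iff.1 hboth.1
    have h5 := mem_dyc_iff.1 g1
    have h6 : ‖gc G f i' t' - gc G f i t‖ ≤ 1 / 2 ^ m := by
      calc ‖gc G f i' t' - gc G f i t‖
          = ‖(gc G f i' t' - ctr v m z) - (gc G f i t - ctr v m z)‖ := by congr 1; abel
        _ ≤ ‖gc G f i' t' - ctr v m z‖ + ‖gc G f i t - ctr v m z‖ := norm_sub_le _ _
        _ ≤ hs m + hs m := add_le_add h4 h5
        _ = 1 / 2 ^ m := by unfold hs; ring
    exact (h6.trans (hm.1 _ g1)).trans_lt hsmall
  obtain ⟨hR, σ, hσ, hs⟩ := hg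
  have hi : i' = i := by
    by_contra hne'
    have := hR _ ⟨i', hne', t', ht', rfl⟩
    linarith
  subst hi
  have ht2 : t' = t := by
    by_contra hne'
    have h4 := hs t' ht' hdist
    have h5 : gc G f i' t' k = gc G f i' t k := by
      rcases hface with ⟨f1, f2⟩ | ⟨f1, f2⟩
      · have a1 := (hboth.1 k).1
        have a2 := (hboth.2 k).2
        linarith
      · have a1 := (hboth.1 k).2
        have a2 := (hboth.2 k).1
        linarith
    rw [h5, sub_self, mul_zero, zero_mul] at h4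
    have h6 : 0 < (t' - t) ^ 2 := by
      have := sub_ne_zero.2 hne'
      positivity
    have h7 : (0:ℝ) < 1 / (n + 1 : ℝ) := by positivity
    nlinarith [mul_pos h7 h6]
  rw [ht2]

end uniq

/-! ### The final map -/

section final

variable {Ω Λ : Set V} {f : V → V} {G : Graph Ω} {ρ : V → ℝ} {v : V}

/-- gluing the tile maps -/
theorem exists_global (hNC : SpecNC) (hΛ : IsOpen Λ) (hρ : SizeFn Λ ρ) (v : V)
    (Θ : {p : ℕ × (Fin 3 → ℤ) // IsTile ρ v p.1 p.2} → ConHomeo (univ : Set V) (univ : Set V))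
    (h1 : ∀ p, ∀ x, x ∉ dyo v p.1.1 p.1.2 → (Θ p).toFun x = x) :
    ∃ Φ : ConHomeo Λ Λ, ∀ p : {p : ℕ × (Fin 3 → ℤ) // IsTile ρ v p.1 p.2},
      ∀ x ∈ dyc v p.1.1 p.1.2, Φ.toFun x = (Θ p).toFun x := by
  obtain ⟨htsub, _, hdis, _, htfin⟩ := hNC Λ ρ hρ v
  obtain ⟨Φ, hΦ, _⟩ := exists_glue_ambient hΛ Θ (fun p => dyc v p.1.1 p.1.2)
    (fun p => htsub _ _ p.2) (fun p x hx => h1 p x fun h => hx (dyo_sub_dyc _ _ _ h))
    (locFin_of_compact hΛ fun L hL hLc => by
      have := htfin L hL hLc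
      have h2 := this.preimage (f := fun p : {p : ℕ × (Fin 3 → ℤ) // IsTile ρ v p.1 p.2} =>
        (p : ℕ × (Fin 3 → ℤ))) (Subtype.val_injective.injOn)
      exact h2.subset fun p hp => ⟨p.2, hp⟩)
    (fun p p' hpp x hx hx' => h1 p x fun h => by
      have hne : (p.1.1, p.1.2) ≠ (p'.1.1, p'.1.2) := fun h' => hpp (Subtype.ext h')
      exact Set.disjoint_left.1 (hdis _ _ _ _ p.2 p'.2 hne) h hx')
  exact ⟨Φ, hΦ⟩

/-- the last step: lengths -/
theorem final_len (hNC : SpecNC) (hT1 : SpecT1) (hNG3 : SpecNG3) (hΛ : IsOpen Λ)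
    (hρ : SizeFn Λ ρ) (hf : IsHomeo Ω Λ f) {D : G.ι → ℝ → V} (hD : ACOn G f D)
    {h : ConHomeo Ω Λ} (hcode : SameCode G f h.toFun ρ v)
    (X : G.ι → Finset ℝ)
    (hX : ∀ i, ∀ x ∈ X i, x ∈ Icc (0:ℝ) 1)
    (hX2 : ∀ i, ∀ t ∈ Icc (0:ℝ) 1, t ∉ X i → ∃ m z, IsTile ρ v m z ∧ gc G f i t ∈ dyo v m z)
    (n : G.ι → ℕ)
    (hsmall : ∀ i, ∀ t ∈ Icc (0:ℝ) 1, ρ (gc G f i t) < 1 / (n i + 1 : ℝ))
    (good : G.ι → ℝ → Prop)
    (hgood : ∀ i x, good i x → (∃ k m z m' z', Crosses (gc G f i) ρ v x k m z m' z' ∧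
      GoodT (gc G f i) (oth G f i) k (n i) x) ∧ h.toFun (G.e i x) = gc G f i x)
    (ε η δ : G.ι → ℝ) (hε : ∀ i, 0 < ε i) (hδ : ∀ i, ∀ t ∈ Icc (0:ℝ) 1, ρ (gc G f i t) ≤ δ i)
    (hη : ∀ i, ∀ Y ⊆ X i, (∀ t ∈ Y, ¬ good i t) → ∑ t ∈ Y, ρ (gc G f i t) ≤ η i)
    (hsum : ∀ i, 8 * δ i + 4 * η i ≤ ε i / 2) :
    ∃ h' : ConHomeo Ω Λ, ∀ i,
      (∀ t ∈ Icc (0:ℝ) 1, ‖h'.toFun (G.e i t) - f (G.e i t)‖ ≤ δ i) ∧
      len (fun t => h'.toFun (G.e i t)) (Icc 0 1) ≤
        ENNReal.ofReal ((∫ t in (0:ℝ)..1, euc (D i t)) + ε i) := by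
  classical
  obtain ⟨htsub, htcov, hdis, _, htfin⟩ := hNC Λ ρ hρ v
  set S : G.ι → Finset ℝ := fun i => insert 0 (insert 1 (X i)) with hS
  have hS01 : ∀ i, ∀ x ∈ S i, x ∈ Icc (0:ℝ) 1 := by
    intro i x hx
    rcases Finset.mem_insert.1 hx with rfl | hx
    · exact ⟨le_refl _, zero_le_one⟩
    · rcases Finset.mem_insert.1 hx with rfl | hx
      · exact ⟨zero_le_one, le_refl _⟩
      · exact hX i x hx
  set er : G.ι → ℝ := fun i => ε i / (4 * ((S i).card + 1)) with her
  have her0 : ∀ i, 0 < er i := fun i => by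
    have := hε i
    rw [her]; positivity
  have hermul : ∀ i, 2 * ((S i).card * er i) ≤ ε i / 2 := by
    intro i
    have h1 : er i * (4 * ((S i).card + 1)) = ε i := by
      rw [her]; field_simp
    have := her0 i
    nlinarith
  -- the tile maps
  have key : ∀ p : {p : ℕ × (Fin 3 → ℤ) // IsTile ρ v p.1 p.2}, _ := fun p =>
    exists_tile_map hNC hT1 hNG3 hρ hf hcode S hS01 n hsmall good hgood er her0 p.2
  choose Θ h1 h2 h3 using key
  obtain ⟨Φ, hΦ⟩ := exists_global hNC hΛ hρ v Θ h1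
  have hin : ∀ (p : {p : ℕ × (Fin 3 → ℤ) // IsTile ρ v p.1 p.2}) x, x ∈ dyc v p.1.1 p.1.2 →
      (Θ p).toFun x ∈ dyc v p.1.1 p.1.2 := by
    intro p x hx
    by_cases hxo : x ∈ dyo v p.1.1 p.1.2
    · exact dyo_sub_dyc _ _ _ (h2 p x hxo)
    · rw [h1 p x hxo]; exact hx
  refine ⟨h.trans Φ, fun i => ⟨fun t ht => ?_, ?_⟩⟩
  · obtain ⟨m, z, hmz, hgt⟩ := htcov _ (gc_mapsTo G hf i ht)
    have e1 : h.toFun (G.e i t) ∈ dyc v m z := (hcode i t ht m z hmz).2 hgt
    have e2 : (h.trans Φ).toFun (G.e i t) ∈ dyc v m z := by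
      show Φ.toFun (h.toFun (G.e i t)) ∈ _
      rw [hΦ ⟨(m, z), hmz⟩ _ e1]
      exact hin ⟨(m, z), hmz⟩ _ e1
    have h4 := mem_dyc_iff.1 e2
    have h5 := mem_dyc_iff.1 hgt
    calc ‖(h.trans Φ).toFun (G.e i t) - gc G f i t‖
        = ‖((h.trans Φ).toFun (G.e i t) - ctr v m z) - (gc G f i t - ctr v m z)‖ := by
          congr 1; abel
      _ ≤ ‖(h.trans Φ).toFun (G.e i t) - ctr v m z‖ + ‖gc G f i t - ctr v m z‖ := norm_sub_le _ _
      _ ≤ hs m + hs m := add_le_add h4 h5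
      _ = 1 / 2 ^ m := by unfold hs; ring
      _ ≤ ρ (gc G f i t) := hmz.1 _ hgt
      _ ≤ δ i := hδ i t ht
  · -- lengths
    have hDi := hD.int i
    have hsubI : ∀ a ∈ Icc (0:ℝ) 1, ∀ b ∈ Icc (0:ℝ) 1, IntervalIntegrable (D i) volume a b := by
      intro a ha b hb
      refine hDi.mono_set ?_
      rw [uIcc_of_le zero_le_one]
      exact uIcc_subset_Icc ha hb
    have hF : ∀ x ∈ Icc (0:ℝ) 1, ∀ y ∈ Icc (0:ℝ) 1,
        (∫ s in (0:ℝ)..y, euc (D i s)) - (∫ s in (0:ℝ)..x, euc (D i s)) =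
          ∫ s in x..y, euc (D i s) := by
      intro x hx y hy
      exact intervalIntegral.integral_interval_sub_left
        (intervalIntegrable_euc (hsubI 0 ⟨le_refl _, zero_le_one⟩ y hy))
        (intervalIntegrable_euc (hsubI 0 ⟨le_refl _, zero_le_one⟩ x hx))
    have hF0 : ∀ x ∈ Icc (0:ℝ) 1, ∀ y ∈ Icc (0:ℝ) 1, x ≤ y → 0 ≤ ∫ s in x..y, euc (D i s) :=
      fun x _ y _ hxy => intervalIntegral.integral_nonneg hxy fun u _ => euc_nonneg _
    set w : ℝ → ℝ := fun x => (if good i x then 0 else 2 * ρ (gc G f i x)) + er i with hw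
    have hρ0 : ∀ x ∈ Icc (0:ℝ) 1, 0 ≤ ρ (gc G f i x) := fun x hx =>
      (hρ.pos _ (gc_mapsTo G hf i hx)).le
    have hw0 : ∀ x ∈ S i, 0 ≤ w x := by
      intro x hx
      have h5 := hρ0 x (hS01 i x hx)
      have h6 := her0 i
      simp only [hw]
      split_ifs <;> linarith
    have hwer : ∀ x ∈ S i, er i ≤ w x := by
      intro x hx
      have h5 := hρ0 x (hS01 i x hx)
      simp only [hw]
      split_ifs <;> linarith
    have hchain := len_chain (q := fun t => (h.trans Φ).toFun (G.e i t))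
      (F := fun t => ∫ s in (0:ℝ)..t, euc (D i s)) (w := w) (S := S i) (a := 0)
      (Finset.mem_insert_self _ _) (fun x hx => (hS01 i x hx).1)
      (fun x hx y hy hxy => by
        have h5 := hF x (hS01 i x hx) y (hS01 i y hy)
        have h6 := hF0 x (hS01 i x hx) y (hS01 i y hy) hxy
        linarith) hw0 ?_ 1 (Finset.mem_insert_of_mem (Finset.mem_insert_self _ _))
    · refine hchain.trans (ENNReal.ofReal_le_ofReal ?_)
      have hfilter : (S i).filter (· ≤ (1:ℝ)) = S i := Finset.filter_true_of_mem fun x hx =>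
        (hS01 i x hx).2
      rw [hfilter]
      have hw1 : 0 ≤ w 1 := hw0 1 (Finset.mem_insert_of_mem (Finset.mem_insert_self _ _))
      have hsumw : ∑ x ∈ S i, w x ≤ 2 * (2 * δ i + η i) + (S i).card * er i := by
        have e1 : ∑ x ∈ S i, w x = ∑ x ∈ S i, (if good i x then 0 else 2 * ρ (gc G f i x)) +
            (S i).card * er i := by
          simp only [hw]
          rw [Finset.sum_add_distrib, Finset.sum_const, nsmul_eq_mul]
        rw [e1]
        gcongr
        have e2 : ∀ (T : Finset ℝ) (a : ℝ), (∀ x ∈ insert a T, x ∈ Icc (0:ℝ) 1) →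
            ∑ x ∈ insert a T, (if good i x then 0 else 2 * ρ (gc G f i x)) ≤
              2 * ρ (gc G f i a) + ∑ x ∈ T, (if good i x then 0 else 2 * ρ (gc G f i x)) := by
          intro T a hT
          have ha := hρ0 a (hT a (Finset.mem_insert_self _ _))
          by_cases haT : a ∈ T
          · rw [Finset.insert_eq_of_mem haT]; linarith
          · rw [Finset.sum_insert haT]
            gcongr
            split_ifs <;> linarith
        have e3 := e2 (insert 1 (X i)) 0 (hS01 i)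
        have e4 := e2 (X i) 1 (fun x hx => hS01 i x (Finset.mem_insert_of_mem hx))
        have e5 : ∑ x ∈ X i, (if good i x then 0 else 2 * ρ (gc G f i x)) ≤ 2 * η i := by
          have e6 := hη i ((X i).filter fun x => ¬ good i x) (Finset.filter_subset _ _)
            (fun t ht => (Finset.mem_filter.1 ht).2)
          rw [Finset.sum_filter] at e6
          have e7 : ∑ x ∈ X i, (if good i x then 0 else 2 * ρ (gc G f i x)) =
              2 * ∑ x ∈ X i, (if ¬ good i x then ρ (gc G f i x) else 0) := by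
            rw [Finset.mul_sum]
            refine Finset.sum_congr rfl fun x _ => ?_
            by_cases hg : good i x <;> simp [hg]
          rw [e7]; linarith
        have e8 := hδ i 0 ⟨le_refl _, zero_le_one⟩
        have e9 := hδ i 1 ⟨zero_le_one, le_refl _⟩
        linarith
      have h5 := hermul i
      have h6 := hsum i
      simp only [intervalIntegral.integral_same]
      linarith
    · -- one interval
      intro x hx y hy hxy hcons
      have hx01 := hS01 i x hx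
      have hy01 := hS01 i y hy
      have hsub : Icc x y ⊆ Icc (0:ℝ) 1 := Icc_subset_Icc hx01.1 hy01.2
      obtain ⟨m, z, hmz, hstr⟩ := exists_tile_interval hNC hρ (v := v) hxy
        ((gc_continuousOn G hf i).mono (Ioo_subset_Icc_self.trans hsub)) (fun t ht => by
          refine hX2 i t (hsub (Ioo_subset_Icc_self ht)) fun htX => ?_
          rcases hcons t (Finset.mem_insert_of_mem (Finset.mem_insert_of_mem htX)) with h | h
          · exact absurd ht.1 (not_lt.2 h)
          · exact absurd ht.2 (not_lt.2 h))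
      have hcl := strand_closed hxy ((gc_continuousOn G hf i).mono hsub) hstr
      have heq : EqOn (fun t => (h.trans Φ).toFun (G.e i t))
          ((Θ ⟨(m, z), hmz⟩).toFun ∘ fun t => h.toFun (G.e i t)) (Icc x y) := by
        intro t ht
        show Φ.toFun (h.toFun (G.e i t)) = _
        exact hΦ ⟨(m, z), hmz⟩ _ ((hcode i t (hsub ht) m z hmz).2 (hcl t ht))
      rw [len_congr heq]
      obtain ⟨c1, c2⟩ := h3 ⟨(m, z), hmz⟩ i x hx y hy hxy hcons hstr
      have hFxy := hF x hx01 y hy01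
      have hF0xy := hF0 x hx01 y hy01 hxy.le
      have hwx := hwer x hx
      have hwy := hwer y hy
      have herp := her0 i
      by_cases hgg : good i x ∧ good i y
      · refine (c1 hgg).trans (ENNReal.ofReal_le_ofReal ?_)
        have e1 : gc G f i y - gc G f i x = ∫ s in x..y, D i s := by
          have a1 := hD.eq i y hy01
          have a2 := hD.eq i x hx01
          have a3 : (∫ s in (0:ℝ)..y, D i s) - (∫ s in (0:ℝ)..x, D i s) = ∫ s in x..y, D i s :=
            intervalIntegral.integral_interval_sub_left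
              (hsubI 0 ⟨le_refl _, zero_le_one⟩ y hy01) (hsubI 0 ⟨le_refl _, zero_le_one⟩ x hx01)
          show f (G.e i y) - f (G.e i x) = _
          rw [a1, a2, ← a3]; abel
        have e2 : euc (gc G f i x - gc G f i y) ≤ ∫ s in x..y, euc (D i s) := by
          rw [euc_sub_comm, e1]
          exact ng_euc_integral_le hxy.le (hsubI x hx01 y hy01)
        linarith
      · refine (c2 hgg).trans (ENNReal.ofReal_le_ofReal ?_)
        have hsx : 4 * hs m ≤ 2 * ρ (gc G f i x) := by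
          have := hmz.1 _ (hcl x ⟨le_refl _, hxy.le⟩)
          have e : 4 * hs m = 2 * (1 / 2 ^ m) := by unfold hs; ring
          rw [e]; linarith
        have hsy : 4 * hs m ≤ 2 * ρ (gc G f i y) := by
          have := hmz.1 _ (hcl y ⟨hxy.le, le_refl _⟩)
          have e : 4 * hs m = 2 * (1 / 2 ^ m) := by unfold hs; ring
          rw [e]; linarith
        rw [not_and_or] at hgg
        rcases hgg with hg | hg
        · have : w x = 2 * ρ (gc G f i x) + er i := by simp only [hw]; rw [if_neg hg]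
          linarith
        · have : w y = 2 * ρ (gc G f i y) + er i := by simp only [hw]; rw [if_neg hg]
          linarith

end final

/-- **NetLen** -/
theorem netLen_of (hNB : SpecNB) (hNC : SpecNC) (hND : SpecND) (hT1 : SpecT1) (hNG1 : SpecNG1)
    (hNG3 : SpecNG3) : NetLen := by
  classical
  intro Ω Λ f G D hΩ hΛ hf hD hTT ε hε
  have hcount := graph_countable G hΩ
  -- weights
  obtain ⟨β', hβ', hβs⟩ := ENNReal.exists_pos_sum_of_countable
    (ε := ENNReal.ofReal (1 / 100)) (by simp) G.ι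
  set β : G.ι → ℝ := fun i => (β' i : ℝ) with hβdef
  have hβ : ∀ i, 0 < β i := fun i => by exact_mod_cast hβ' i
  have hβsum : (∑' i, ENNReal.ofReal (β i)) ≤ ENNReal.ofReal (1 / 100) := by
    simp only [hβdef, ENNReal.ofReal_coe_nnreal]
    exact hβs.le
  set η : G.ι → ℝ := fun i => ε i / 16 with hη
  have hη0 : ∀ i, 0 < η i := fun i => by have := hε i; rw [hη]; positivity
  -- AC formula for the curves
  have hgc : ∀ i, ∀ t ∈ Icc (0:ℝ) 1, gc G f i t = gc G f i 0 + ∫ s in (0:ℝ)..t, D i s :=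
    fun i t ht => hD.eq i t ht
  have hNB' := fun i k => hNB (gc G f i) (D i) (oth G f i) k (hD.int i) (hgc i) (gc_injOn G hf i)
    (fun t ht => gc_far G hΩ hf i ht)
  have hexn : ∀ i, ∃ n : ℕ, ∀ k, ∫⁻ t in BadS (gc G f i) (oth G f i) k n,
      ENNReal.ofReal |D i t k| ≤ ENNReal.ofReal (η i * β i) := by
    intro i
    have h1 : ∀ k, ∃ n, ∫⁻ t in BadS (gc G f i) (oth G f i) k n,
        ENNReal.ofReal |D i t k| ≤ ENNReal.ofReal (η i * β i) := fun k =>
      (hNB' i k).2.2 _ (mul_pos (hη0 i) (hβ i))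
    choose n hn using h1
    refine ⟨Finset.univ.sup n, fun k => ?_⟩
    have hanti : Antitone (fun n => BadS (gc G f i) (oth G f i) k n) :=
      antitone_nat_of_succ_le fun n => (hNB' i k).2.1 n
    exact (lintegral_mono_set (hanti (Finset.le_sup (Finset.mem_univ k)))).trans (hn k)
  choose n hn using hexn
  set δ : G.ι → ℝ := fun i => min (1 / (2 * (n i + 1))) (ε i / 64) with hδ
  have hδ0 : ∀ i, 0 < δ i := fun i => by
    have := hε i
    rw [hδ]; exact lt_min (by positivity) (by positivity)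
  obtain ⟨ρ, hρ, hρδ, H⟩ := hND Λ hΛ G.ι hcount (gc G f) D hD.int hgc (fun i => gc_injOn G hf i)
    (fun i => gc_mapsTo G hf i) (gc_locFin G hf)
    (fun i k => BadS (gc G f i) (oth G f i) k (n i)) (fun i k => (hNB' i k).1 (n i))
    (fun i k t ht => ht.1) β δ η hβ hδ0 hη0 (fun i k => hn i k) hβsum
  obtain ⟨v, ⟨h₀, hcode₀⟩, hgen, hbad⟩ := H (fun v => TT Ω Λ f G ρ v) (hTT ρ hρ)
  have hsmall : ∀ i, ∀ t ∈ Icc (0:ℝ) 1, ρ (gc G f i t) < 1 / (n i + 1 : ℝ) := by
    intro i t ht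
    have h1 := (hρδ i t ht).trans (min_le_left _ _)
    refine h1.trans_lt ?_
    rw [div_lt_div_iff₀ (by positivity) (by positivity)]
    have : (0:ℝ) < (n i : ℝ) + 1 := by positivity
    linarith
  -- the good crossings
  set Q : Set (G.ι × ℝ) := {q | ∃ k m z m' z', Crosses (gc G f q.1) ρ v q.2 k m z m' z' ∧
    GoodT (gc G f q.1) (oth G f q.1) k (n q.1) q.2} with hQ
  obtain ⟨h₁, hcode₁, hpos⟩ := hNG1 Ω Λ f G hΩ hΛ hf ρ v hρ hgen h₀ hcode₀ Q
    (fun q hq => by
      obtain ⟨k, m, z, m', z', h1, _⟩ := hq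
      exact ⟨k, m, z, m', z', h1⟩)
    (fun q hq q' hq' m z m' z' t1 t2 hne a1 a2 a3 a4 => by
      obtain ⟨k, m1, z1, m1', z1', b1, b2⟩ := hq
      obtain ⟨k2, m2, z2, m2', z2', c1, c2⟩ := hq'
      exact good_unique b1 b2 (hsmall q.1 q.2 (Ioo_subset_Icc_self b1.2.2.2.1))
        (Ioo_subset_Icc_self c1.2.2.2.1) t1 t2 hne a1 a2 a3 a4)
  choose X hX1 hX2 using hgen
  obtain ⟨h', hh'⟩ := final_len hNC hT1 hNG3 hΛ hρ hf hD hcode₁ X
    (fun i x hx => by
      obtain ⟨k, m, z, m', z', h1⟩ := hX1 i x hx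
      exact Ioo_subset_Icc_self h1.2.2.2.1)
    (fun i t ht htX => hX2 i t ht htX) n hsmall (fun i x => (i, x) ∈ Q)
    (fun i x hx => ⟨hx, hpos (i, x) hx⟩) ε η δ hε hρδ
    (fun i Y hY hYg => hbad i Y fun t ht => by
      obtain ⟨k, m, z, m', z', h1⟩ := hX1 i t (hY ht)
      refine ⟨k, m, z, m', z', h1, h1.2.2.2.1, fun hg => hYg t ht ?_⟩
      exact ⟨k, m, z, m', z', h1, hg⟩)
    (fun i => by
      have h1 : δ i ≤ ε i / 64 := min_le_right _ _
      have h2 := hε i
      simp only [hη]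
      linarith)
  refine ⟨h', fun i => ⟨fun t ht => ?_, (hh' i).2⟩⟩
  have h1 : δ i ≤ ε i / 64 := min_le_right _ _
  have := hε i
  exact ((hh' i).1 t ht).trans (by linarith)

end P073.Net
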