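import Vale.Agent.P073.Net.Len

/-!
# P073, block NET, NH2: one-dimensional part (conical curves, constant speed reparametrisation)
-/

open Set Metric Topology MeasureTheory Filter
open scoped ENNReal NNReal

namespace P073.Net

open Vale.Agent.P073.St (V euc)

/-- chain principle on a compact interval -/
theorem icc_chain {P : ℝ → ℝ → Prop} {a b : ℝ} (hab : a ≤ b) (hrefl : P a a)
    (htr : ∀ x y z, a ≤ x → x ≤ y → y ≤ z → z ≤ b → P x y → P y z → P x z)
    (hr : ∀ x ∈ Icc a b, x < b → ∃ r > 0, x + r ≤ b ∧ P x (x + r))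
    (hl : ∀ x ∈ Icc a b, a < x → ∃ r > 0, a ≤ x - r ∧ ∀ y ∈ Ioo (x - r) x, P y x) : P a b := by
  set S : Set ℝ := {x | x ∈ Icc a b ∧ P a x} with hS
  have haS : a ∈ S := ⟨⟨le_refl _, hab⟩, hrefl⟩
  have hbdd : BddAbove S := ⟨b, fun x hx => hx.1.2⟩
  set c := sSup S with hc
  have hac : a ≤ c := le_csSup hbdd haS
  have hcb : c ≤ b := csSup_le ⟨a, haS⟩ fun x hx => hx.1.2
  have hcS : c ∈ S := by
    refine ⟨⟨hac, hcb⟩, ?_⟩
    rcases hac.eq_or_lt with h | h
    · rw [← h]; exact haS.2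
    · obtain ⟨r, hr, hra, hP⟩ := hl c ⟨hac, hcb⟩ h
      obtain ⟨x, hxS, hx⟩ := exists_lt_of_lt_csSup ⟨a, haS⟩ (show c - r < c by linarith)
      have hxc : x ≤ c := le_csSup hbdd hxS
      rcases hxc.eq_or_lt with h1 | h1
      · rw [← h1]; exact hxS.2
      · exact htr a x c (le_refl _) hxS.1.1 hxc hcb hxS.2 (hP x ⟨hx, h1⟩)
  rcases hcb.eq_or_lt with h | h
  · rw [← h]; exact hcS.2
  · exfalso
    obtain ⟨r, hr0, hrb, hP⟩ := hr c ⟨hac, hcb⟩ h
    have : c + r ∈ S :=
      ⟨⟨by linarith, hrb⟩, htr a c (c + r) (le_refl _) hac (by linarith) hrb hcS.2 hP⟩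
    have := le_csSup hbdd this
    linarith

section General

variable {F : Type*} [NormedAddCommGroup F] [NormedSpace ℝ F] {q : ℝ → F} {a b : ℝ}

/-- the affine pieces to the right -/
theorem conical_right' (hq : ConicalOn q (Icc a b)) {t : ℝ} (ht : t ∈ Icc a b)
    (htb : t < b) : ∃ r > 0, t + r ≤ b ∧ ∃ w : F, ∀ s ∈ Icc t (t + r), q s = q t + (s - t) • w := by
  obtain ⟨r, hr, hrb, w, hw⟩ := conical_right hq ht htb
  refine ⟨r, hr, hrb, w, fun s hs => ?_⟩
  have := hw (s - t) ⟨by linarith [hs.1], by linarith [hs.2]⟩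
  rwa [add_sub_cancel] at this

/-- the affine pieces to the left -/
theorem conical_left' (hq : ConicalOn q (Icc a b)) {t : ℝ} (ht : t ∈ Icc a b)
    (hta : a < t) : ∃ r > 0, a ≤ t - r ∧ ∃ w : F, ∀ s ∈ Icc (t - r) t, q s = q t + (s - t) • w := by
  obtain ⟨r, hr, hra, w, hw⟩ := conical_left hq ht hta
  refine ⟨r, hr, hra, -w, fun s hs => ?_⟩
  have := hw (t - s) ⟨by linarith [hs.2], by linarith [hs.1]⟩
  rw [sub_sub_cancel] at this
  rw [this]
  module

theorem lipschitz_of_affine {s : Set ℝ} {p w : F} {t : ℝ}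
    (h : ∀ x ∈ s, q x = p + (x - t) • w) : LipschitzOnWith ‖w‖₊ q s := by
  rw [lipschitzOnWith_iff_norm_sub_le]
  intro x hx y hy
  rw [h x hx, h y hy]
  have : p + (x - t) • w - (p + (y - t) • w) = (x - y) • w := by module
  rw [this, norm_smul, mul_comm]
  rfl

theorem lipschitz_glue {x y z : ℝ} {K L : ℝ≥0} (h1 : LipschitzOnWith K q (Icc x y))
    (h2 : LipschitzOnWith L q (Icc y z)) (hxy : x ≤ y) (hyz : y ≤ z) :
    LipschitzOnWith (max K L) q (Icc x z) := by
  rw [lipschitzOnWith_iff_norm_sub_le] at *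
  have key : ∀ s ∈ Icc x z, ∀ t ∈ Icc x z, s ≤ t → ‖q s - q t‖ ≤ (max K L : ℝ≥0) * ‖s - t‖ := by
    intro s hs t ht hst
    have e : ‖s - t‖ = t - s := by rw [Real.norm_eq_abs, abs_sub_comm, abs_of_nonneg (by linarith)]
    have hK : (K:ℝ) ≤ (max K L : ℝ≥0) := by exact_mod_cast le_max_left K L
    have hL : (L:ℝ) ≤ (max K L : ℝ≥0) := by exact_mod_cast le_max_right K L
    rcases le_total t y with h | h
    · refine (h1 ⟨hs.1, hst.trans h⟩ ⟨ht.1, h⟩).trans ?_
      gcongr
    rcases le_total y s with h' | h'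
    · refine (h2 ⟨h', hs.2⟩ ⟨h, ht.2⟩).trans ?_
      gcongr
    · have a1 := h1 (x := s) ⟨hs.1, h'⟩ (y := y) ⟨hxy, le_refl _⟩
      have a2 := h2 (x := y) ⟨le_refl _, hyz⟩ (y := t) ⟨h, ht.2⟩
      have e1 : ‖s - y‖ = y - s := by
        rw [Real.norm_eq_abs, abs_sub_comm, abs_of_nonneg (by linarith)]
      have e2 : ‖y - t‖ = t - y := by
        rw [Real.norm_eq_abs, abs_sub_comm, abs_of_nonneg (by linarith)]
      rw [e1] at a1
      rw [e2] at a2
      rw [e]
      calc ‖q s - q t‖ = ‖(q s - q y) + (q y - q t)‖ := by congr 1; abel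
        _ ≤ ‖q s - q y‖ + ‖q y - q t‖ := norm_add_le _ _
        _ ≤ K * (y - s) + L * (t - y) := add_le_add a1 a2
        _ ≤ (max K L : ℝ≥0) * (y - s) + (max K L : ℝ≥0) * (t - y) := by
            gcongr <;> linarith
        _ = (max K L : ℝ≥0) * (t - s) := by ring
  intro s hs t ht
  rcases le_total s t with h | h
  · exact key s hs t ht h
  · rw [norm_sub_rev, norm_sub_rev s t]
    exact key t ht s hs h

/-- conical curves on compact intervals are Lipschitz -/
theorem conical_lipschitz (hab : a ≤ b) (hq : ConicalOn q (Icc a b)) :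
    ∃ K : ℝ≥0, LipschitzOnWith K q (Icc a b) := by
  refine icc_chain (P := fun x y => ∃ K : ℝ≥0, LipschitzOnWith K q (Icc x y)) hab ?_ ?_ ?_ ?_
  · refine ⟨0, ?_⟩
    rw [Icc_self]
    intro x hx y hy
    rw [mem_singleton_iff.1 hx, mem_singleton_iff.1 hy]; simp
  · rintro x y z _ hxy hyz _ ⟨K, hK⟩ ⟨L, hL⟩
    exact ⟨_, lipschitz_glue hK hL hxy hyz⟩
  · intro x hx hxb
    obtain ⟨r, hr, hrb, w, hw⟩ := conical_right' hq hx hxb
    exact ⟨r, hr, hrb, _, lipschitz_of_affine hw⟩
  · intro x hx hax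
    obtain ⟨r, hr, hra, w, hw⟩ := conical_left' hq hx hax
    exact ⟨r, hr, hra, fun y hy => ⟨_, lipschitz_of_affine
      fun s hs => hw s ⟨by linarith [hs.1, hy.1], hs.2⟩⟩⟩

/-- conical curves are affine near all but finitely many times -/
theorem conical_affine_off_finite (hab : a ≤ b) (hq : ConicalOn q (Icc a b)) :
    {t | t ∈ Ioo a b ∧ ¬ ∃ w : F, ∀ᶠ s in 𝓝 t, q s = q t + (s - t) • w}.Finite := by
  refine icc_chain (P := fun x y =>
    {t | t ∈ Ioo x y ∧ ¬ ∃ w : F, ∀ᶠ s in 𝓝 t, q s = q t + (s - t) • w}.Finite) hab ?_ ?_ ?_ ?_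
  · simp
  · intro x y z _ hxy hyz _ h1 h2
    refine ((h1.union h2).union (finite_singleton y)).subset ?_
    rintro t ⟨ht, hn⟩
    rcases lt_trichotomy t y with h | h | h
    · exact Or.inl (Or.inl ⟨⟨ht.1, h⟩, hn⟩)
    · exact Or.inr h
    · exact Or.inl (Or.inr ⟨⟨h, ht.2⟩, hn⟩)
  · intro x hx hxb
    obtain ⟨r, hr, hrb, w, hw⟩ := conical_right' hq hx hxb
    refine ⟨r, hr, hrb, ?_⟩
    convert finite_empty
    rw [eq_empty_iff_forall_notMem]
    rintro t ⟨ht, hn⟩
    refine hn ⟨w, ?_⟩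
    filter_upwards [Ioo_mem_nhds ht.1 ht.2] with s hs
    rw [hw s ⟨hs.1.le, hs.2.le⟩, hw t ⟨ht.1.le, ht.2.le⟩]
    module
  · intro x hx hax
    obtain ⟨r, hr, hra, w, hw⟩ := conical_left' hq hx hax
    refine ⟨r, hr, hra, fun y hy => ?_⟩
    convert finite_empty
    rw [eq_empty_iff_forall_notMem]
    rintro t ⟨ht, hn⟩
    refine hn ⟨w, ?_⟩
    filter_upwards [Ioo_mem_nhds ht.1 ht.2] with s hs
    rw [hw s ⟨by linarith [hs.1, hy.1], hs.2.le⟩, hw t ⟨by linarith [ht.1, hy.1], ht.2.le⟩]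
    module

end General

/-! ### Length -/

theorem euc_sub_le_len (q : ℝ → V) {s : Set ℝ} {x y : ℝ} (hx : x ∈ s) (hy : y ∈ s) :
    ENNReal.ofReal (euc (q x - q y)) ≤ len q s := by
  rw [← edist_toLp]
  exact eVariationOn.edist_le (fun t => (WithLp.toLp 2 (q t) : EuclideanSpace ℝ (Fin 3))) hx hy

theorem len_affine {q : ℝ → V} {c d : ℝ} (hcd : c ≤ d) {p w : V} {t : ℝ}
    (h : ∀ s ∈ Icc c d, q s = p + (s - t) • w) :
    len q (Icc c d) = ENNReal.ofReal ((d - c) * euc w) := by
  apply le_antisymm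
  · rw [len_congr (q' := fun s => p + (s - t) • w) h]
    have := len_segment (φ := fun s => s - t) (a := c) (b := d) (c := c - t) (d := d - t)
      (Or.inl fun x _ y _ hxy => by simp only; linarith)
      (fun s hs => ⟨by linarith [hs.1], by linarith [hs.2]⟩) p w
    refine this.trans (le_of_eq ?_)
    congr 1; ring
  · have h1 := euc_sub_le_len q (s := Icc c d) (x := d) (y := c) ⟨hcd, le_refl _⟩ ⟨le_refl _, hcd⟩
    rw [h d ⟨hcd, le_refl _⟩, h c ⟨le_refl _, hcd⟩] at h1
    have e : p + (d - t) • w - (p + (c - t) • w) = (d - c) • w := by module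
    rw [e, euc_smul, abs_of_nonneg (by linarith)] at h1
    exact h1

theorem conical_len_lt_top {q : ℝ → V} {a b : ℝ} (hab : a ≤ b) (hq : ConicalOn q (Icc a b)) :
    len q (Icc a b) < ⊤ :=
  (len_le_var q _).trans_lt (ENNReal.mul_lt_top (by simp) (conical_var_lt_top hab hq))

theorem euc_pos {v : V} (h : v ≠ 0) : 0 < euc v := by
  rw [euc_eq]
  exact norm_pos_iff.2 (by simpa using h)

/-- the arc length -/
noncomputable def arc (q : ℝ → V) (a t : ℝ) : ℝ := (len q (Icc a t)).toReal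

section Arc

variable {q : ℝ → V} {a b : ℝ}

theorem arc_add (hq : ConicalOn q (Icc a b)) {s t : ℝ} (has : a ≤ s) (hst : s ≤ t)
    (htb : t ≤ b) : arc q a t = arc q a s + arc q s t := by
  unfold arc
  rw [len_add has hst, ENNReal.toReal_add]
  · exact (conical_len_lt_top has (ConicalOn.icc_mono hq
      (Icc_subset_Icc (le_refl _) (hst.trans htb)))).ne
  · exact (conical_len_lt_top hst (ConicalOn.icc_mono hq (Icc_subset_Icc has htb))).ne

theorem arc_affine {c d : ℝ} (hcd : c ≤ d) {p w : V} {t : ℝ}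
    (h : ∀ s ∈ Icc c d, q s = p + (s - t) • w) : arc q c d = (d - c) * euc w := by
  unfold arc
  rw [len_affine hcd h, ENNReal.toReal_ofReal]
  exact mul_nonneg (by linarith) (euc_nonneg w)

theorem arc_pos (hq : ConicalOn q (Icc a b)) (hinj : InjOn q (Icc a b)) {s t : ℝ} (has : a ≤ s)
    (hst : s < t) (htb : t ≤ b) : 0 < arc q s t := by
  unfold arc
  rw [ENNReal.toReal_pos_iff]
  constructor
  · have h1 := euc_sub_le_len q (s := Icc s t) (x := s) (y := t) ⟨le_refl _, hst.le⟩
      ⟨hst.le, le_refl _⟩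
    refine lt_of_lt_of_le ?_ h1
    rw [ENNReal.ofReal_pos]
    apply euc_pos
    intro h
    have := hinj ⟨has, hst.le.trans htb⟩ ⟨has.trans hst.le, htb⟩ (sub_eq_zero.1 h)
    exact hst.ne this
  · exact conical_len_lt_top hst.le (ConicalOn.icc_mono hq (Icc_subset_Icc has htb))

theorem arc_strictMono (hq : ConicalOn q (Icc a b)) (hinj : InjOn q (Icc a b)) :
    StrictMonoOn (arc q a) (Icc a b) := by
  intro s hs t ht hst
  rw [arc_add hq hs.1 hst.le ht.2]
  have := arc_pos hq hinj hs.1 hst ht.2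
  linarith

theorem arc_self (q : ℝ → V) (a : ℝ) : arc q a a = 0 := by
  unfold arc
  rw [Icc_self]
  have : len q {a} = 0 := eVariationOn.subsingleton _ subsingleton_singleton
  rw [this]; rfl

theorem arc_conical (hq : ConicalOn q (Icc a b)) : ConicalOn (arc q a) (Icc a b) := by
  intro x hx
  obtain ⟨r, hr, H⟩ := hq x hx
  refine ⟨r, hr, fun v hv hxv t ht => ⟨(H v hv hxv t ht).1, ?_⟩⟩
  have hv' : ∀ s ∈ Icc (0:ℝ) 1, q (x + s * v) = q x + s • (q (x + v) - q x) := fun s hs => by
    have := (H v hv hxv s hs).2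
    rwa [smul_eq_mul] at this
  rw [smul_eq_mul, smul_eq_mul]
  rcases eq_or_ne v 0 with h0 | h0
  · subst h0; simp
  have haff : ∀ y, (y - x) / v ∈ Icc (0:ℝ) 1 → q y = q x + (y - x) • (v⁻¹ • (q (x + v) - q x)) := by
    intro y hy
    have := hv' _ hy
    rw [div_mul_cancel₀ _ h0, add_sub_cancel] at this
    rw [this, smul_smul, div_eq_mul_inv]
  rcases lt_or_gt_of_ne h0 with hneg | hpos
  · -- v < 0
    have h1 : arc q a x = arc q a (x + v) + arc q (x + v) x :=
      arc_add hq hxv.1 (by linarith) hx.2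
    have htv : t * v ≤ 0 := mul_nonpos_of_nonneg_of_nonpos ht.1 hneg.le
    have hle : v ≤ t * v := by nlinarith [ht.2]
    have h2 : arc q a x = arc q a (x + t * v) + arc q (x + t * v) x :=
      arc_add hq (by linarith [hxv.1]) (by linarith) hx.2
    have h3 : arc q (x + v) x = (x - (x + v)) * euc (v⁻¹ • (q (x + v) - q x)) := by
      refine arc_affine (by linarith) (p := q x) (t := x) fun s hs => haff s ?_
      constructor
      · exact div_nonneg_of_nonpos (by linarith [hs.2]) hneg.le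
      · rw [div_le_one_of_neg hneg]; linarith [hs.1]
    have h4 : arc q (x + t * v) x = (x - (x + t * v)) * euc (v⁻¹ • (q (x + v) - q x)) := by
      refine arc_affine (by linarith) (p := q x) (t := x) fun s hs => haff s ?_
      constructor
      · exact div_nonneg_of_nonpos (by linarith [hs.2]) hneg.le
      · rw [div_le_one_of_neg hneg]; linarith [hs.1]
    have h5 : arc q a (x + t * v) = arc q a x - arc q (x + t * v) x := by linarith
    have h6 : arc q a (x + v) = arc q a x - arc q (x + v) x := by linarith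
    rw [h5, h6, h3, h4]; ring
  · have hxv' : x + v ≤ b := hxv.2
    have htv : 0 ≤ t * v := mul_nonneg ht.1 hpos.le
    have hle : t * v ≤ v := by nlinarith [ht.2]
    have h1 : arc q a (x + v) = arc q a x + arc q x (x + v) :=
      arc_add hq hx.1 (by linarith) hxv.2
    have h2 : arc q a (x + t * v) = arc q a x + arc q x (x + t * v) :=
      arc_add hq hx.1 (by linarith) (by linarith)
    have h3 : arc q x (x + v) = (x + v - x) * euc (v⁻¹ • (q (x + v) - q x)) := by
      refine arc_affine (by linarith) (p := q x) (t := x) fun s hs => haff s ?_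
      constructor
      · exact div_nonneg (by linarith [hs.1]) hpos.le
      · rw [div_le_one hpos]; linarith [hs.2]
    have h4 : arc q x (x + t * v) = (x + t * v - x) * euc (v⁻¹ • (q (x + v) - q x)) := by
      refine arc_affine (by linarith) (p := q x) (t := x) fun s hs => haff s ?_
      constructor
      · exact div_nonneg (by linarith [hs.1]) hpos.le
      · rw [div_le_one hpos]; linarith [hs.2]
    rw [h2, h1, h3, h4]; ring

/-- **constant speed reparametrisation** -/
theorem exists_const_speed (hab : a < b) (hq : ConicalOn q (Icc a b)) (hinj : InjOn q (Icc a b)) :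
    ∃ ρ : ℝ → ℝ, MapsTo ρ (Icc a b) (Icc a b) ∧ ρ a = a ∧ ρ b = b ∧ StrictMonoOn ρ (Icc a b) ∧
      ContinuousOn ρ (Icc a b) ∧ ConicalOn ρ (Icc a b) ∧
      ∀ s t, a ≤ s → s ≤ t → t ≤ b → len (q ∘ ρ) (Icc s t) =
        ENNReal.ofReal (arc q a b / (b - a) * (t - s)) := by
  have hσc : ContinuousOn (arc q a) (Icc a b) := by
    obtain ⟨K, hK⟩ := conical_lipschitz hab.le (arc_conical hq)
    exact hK.continuousOn
  have hσm := arc_strictMono hq hinj
  have hL : 0 < arc q a b := arc_pos hq hinj (le_refl _) hab (le_refl _)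
  have himg : arc q a '' Icc a b = Icc 0 (arc q a b) := by
    apply Subset.antisymm
    · rintro _ ⟨t, ht, rfl⟩
      refine ⟨ENNReal.toReal_nonneg, hσm.monotoneOn ht ⟨hab.le, le_refl _⟩ ht.2⟩
    · have := intermediate_value_Icc hab.le hσc
      rwa [arc_self] at this
  let H := ConHomeo.ofCompact isCompact_Icc (arc q a) hσc hσm.injOn (arc_conical hq) himg
  have hH : H.toFun = arc q a := ConHomeo.ofCompact_toFun _ _ _ _ _ _
  set A : ℝ → ℝ := fun t => (t - a) * (arc q a b / (b - a)) with hA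
  have hab' : 0 < b - a := by linarith
  have hAm : MapsTo A (Icc a b) (Icc 0 (arc q a b)) := by
    intro t ht
    refine ⟨mul_nonneg (by linarith [ht.1]) (div_pos hL hab').le, ?_⟩
    calc A t ≤ (b - a) * (arc q a b / (b - a)) := by
          apply mul_le_mul_of_nonneg_right _ (div_pos hL hab').le
          linarith [ht.2]
      _ = arc q a b := by field_simp
  have hAc : Continuous A := by fun_prop
  have hinv : ∀ y ∈ Icc 0 (arc q a b), H.invFun y ∈ Icc a b ∧ arc q a (H.invFun y) = y := by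
    intro y hy
    refine ⟨H.mapsTo_inv hy, ?_⟩
    have := H.right_inv hy
    rwa [hH] at this
  have harc : ∀ t ∈ Icc a b, arc q a (H.invFun (A t)) = A t := fun t ht => (hinv _ (hAm ht)).2
  have hm : MapsTo (H.invFun ∘ A) (Icc a b) (Icc a b) := fun t ht => (hinv _ (hAm ht)).1
  have hsm : StrictMonoOn (H.invFun ∘ A) (Icc a b) := by
    intro s hs t ht hst
    have h1 : A s < A t := by
      apply mul_lt_mul_of_pos_right _ (div_pos hL hab'); linarith
    rw [← harc s hs, ← harc t ht] at h1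
    exact (hσm.lt_iff_lt (hm hs) (hm ht)).1 h1
  have hAcon : ConicalOn A (Icc a b) := by
    intro x hx
    refine ⟨1, one_pos, fun v _ hv t ht => ⟨?_, ?_⟩⟩
    · have := (convex_Icc a b).add_smul_sub_mem hx hv ht
      simpa using this
    · simp only [hA, smul_eq_mul]; ring
  refine ⟨H.invFun ∘ A, hm, ?_, ?_, hsm, H.cont_inv.comp hAc.continuousOn hAm,
    H.conical_inv.comp hAcon hAm hAc.continuousOn, ?_⟩
  · apply hσm.injOn (hm ⟨le_refl _, hab.le⟩) ⟨le_refl _, hab.le⟩
    show arc q a (H.invFun (A a)) = _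
    rw [harc a ⟨le_refl _, hab.le⟩, arc_self]
    simp [hA]
  · apply hσm.injOn (hm ⟨hab.le, le_refl _⟩) ⟨hab.le, le_refl _⟩
    show arc q a (H.invFun (A b)) = _
    rw [harc b ⟨hab.le, le_refl _⟩]
    simp only [hA]; field_simp
  · intro s t has hst htb
    have hs : s ∈ Icc a b := ⟨has, hst.trans htb⟩
    have ht : t ∈ Icc a b := ⟨has.trans hst, htb⟩
    have hsub : Icc s t ⊆ Icc a b := Icc_subset_Icc has htb
    have hρst := hsm.monotoneOn hs ht hst
    have hρc : ContinuousOn (H.invFun ∘ A) (Icc a b) := H.cont_inv.comp hAc.continuousOn hAm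
    have himg' : (H.invFun ∘ A) '' Icc s t = Icc ((H.invFun ∘ A) s) ((H.invFun ∘ A) t) := by
      apply Subset.antisymm
      · rintro _ ⟨u, hu, rfl⟩
        exact ⟨hsm.monotoneOn hs (hsub hu) hu.1, hsm.monotoneOn (hsub hu) ht hu.2⟩
      · exact intermediate_value_Icc hst (hρc.mono hsub)
    have h1 : len (q ∘ (H.invFun ∘ A)) (Icc s t) =
        len q (Icc ((H.invFun ∘ A) s) ((H.invFun ∘ A) t)) := by
      have := eVariationOn.comp_eq_of_monotoneOn
        (fun t => (WithLp.toLp 2 (q t) : EuclideanSpace ℝ (Fin 3))) (H.invFun ∘ A)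
        (hsm.monotoneOn.mono hsub)
      rw [himg'] at this
      exact this
    have h2 : arc q a ((H.invFun ∘ A) t) = arc q a ((H.invFun ∘ A) s) +
        arc q ((H.invFun ∘ A) s) ((H.invFun ∘ A) t) := arc_add hq (hm hs).1 hρst (hm ht).2
    have h3 : arc q ((H.invFun ∘ A) s) ((H.invFun ∘ A) t) = A t - A s := by
      have e1 : arc q a ((H.invFun ∘ A) t) = A t := harc t ht
      have e2 : arc q a ((H.invFun ∘ A) s) = A s := harc s hs
      rw [e1, e2] at h2; linarith
    rw [h1, ← ENNReal.ofReal_toReal (conical_len_lt_top hρst (ConicalOn.icc_mono hq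
      (Icc_subset_Icc (hm hs).1 (hm ht).2))).ne]
    congr 1
    show arc q _ _ = _
    rw [h3]; simp only [hA]; ring

end Arc

end P073.Net
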