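import Vale.Agent.P073.Net.NH2a

/-!
# P073, block NET, NH2: energy estimate for a curve of constant speed
-/

open Set Metric Topology MeasureTheory Filter
open scoped ENNReal NNReal

namespace P073.Net

open Vale.Agent.P073.St (V euc)

/-! ### Elementary inequalities -/

theorem rpow_add_le_two {x y p : ℝ} (hx : 0 ≤ x) (hy : 0 ≤ y) (hp : 1 ≤ p) (hp2 : p ≤ 2) :
    (x + y) ^ p ≤ 2 * (x ^ p + y ^ p) := by
  have h := NNReal.rpow_add_le_mul_rpow_add_rpow ⟨x, hx⟩ ⟨y, hy⟩ hp
  have h' : (x + y) ^ p ≤ 2 ^ (p - 1) * (x ^ p + y ^ p) := by exact_mod_cast h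
  refine h'.trans ?_
  have h2 : (2:ℝ) ^ (p - 1) ≤ 2 ^ (1:ℝ) := by
    apply Real.rpow_le_rpow_of_exponent_le (by norm_num); linarith
  rw [Real.rpow_one] at h2
  have h3 : 0 ≤ x ^ p + y ^ p := by positivity
  exact mul_le_mul_of_nonneg_right h2 h3

theorem rpow_le_lam {x lam p : ℝ} (hx : 0 ≤ x) (hl : 0 < lam) (hp : 1 ≤ p) (hp2 : p ≤ 2) :
    x ^ p ≤ lam ^ (p - 2) * x ^ 2 + lam ^ p := by
  rcases le_total x lam with h | h
  · have h1 : x ^ p ≤ lam ^ p := Real.rpow_le_rpow hx h (by linarith)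
    have h2 : 0 ≤ lam ^ (p - 2) * x ^ 2 := by positivity
    linarith
  · have hx0 : 0 < x := hl.trans_le h
    have h1 : x ^ p = x ^ (p - 2) * x ^ 2 := by
      rw [← Real.rpow_natCast x 2, ← Real.rpow_add hx0]; congr 1; push_cast; ring
    have h2 : x ^ (p - 2) ≤ lam ^ (p - 2) :=
      Real.rpow_le_rpow_of_nonpos hl h (by linarith)
    have h3 : 0 ≤ lam ^ p := by positivity
    have h4 : 0 ≤ x ^ 2 := by positivity
    nlinarith [mul_le_mul_of_nonneg_right h2 h4]

theorem young_kap {S y κ p : ℝ} (hS : 0 < S) (hy : 0 ≤ y) (hκ : 0 < κ) (hp : 1 ≤ p) :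
    S ^ (p - 1) * y ≤ κ * S ^ p + κ ^ (1 - p) * y ^ p := by
  have hSp : S ^ p = S ^ (p - 1) * S := by
    rw [← Real.rpow_add_one hS.ne']; congr 1; ring
  rcases le_total y (κ * S) with h | h
  · have h1 : S ^ (p - 1) * y ≤ S ^ (p - 1) * (κ * S) := by gcongr
    have h2 : 0 ≤ κ ^ (1 - p) * y ^ p := by positivity
    rw [hSp]; nlinarith
  · have hy0 : 0 < y := lt_of_lt_of_le (by positivity) h
    have h1 : S ≤ y / κ := by rw [le_div_iff₀ hκ]; linarith
    have h2 : S ^ (p - 1) ≤ (y / κ) ^ (p - 1) := Real.rpow_le_rpow hS.le h1 (by linarith)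
    have h3 : (y / κ) ^ (p - 1) * y = κ ^ (1 - p) * y ^ p := by
      rw [Real.div_rpow hy0.le hκ.le]
      have : y ^ p = y ^ (p - 1) * y := by rw [← Real.rpow_add_one hy0.ne']; congr 1; ring
      rw [this, show (1 - p) = -(p - 1) by ring, Real.rpow_neg hκ.le]
      field_simp
    have h4 : 0 ≤ κ * S ^ p := by positivity
    have h5 : S ^ (p - 1) * y ≤ (y / κ) ^ (p - 1) * y := mul_le_mul_of_nonneg_right h2 hy0.le
    linarith

/-- the constants of the energy estimate -/
theorem exists_energy_const {p : ℝ} (hp : 1 ≤ p) (hp2 : p ≤ 2) {θ : ℝ} (hθ : 0 < θ) :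
    ∃ η > 0, ∃ C ≥ 0, ∀ S y : ℝ, 0 < S → 0 ≤ y →
      (η * S) ^ (p - 2) * (2 * S * y) + (η * S) ^ p ≤ θ * S ^ p + C * y ^ p := by
  obtain ⟨η, hη, hη1⟩ : ∃ η : ℝ, 0 < η ∧ η ^ p ≤ θ / 2 := by
    refine ⟨min 1 (θ / 2), lt_min one_pos (by linarith), ?_⟩
    have h0 : 0 < min 1 (θ / 2) := lt_min one_pos (by linarith)
    calc (min 1 (θ / 2)) ^ p ≤ (min 1 (θ / 2)) ^ (1:ℝ) :=
          Real.rpow_le_rpow_of_exponent_ge h0 (min_le_left _ _) hp
      _ = min 1 (θ / 2) := Real.rpow_one _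
      _ ≤ θ / 2 := min_le_right _ _
  have hη2 : 0 < η ^ (p - 2) := by positivity
  set κ : ℝ := θ / (4 * η ^ (p - 2)) with hκ
  have hκ0 : 0 < κ := by positivity
  refine ⟨η, hη, 2 * η ^ (p - 2) * κ ^ (1 - p), by positivity, fun S y hS hy => ?_⟩
  have h1 : (η * S) ^ (p - 2) * (2 * S * y) = 2 * η ^ (p - 2) * (S ^ (p - 1) * y) := by
    rw [Real.mul_rpow hη.le hS.le]
    have : S ^ (p - 1) = S ^ (p - 2) * S := by
      rw [← Real.rpow_add_one hS.ne']; congr 1; ring
    rw [this]; ring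
  have h2 : (η * S) ^ p = η ^ p * S ^ p := Real.mul_rpow hη.le hS.le
  have h3 := young_kap hS hy hκ0 hp
  have hSp : 0 ≤ S ^ p := by positivity
  have h4 : 2 * η ^ (p - 2) * (κ * S ^ p) = θ / 2 * S ^ p := by
    rw [hκ]; field_simp; ring
  calc _ = 2 * η ^ (p - 2) * (S ^ (p - 1) * y) + η ^ p * S ^ p := by rw [h1, h2]
    _ ≤ 2 * η ^ (p - 2) * (κ * S ^ p + κ ^ (1 - p) * y ^ p) + θ / 2 * S ^ p := by
        gcongr
    _ = θ * S ^ p + 2 * η ^ (p - 2) * κ ^ (1 - p) * y ^ p := by
        rw [mul_add, h4]; ring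

/-! ### The Euclidean norm and integrals -/

theorem continuous_euc : Continuous euc := by
  have : euc = fun v => ‖(WithLp.toLp 2 v : EuclideanSpace ℝ (Fin 3))‖ := funext euc_eq
  rw [this]
  exact continuous_norm.comp (PiLp.continuous_toLp 2 _)

theorem euc_sq (v : V) : euc v ^ 2 = ∑ i, v i ^ 2 := by
  rw [euc, Real.sq_sqrt (Finset.sum_nonneg fun i _ => sq_nonneg _)]

theorem euc_sub_sq (x m : V) : euc (x - m) ^ 2 = euc x ^ 2 - 2 * ∑ i, x i * m i + euc m ^ 2 := by
  rw [euc_sq, euc_sq, euc_sq, Finset.mul_sum, ← Finset.sum_sub_distrib, ← Finset.sum_add_distrib]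
  refine Finset.sum_congr rfl fun i _ => ?_
  simp only [Pi.sub_apply]; ring

theorem euc_integral_le {μ : Measure ℝ} (f : ℝ → V) (hf : Integrable f μ) :
    euc (∫ t, f t ∂μ) ≤ ∫ t, euc (f t) ∂μ := by
  let L : V ≃L[ℝ] EuclideanSpace ℝ (Fin 3) := (EuclideanSpace.equiv (Fin 3) ℝ).symm
  have hL : ∀ v : V, L v = WithLp.toLp 2 v := fun v => rfl
  have h1 : L (∫ t, f t ∂μ) = ∫ t, L (f t) ∂μ := (L.toContinuousLinearMap.integral_comp_comm hf).symm
  rw [euc_eq, ← hL, h1]
  refine (norm_integral_le_integral_norm _).trans (le_of_eq ?_)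
  refine integral_congr_ae (Eventually.of_forall fun t => ?_)
  simp only [hL, euc_eq]

theorem integrable_euc {μ : Measure ℝ} {f : ℝ → V} (hf : Integrable f μ) :
    Integrable (fun t => euc (f t)) μ := by
  refine (hf.norm.const_mul 2).mono' (continuous_euc.comp_aestronglyMeasurable hf.1) ?_
  refine Eventually.of_forall fun t => ?_
  rw [Real.norm_of_nonneg (euc_nonneg _)]
  exact euc_le _

section Piece

variable {g : ℝ → V} {α β S : ℝ}

/-- derivative of a conical curve of constant speed -/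
theorem hasDerivAt_const_speed
    (hsp : ∀ s t, α ≤ s → s ≤ t → t ≤ β → len g (Icc s t) = ENNReal.ofReal (S * (t - s)))
    (hS : 0 ≤ S) {t : ℝ} (ht : t ∈ Ioo α β) {w : V} (hw : ∀ᶠ s in 𝓝 t, g s = g t + (s - t) • w) :
    HasDerivAt g w t ∧ euc w = S := by
  constructor
  · have h1 : HasDerivAt (fun s => g t + (s - t) • w) w t := by
      have := ((hasDerivAt_id t).sub_const t).smul_const w
      simpa using this.const_add (g t)
    exact h1.congr_of_eventuallyEq hw
  · obtain ⟨l, u, hlu, hsub⟩ := (mem_nhds_iff_exists_Ioo_subset).1 (hw.and (Ioo_mem_nhds ht.1 ht.2))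
    set δ : ℝ := (u - t) / 2 with hδ
    have hδ0 : 0 < δ := by have := hlu.2; rw [hδ]; linarith
    have hmem : ∀ s ∈ Icc t (t + δ), s ∈ Ioo l u := fun s hs =>
      ⟨hlu.1.trans_le hs.1, by have := hs.2; rw [hδ] at this; linarith [hlu.2]⟩
    have h1 : len g (Icc t (t + δ)) = ENNReal.ofReal ((t + δ - t) * euc w) :=
      len_affine (by linarith) fun s hs => (hsub (hmem s hs)).1
    have h2 := hsp t (t + δ) ht.1.le (by linarith)
      (hsub (hmem (t + δ) ⟨by linarith, le_refl _⟩)).2.2.le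
    rw [h1, ENNReal.ofReal_eq_ofReal_iff (mul_nonneg (by linarith) (euc_nonneg w))
      (mul_nonneg hS (by linarith))] at h2
    have h3 : δ * euc w = δ * S := by
      rw [add_sub_cancel_left] at h2; rw [h2]; ring
    exact mul_left_cancel₀ hδ0.ne' h3

variable (hg : ConicalOn g (Icc α β)) (hαβ : α < β) (hS : 0 < S)
  (hsp : ∀ s t, α ≤ s → s ≤ t → t ≤ β → len g (Icc s t) = ENNReal.ofReal (S * (t - s)))

include hg hαβ hS hsp

theorem ae_speed : ∀ᵐ t ∂(volume.restrict (Icc α β)), HasDerivAt g (deriv g t) t ∧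
    euc (deriv g t) = S := by
  have hfin := conical_affine_off_finite hαβ.le hg
  have h0 : volume ({t | t ∈ Ioo α β ∧ ¬ ∃ w : V, ∀ᶠ s in 𝓝 t, g s = g t + (s - t) • w} ∪
      {α, β}) = 0 := (hfin.union (by simp)).measure_zero _
  rw [ae_restrict_iff' measurableSet_Icc]
  filter_upwards [compl_mem_ae_iff.2 h0] with t ht htI
  have h1 : t ∈ Ioo α β := by
    refine ⟨lt_of_le_of_ne htI.1 fun h => ht (Or.inr ?_), lt_of_le_of_ne htI.2 fun h => ht (Or.inr ?_)⟩
    · simp [h]
    · simp [h]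
  have h2 : ∃ w : V, ∀ᶠ s in 𝓝 t, g s = g t + (s - t) • w := by
    by_contra hn
    exact ht (Or.inl ⟨h1, hn⟩)
  obtain ⟨w, hw⟩ := h2
  obtain ⟨h3, h4⟩ := hasDerivAt_const_speed hsp hS.le h1 hw
  rw [h3.deriv]
  exact ⟨h3, h4⟩

theorem integrable_deriv : Integrable (deriv g) (volume.restrict (Icc α β)) := by
  have h1 : ∀ᵐ t ∂(volume.restrict (Icc α β)), ‖deriv g t‖ ≤ S := by
    filter_upwards [ae_speed hg hαβ hS hsp] with t ht
    exact (norm_le_euc _).trans ht.2.le
  exact Measure.integrableOn_of_bounded (by simp) (measurable_deriv g).aestronglyMeasurable h1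

theorem integral_deriv : ∫ t in Icc α β, deriv g t = g β - g α := by
  rw [integral_Icc_eq_integral_Ioc, ← intervalIntegral.integral_of_le hαβ.le]
  have hfin := conical_affine_off_finite hαβ.le hg
  obtain ⟨K, hK⟩ := conical_lipschitz hαβ.le hg
  refine integral_eq_of_hasDerivAt_off_countable_of_le g (deriv g) hαβ.le hfin.countable
    hK.continuousOn ?_ ?_
  · rintro t ⟨ht, hn⟩
    have h2 : ∃ w : V, ∀ᶠ s in 𝓝 t, g s = g t + (s - t) • w := by
      by_contra hn'
      exact hn ⟨ht, hn'⟩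
    obtain ⟨w, hw⟩ := h2
    have h3 := (hasDerivAt_const_speed hsp hS.le ht hw).1
    rw [h3.deriv]; exact h3
  · rw [intervalIntegrable_iff_integrableOn_Icc_of_le hαβ.le]
    exact integrable_deriv hg hαβ hS hsp

/-- variance identity -/
theorem integral_sq (m : V) (hm : m = (β - α)⁻¹ • (g β - g α)) :
    ∫ t in Icc α β, euc (deriv g t - m) ^ 2 = (β - α) * (S ^ 2 - euc m ^ 2) ∧
    IntegrableOn (fun t => euc (deriv g t - m) ^ 2) (Icc α β) := by
  have hi := integrable_deriv hg hαβ hS hsp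
  have hI := integral_deriv hg hαβ hS hsp
  have hvol : (volume.restrict (Icc α β)).real univ = β - α := by
    simp [measureReal_def, hαβ.le]
  have hcoord : ∀ i, ∫ t in Icc α β, deriv g t i = (β - α) * m i := by
    intro i
    have h1 := (ContinuousLinearMap.proj (R := ℝ) (φ := fun _ : Fin 3 => ℝ) i).integral_comp_comm hi
    simp only [ContinuousLinearMap.proj_apply] at h1
    rw [h1, hI, hm]
    simp only [Pi.smul_apply, smul_eq_mul]
    rw [mul_inv_cancel_left₀ (by linarith)]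
  have hicoord : ∀ i, Integrable (fun t => deriv g t i) (volume.restrict (Icc α β)) := fun i =>
    (ContinuousLinearMap.proj (R := ℝ) (φ := fun _ : Fin 3 => ℝ) i).integrable_comp hi
  have hae : (fun t => euc (deriv g t - m) ^ 2) =ᵐ[volume.restrict (Icc α β)]
      fun t => S ^ 2 + euc m ^ 2 - 2 * ∑ i, deriv g t i * m i := by
    filter_upwards [ae_speed hg hαβ hS hsp] with t ht
    rw [euc_sub_sq, ht.2]; ring
  have hint : Integrable (fun t => ∑ i, deriv g t i * m i) (volume.restrict (Icc α β)) :=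
    integrable_finsetSum _ fun i _ => (hicoord i).mul_const _
  have hint2 : Integrable (fun t => S ^ 2 + euc m ^ 2 - 2 * ∑ i, deriv g t i * m i)
      (volume.restrict (Icc α β)) := (integrable_const _).sub (hint.const_mul 2)
  refine ⟨?_, (integrable_congr hae).2 hint2⟩
  rw [integral_congr_ae hae, integral_sub (integrable_const _) (hint.const_mul 2),
    integral_const, integral_const_mul, integral_finsetSum _ fun i _ => (hicoord i).mul_const _]
  simp_rw [integral_mul_const, hcoord]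
  rw [hvol, euc_sq m, smul_eq_mul]
  have : ∑ i, (β - α) * m i * m i = (β - α) * ∑ i, m i ^ 2 := by
    rw [Finset.mul_sum]
    exact Finset.sum_congr rfl fun i _ => by ring
  rw [this]; ring

theorem euc_m_le (m : V) (hm : m = (β - α)⁻¹ • (g β - g α)) : euc m ≤ S := by
  have h1 := (integral_sq hg hαβ hS hsp m hm).1
  have h2 : 0 ≤ ∫ t in Icc α β, euc (deriv g t - m) ^ 2 := integral_nonneg fun t => sq_nonneg _
  rw [h1] at h2
  have h3 : 0 ≤ S ^ 2 - euc m ^ 2 := by
    by_contra h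
    push Not at h
    nlinarith
  exact abs_le_of_sq_le_sq' (by linarith) hS.le |>.2

/-- energy of the deviation from the mean -/
theorem integral_rpow_le {p : ℝ} (hp : 1 ≤ p) (hp2 : p ≤ 2) {θ η C : ℝ} (hη : 0 < η)
    (hC : ∀ S y : ℝ, 0 < S → 0 ≤ y →
      (η * S) ^ (p - 2) * (2 * S * y) + (η * S) ^ p ≤ θ * S ^ p + C * y ^ p)
    (m : V) (hm : m = (β - α)⁻¹ • (g β - g α)) :
    IntegrableOn (fun t => euc (deriv g t - m) ^ p) (Icc α β) ∧
    ∫ t in Icc α β, euc (deriv g t - m) ^ p ≤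
      (β - α) * (θ * S ^ p + C * (S - euc m) ^ p) := by
  obtain ⟨h1, h2⟩ := integral_sq hg hαβ hS hsp m hm
  have hmS := euc_m_le hg hαβ hS hsp m hm
  have hlam : 0 < η * S := mul_pos hη hS
  have hpt : ∀ t, euc (deriv g t - m) ^ p ≤
      (η * S) ^ (p - 2) * euc (deriv g t - m) ^ 2 + (η * S) ^ p := fun t =>
    rpow_le_lam (euc_nonneg _) hlam hp hp2
  have hi2 : Integrable (fun t => (η * S) ^ (p - 2) * euc (deriv g t - m) ^ 2 + (η * S) ^ p)
      (volume.restrict (Icc α β)) := (h2.const_mul _).add (integrable_const _)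
  have hmeas : AEStronglyMeasurable (fun t => euc (deriv g t - m) ^ p)
      (volume.restrict (Icc α β)) := by
    have h3 : Measurable fun t => euc (deriv g t - m) :=
      continuous_euc.measurable.comp ((measurable_deriv g).sub_const m)
    exact (h3.pow_const p).aestronglyMeasurable
  have hi : Integrable (fun t => euc (deriv g t - m) ^ p) (volume.restrict (Icc α β)) := by
    refine hi2.mono' hmeas (Eventually.of_forall fun t => ?_)
    rw [Real.norm_of_nonneg (by have := euc_nonneg (deriv g t - m); positivity)]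
    exact hpt t
  refine ⟨hi, ?_⟩
  have hvol : (volume.restrict (Icc α β)).real univ = β - α := by
    simp [measureReal_def, hαβ.le]
  calc ∫ t in Icc α β, euc (deriv g t - m) ^ p
      ≤ ∫ t in Icc α β, ((η * S) ^ (p - 2) * euc (deriv g t - m) ^ 2 + (η * S) ^ p) :=
        integral_mono hi hi2 hpt
    _ = (η * S) ^ (p - 2) * ((β - α) * (S ^ 2 - euc m ^ 2)) + (β - α) * (η * S) ^ p := by
        rw [integral_add (h2.const_mul _) (integrable_const _), integral_const_mul, h1,
          integral_const, hvol, smul_eq_mul]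
    _ ≤ (η * S) ^ (p - 2) * ((β - α) * (2 * S * (S - euc m))) + (β - α) * (η * S) ^ p := by
        have h5 : 0 ≤ (η * S) ^ (p - 2) := by positivity
        have h6 : S ^ 2 - euc m ^ 2 ≤ 2 * S * (S - euc m) := by
          have := euc_nonneg m
          nlinarith
        have h7 : 0 ≤ β - α := by linarith
        gcongr
    _ = (β - α) * ((η * S) ^ (p - 2) * (2 * S * (S - euc m)) + (η * S) ^ p) := by ring
    _ ≤ (β - α) * (θ * S ^ p + C * (S - euc m) ^ p) := by
        exact mul_le_mul_of_nonneg_left (hC S (S - euc m) hS (by linarith)) (by linarith)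

end Piece

end P073.Net
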