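import Vale.Agent.P073.Net.NH2b

/-!
# P073, block NET, NH2: energy estimate on one piece, and step approximation in `L^p`
-/

open Set Metric Topology MeasureTheory Filter
open scoped ENNReal NNReal

namespace P073.Net

open Vale.Agent.P073.St (V euc)

theorem jensen_rpow {α β p : ℝ} (hαβ : α < β) (hp : 1 ≤ p) {f : ℝ → ℝ} (h0 : ∀ t, 0 ≤ f t)
    (hf : IntegrableOn f (Icc α β)) (hfp : IntegrableOn (fun t => f t ^ p) (Icc α β)) :
    ((β - α)⁻¹ * ∫ t in Icc α β, f t) ^ p ≤ (β - α)⁻¹ * ∫ t in Icc α β, f t ^ p := by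
  have hne : volume (Icc α β) ≠ 0 := by
    rw [Real.volume_Icc]; simp [hαβ]
  have hnt : volume (Icc α β) ≠ ⊤ := by
    rw [Real.volume_Icc]; simp
  have h := (convexOn_rpow hp).map_set_average_le (μ := volume) (t := Icc α β) (f := f)
    (fun x hx => (Real.continuousAt_rpow_const x p (Or.inr (by linarith))).continuousWithinAt)
    isClosed_Ici hne hnt (Eventually.of_forall fun t => h0 t) hf hfp
  rw [setAverage_eq, setAverage_eq] at h
  have hvol : volume.real (Icc α β) = β - α := by
    simp [measureReal_def, hαβ.le]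
  rw [hvol, smul_eq_mul, smul_eq_mul] at h
  exact h

theorem integrableOn_euc_sub_rpow {p : ℝ} (hp : 1 ≤ p) (hp2 : p ≤ 2) {D : ℝ → V} {α β : ℝ}
    (hD : IntegrableOn D (Icc α β)) (hDp : IntegrableOn (fun t => euc (D t) ^ p) (Icc α β))
    (c : V) : IntegrableOn (fun t => euc (D t - c) ^ p) (Icc α β) := by
  have hi : IntegrableOn (fun t => 2 * (euc (D t) ^ p + euc c ^ p)) (Icc α β) :=
    (hDp.add (integrable_const _)).const_mul 2
  refine hi.mono' ?_ (Eventually.of_forall fun t => ?_)
  · have h1 : AEStronglyMeasurable (fun t => D t - c) (volume.restrict (Icc α β)) :=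
      hD.1.sub aestronglyMeasurable_const
    have h2 : AEMeasurable (fun t => euc (D t - c)) (volume.restrict (Icc α β)) :=
      (continuous_euc.comp_aestronglyMeasurable h1).aemeasurable
    exact (h2.pow_const p).aestronglyMeasurable
  · rw [Real.norm_of_nonneg (by have := euc_nonneg (D t - c); positivity)]
    calc euc (D t - c) ^ p ≤ (euc (D t) + euc c) ^ p := by
          apply Real.rpow_le_rpow (euc_nonneg _) _ (by linarith)
          calc euc (D t - c) = euc (D t + (-c)) := by rw [sub_eq_add_neg]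
            _ ≤ euc (D t) + euc (-c) := euc_add_le _ _
            _ = euc (D t) + euc c := by rw [euc_neg]
      _ ≤ _ := rpow_add_le_two (euc_nonneg _) (euc_nonneg _) hp hp2

theorem euc_sub_le (x y z : V) : euc (x - z) ≤ euc (x - y) + euc (y - z) := by
  have : x - z = (x - y) + (y - z) := by abel
  rw [this]; exact euc_add_le _ _

theorem euc_le_add_sub (x y : V) : euc x ≤ euc y + euc (x - y) := by
  have : x = y + (x - y) := by abel
  conv_lhs => rw [this]
  exact euc_add_le _ _

/-- **the energy estimate on one piece** -/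
theorem piece_estimate {p : ℝ} (hp : 1 ≤ p) (hp2 : p ≤ 2) {θ : ℝ} (hθ : 0 < θ) :
    ∃ C > 0, ∀ (g D : ℝ → V) (α β S e : ℝ) (c : V), α < β → 0 < S → 0 ≤ e →
      ConicalOn g (Icc α β) →
      (∀ s t, α ≤ s → s ≤ t → t ≤ β → len g (Icc s t) = ENNReal.ofReal (S * (t - s))) →
      IntegrableOn D (Icc α β) → IntegrableOn (fun t => euc (D t) ^ p) (Icc α β) →
      S * (β - α) ≤ (∫ t in Icc α β, euc (D t)) + e →
      euc (g β - g α - ∫ t in Icc α β, D t) ≤ e →
      ∫⁻ t in Icc α β, ENNReal.ofReal (euc (deriv g t - D t) ^ p) ≤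
        ENNReal.ofReal (θ * (∫ t in Icc α β, euc (D t) ^ p) +
          C * (∫ t in Icc α β, euc (D t - c) ^ p) + C * ((β - α) * (e / (β - α)) ^ p)) := by
  obtain ⟨η, hη, C', hC', hC⟩ := exists_energy_const hp hp2 (θ := θ / 4) (by linarith)
  refine ⟨16 * C' + θ + 12, by linarith, ?_⟩
  intro g D α β S e c hαβ hS he hg hsp hD hDp hlen hinc
  set J := β - α with hJ
  have hJ0 : 0 < J := by rw [hJ]; linarith
  set m : V := J⁻¹ • (g β - g α) with hm
  obtain ⟨hGi, hG⟩ := integral_rpow_le hg hαβ hS hsp hp hp2 hη hC m hm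
  have hmS := euc_m_le hg hαβ hS hsp m hm
  have hDc : IntegrableOn (fun t => euc (D t - c) ^ p) (Icc α β) :=
    integrableOn_euc_sub_rpow hp hp2 hD hDp c
  have hD1 : IntegrableOn (fun t => D t - c) (Icc α β) := hD.sub (integrable_const c)
  set A := ∫ t in Icc α β, euc (D t - c) ^ p with hA
  set P := ∫ t in Icc α β, euc (D t) ^ p with hP
  set B := J⁻¹ * ∫ t in Icc α β, euc (D t - c) with hB
  set Q := J⁻¹ * ∫ t in Icc α β, euc (D t) with hQ
  set ē := e / J with hē
  have hē0 : 0 ≤ ē := div_nonneg he hJ0.le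
  have hB0 : 0 ≤ B := mul_nonneg (inv_nonneg.2 hJ0.le)
    (integral_nonneg fun t => euc_nonneg _)
  have hQ0 : 0 ≤ Q := mul_nonneg (inv_nonneg.2 hJ0.le)
    (integral_nonneg fun t => euc_nonneg _)
  have hBp : J * B ^ p ≤ A := by
    have := jensen_rpow hαβ hp (fun t => euc_nonneg (D t - c)) (integrable_euc hD1) hDc
    rw [← hJ, ← hB, ← hA] at this
    calc J * B ^ p ≤ J * (J⁻¹ * A) := mul_le_mul_of_nonneg_left this hJ0.le
      _ = A := by field_simp
  have hQp : J * Q ^ p ≤ P := by
    have := jensen_rpow hαβ hp (fun t => euc_nonneg (D t)) (integrable_euc hD) hDp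
    rw [← hJ, ← hQ, ← hP] at this
    calc J * Q ^ p ≤ J * (J⁻¹ * P) := mul_le_mul_of_nonneg_left this hJ0.le
      _ = P := by field_simp
  -- the average of `D`
  have hvol : (volume.restrict (Icc α β)).real univ = J := by
    simp [measureReal_def, hαβ.le, hJ]
  set mD : V := J⁻¹ • ∫ t in Icc α β, D t with hmD
  have h1 : euc (m - mD) ≤ ē := by
    rw [hm, hmD, ← smul_sub, euc_smul, abs_of_nonneg (inv_nonneg.2 hJ0.le), hē, div_eq_inv_mul]
    exact mul_le_mul_of_nonneg_left hinc (inv_nonneg.2 hJ0.le)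
  have h2 : euc (mD - c) ≤ B := by
    have e1 : mD - c = J⁻¹ • ∫ t in Icc α β, (D t - c) := by
      rw [integral_sub hD (integrable_const c), integral_const, hvol, smul_sub, smul_smul,
        inv_mul_cancel₀ hJ0.ne', one_smul]
    rw [e1, euc_smul, abs_of_nonneg (inv_nonneg.2 hJ0.le), hB]
    exact mul_le_mul_of_nonneg_left (euc_integral_le _ hD1) (inv_nonneg.2 hJ0.le)
  have hmc : euc (m - c) ≤ ē + B := (euc_sub_le _ _ _).trans (add_le_add h1 h2)
  have hSQ : S ≤ Q + ē := by
    rw [hQ, hē, div_eq_inv_mul, ← mul_add]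
    calc S = J⁻¹ * (S * J) := by field_simp
      _ ≤ _ := mul_le_mul_of_nonneg_left hlen (inv_nonneg.2 hJ0.le)
  have hQc : Q ≤ euc c + B := by
    have e1 : ∫ t in Icc α β, euc (D t) ≤ ∫ t in Icc α β, (euc c + euc (D t - c)) := by
      refine integral_mono (integrable_euc hD) ((integrable_const _).add (integrable_euc hD1)) ?_
      intro t
      exact euc_le_add_sub _ _
    rw [integral_add (integrable_const _) (integrable_euc hD1), integral_const, hvol,
      smul_eq_mul] at e1
    rw [hQ, hB]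
    calc J⁻¹ * ∫ t in Icc α β, euc (D t)
        ≤ J⁻¹ * (J * euc c + ∫ t in Icc α β, euc (D t - c)) :=
          mul_le_mul_of_nonneg_left e1 (inv_nonneg.2 hJ0.le)
      _ = _ := by field_simp
  have hcm : euc c ≤ euc m + (ē + B) := by
    have := euc_le_add_sub c m
    rw [euc_sub_comm c m] at this
    linarith
  have hSm : S - euc m ≤ 2 * (ē + B) := by linarith
  -- powers
  have hp0 : 0 ≤ p := by linarith
  have hSp : J * S ^ p ≤ 2 * P + 2 * (J * ē ^ p) := by
    have : S ^ p ≤ 2 * (Q ^ p + ē ^ p) :=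
      (Real.rpow_le_rpow hS.le hSQ hp0).trans (rpow_add_le_two hQ0 hē0 hp hp2)
    calc J * S ^ p ≤ J * (2 * (Q ^ p + ē ^ p)) := mul_le_mul_of_nonneg_left this hJ0.le
      _ = 2 * (J * Q ^ p) + 2 * (J * ē ^ p) := by ring
      _ ≤ _ := by linarith
  have heB : J * (ē + B) ^ p ≤ 2 * (J * ē ^ p) + 2 * A := by
    have : (ē + B) ^ p ≤ 2 * (ē ^ p + B ^ p) := rpow_add_le_two hē0 hB0 hp hp2
    calc J * (ē + B) ^ p ≤ J * (2 * (ē ^ p + B ^ p)) := mul_le_mul_of_nonneg_left this hJ0.le
      _ = 2 * (J * ē ^ p) + 2 * (J * B ^ p) := by ring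
      _ ≤ _ := by linarith
  have hSmp : J * (S - euc m) ^ p ≤ 8 * (J * ē ^ p) + 8 * A := by
    have h3 : (S - euc m) ^ p ≤ 4 * (ē + B) ^ p := by
      calc (S - euc m) ^ p ≤ (2 * (ē + B)) ^ p :=
            Real.rpow_le_rpow (by linarith) hSm hp0
        _ = 2 ^ p * (ē + B) ^ p := Real.mul_rpow (by norm_num) (by linarith)
        _ ≤ 4 * (ē + B) ^ p := by
            have h4 : (2:ℝ) ^ p ≤ 4 := by
              calc (2:ℝ) ^ p ≤ 2 ^ (2:ℝ) := Real.rpow_le_rpow_of_exponent_le (by norm_num) hp2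
                _ = 4 := by norm_num
            exact mul_le_mul_of_nonneg_right h4 (by positivity)
    calc J * (S - euc m) ^ p ≤ J * (4 * (ē + B) ^ p) := mul_le_mul_of_nonneg_left h3 hJ0.le
      _ = 4 * (J * (ē + B) ^ p) := by ring
      _ ≤ _ := by linarith
  -- the pointwise inequality
  have hpt : ∀ t, euc (deriv g t - D t) ^ p ≤
      2 * euc (deriv g t - m) ^ p + (4 * euc (m - c) ^ p + 4 * euc (D t - c) ^ p) := by
    intro t
    have e1 : euc (deriv g t - D t) ≤ euc (deriv g t - m) + (euc (m - c) + euc (D t - c)) := by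
      refine (euc_sub_le _ m _).trans ?_
      have := euc_sub_le m c (D t)
      rw [euc_sub_comm c (D t)] at this
      linarith
    have hn1 := euc_nonneg (deriv g t - m)
    have hn2 := euc_nonneg (m - c)
    have hn3 := euc_nonneg (D t - c)
    calc euc (deriv g t - D t) ^ p
        ≤ (euc (deriv g t - m) + (euc (m - c) + euc (D t - c))) ^ p :=
          Real.rpow_le_rpow (euc_nonneg _) e1 hp0
      _ ≤ 2 * (euc (deriv g t - m) ^ p + (euc (m - c) + euc (D t - c)) ^ p) :=
          rpow_add_le_two hn1 (by linarith) hp hp2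
      _ ≤ 2 * (euc (deriv g t - m) ^ p + 2 * (euc (m - c) ^ p + euc (D t - c) ^ p)) := by
          gcongr
          exact rpow_add_le_two hn2 hn3 hp hp2
      _ = _ := by ring
  have hint : Integrable (fun t => 2 * euc (deriv g t - m) ^ p +
      (4 * euc (m - c) ^ p + 4 * euc (D t - c) ^ p)) (volume.restrict (Icc α β)) :=
    (hGi.const_mul 2).add ((integrable_const _).add (hDc.const_mul 4))
  have hJm : J * euc (m - c) ^ p ≤ J * (ē + B) ^ p := by
    gcongr
    exact euc_nonneg _
  have hA0 : 0 ≤ A := integral_nonneg fun t => by have := euc_nonneg (D t - c); positivity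
  have hJe : 0 ≤ J * ē ^ p := by positivity
  calc ∫⁻ t in Icc α β, ENNReal.ofReal (euc (deriv g t - D t) ^ p)
      ≤ ∫⁻ t in Icc α β, ENNReal.ofReal (2 * euc (deriv g t - m) ^ p +
          (4 * euc (m - c) ^ p + 4 * euc (D t - c) ^ p)) :=
        lintegral_mono fun t => ENNReal.ofReal_le_ofReal (hpt t)
    _ = ENNReal.ofReal (∫ t in Icc α β, (2 * euc (deriv g t - m) ^ p +
          (4 * euc (m - c) ^ p + 4 * euc (D t - c) ^ p))) := by
        rw [ofReal_integral_eq_lintegral_ofReal hint (Eventually.of_forall fun t => ?_)]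
        have hn1 := euc_nonneg (deriv g t - m)
        have hn2 := euc_nonneg (m - c)
        have hn3 := euc_nonneg (D t - c)
        positivity
    _ ≤ _ := by
        apply ENNReal.ofReal_le_ofReal
        have hsplit : ∫ t in Icc α β, (2 * euc (deriv g t - m) ^ p +
            (4 * euc (m - c) ^ p + 4 * euc (D t - c) ^ p)) =
            2 * (∫ t in Icc α β, euc (deriv g t - m) ^ p) +
              (J * (4 * euc (m - c) ^ p) + 4 * A) := by
          have e2 : ∫ t in Icc α β, (4 * euc (m - c) ^ p + 4 * euc (D t - c) ^ p) =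
              J * (4 * euc (m - c) ^ p) + 4 * A := by
            rw [integral_add (integrable_const _) (hDc.const_mul 4),
              integral_const_mul (4:ℝ) (fun t => euc (D t - c) ^ p),
              integral_const, hvol, smul_eq_mul, ← hA]
          rw [← e2, ← integral_const_mul]
          exact integral_add (hGi.const_mul 2) ((integrable_const _).add (hDc.const_mul 4))
        rw [hsplit]
        have k1 : 2 * (J * (θ / 4 * S ^ p + C' * (S - euc m) ^ p)) ≤
            θ * P + θ * (J * ē ^ p) + C' * (16 * (J * ē ^ p) + 16 * A) := by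
          have a1 : 2 * (J * (θ / 4 * S ^ p)) ≤ θ * P + θ * (J * ē ^ p) := by
            calc 2 * (J * (θ / 4 * S ^ p)) = θ / 2 * (J * S ^ p) := by ring
              _ ≤ θ / 2 * (2 * P + 2 * (J * ē ^ p)) := by gcongr
              _ = _ := by ring
          have a2 : 2 * (J * (C' * (S - euc m) ^ p)) ≤ C' * (16 * (J * ē ^ p) + 16 * A) := by
            calc 2 * (J * (C' * (S - euc m) ^ p)) = 2 * C' * (J * (S - euc m) ^ p) := by ring
              _ ≤ 2 * C' * (8 * (J * ē ^ p) + 8 * A) := by gcongr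
              _ = _ := by ring
          calc _ = 2 * (J * (θ / 4 * S ^ p)) + 2 * (J * (C' * (S - euc m) ^ p)) := by ring
            _ ≤ _ := by linarith
        have k2 : 2 * (∫ t in Icc α β, euc (deriv g t - m) ^ p) ≤
            2 * (J * (θ / 4 * S ^ p + C' * (S - euc m) ^ p)) := by linarith [hG]
        have k3 : J * (4 * euc (m - c) ^ p) ≤ 8 * (J * ē ^ p) + 8 * A := by
          calc J * (4 * euc (m - c) ^ p) = 4 * (J * euc (m - c) ^ p) := by ring
            _ ≤ 4 * (2 * (J * ē ^ p) + 2 * A) := by linarith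
            _ = _ := by ring
        nlinarith [mul_nonneg hC' hA0, mul_nonneg hC' hJe, mul_nonneg hθ.le hA0,
          mul_nonneg hθ.le hJe]

/-! ### Step approximation -/

/-- approximation of a `p`-integrable function by step functions on equal intervals -/
theorem exists_step {p : ℝ} (hp : 1 ≤ p) (hp2 : p ≤ 2) {D : ℝ → V}
    (hD : IntegrableOn D (Icc 0 1)) (hDp : IntegrableOn (fun t => euc (D t) ^ p) (Icc 0 1))
    {δ : ℝ} (hδ : 0 < δ) :
    ∃ n₀ : ℕ, ∀ n : ℕ, n₀ ≤ n → 0 < n → ∃ c : ℕ → V,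
      ∑ j ∈ Finset.range n, ∫ t in Icc ((j:ℝ) / n) ((j + 1 : ℝ) / n), euc (D t - c j) ^ p ≤ δ := by
  have hp0 : 0 < p := by linarith
  -- `D` is in `L^p`
  have hmem : MemLp D (ENNReal.ofReal p) (volume.restrict (Icc (0:ℝ) 1)) := by
    rw [← memLp_norm_rpow_iff (q := ENNReal.ofReal p) hD.1 (by simpa using hp0) (by simp)]
    rw [ENNReal.div_self (by simpa using hp0) (by simp), memLp_one_iff_integrable,
      ENNReal.toReal_ofReal hp0.le]
    refine hDp.mono' (hD.1.norm.aemeasurable.pow_const p).aestronglyMeasurable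
      (Eventually.of_forall fun t => ?_)
    rw [Real.norm_of_nonneg (by positivity)]
    exact Real.rpow_le_rpow (norm_nonneg _) (norm_le_euc _) hp0.le
  set δ' : ℝ := (δ / 32) ^ (1 / p) with hδ'
  have hδ'0 : 0 < δ' := by positivity
  obtain ⟨φ, hφ, -⟩ := hmem.exists_boundedContinuous_eLpNorm_sub_le (by simp)
    (ε := ENNReal.ofReal δ') (by simpa using hδ'0)
  -- the integral of the difference
  have hφp : ∫⁻ t in Icc (0:ℝ) 1, ENNReal.ofReal (‖D t - φ t‖ ^ p) ≤ ENNReal.ofReal (δ / 32) := by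
    rw [eLpNorm_eq_lintegral_rpow_enorm_toReal (by simpa using hp0) (by simp),
      ENNReal.toReal_ofReal hp0.le] at hφ
    have h1 := ENNReal.rpow_le_rpow hφ hp0.le
    rw [← ENNReal.rpow_mul, one_div_mul_cancel hp0.ne', ENNReal.rpow_one,
      ENNReal.ofReal_rpow_of_nonneg hδ'0.le hp0.le, hδ', ← Real.rpow_mul (by positivity),
      one_div_mul_cancel hp0.ne', Real.rpow_one] at h1
    refine le_trans (le_of_eq ?_) h1
    refine lintegral_congr fun t => ?_
    rw [← ENNReal.ofReal_rpow_of_nonneg (norm_nonneg _) hp0.le, ofReal_norm]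
    rfl
  -- uniform continuity of `φ`
  have huc : UniformContinuousOn φ (Icc (0:ℝ) 1) :=
    isCompact_Icc.uniformContinuousOn_of_continuous φ.continuous.continuousOn
  obtain ⟨r, hr, hφr⟩ := Metric.uniformContinuousOn_iff_le.1 huc δ' hδ'0
  obtain ⟨n₀, hn₀⟩ := exists_nat_gt (1 / r)
  refine ⟨n₀, fun n hn hn0 => ⟨fun j => φ ((j:ℝ) / n), ?_⟩⟩
  have hnpos : (0:ℝ) < n := by exact_mod_cast hn0
  have hnr : (1:ℝ) / n ≤ r := by
    rw [div_le_iff₀ hnpos]
    have h2 : (n₀:ℝ) ≤ n := by exact_mod_cast hn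
    have h3 : 1 < n₀ * r := by rwa [div_lt_iff₀ hr] at hn₀
    nlinarith
  have hIsub : ∀ j ∈ Finset.range n, Icc ((j:ℝ) / n) ((j + 1 : ℝ) / n) ⊆ Icc (0:ℝ) 1 := by
    intro j hj t ht
    refine ⟨le_trans (by positivity) ht.1, ht.2.trans ?_⟩
    rw [div_le_one hnpos]
    have := Finset.mem_range.1 hj
    exact_mod_cast this
  have hDφ : IntegrableOn (fun t => D t - φ t) (Icc 0 1) :=
    hD.sub (φ.continuous.continuousOn.integrableOn_Icc)
  have hDφp : IntegrableOn (fun t => ‖D t - φ t‖ ^ p) (Icc (0:ℝ) 1) := by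
    refine ⟨(hDφ.1.norm.aemeasurable.pow_const p).aestronglyMeasurable, ?_⟩
    rw [hasFiniteIntegral_iff_ofReal (Eventually.of_forall fun t => by positivity)]
    exact hφp.trans_lt ENNReal.ofReal_lt_top
  have hφp' : ∫ t in Icc (0:ℝ) 1, ‖D t - φ t‖ ^ p ≤ δ / 32 := by
    rw [← ofReal_integral_eq_lintegral_ofReal hDφp
      (Eventually.of_forall fun t => by positivity)] at hφp
    exact (ENNReal.ofReal_le_ofReal_iff (by positivity)).1 hφp
  -- estimate on one interval
  have hone : ∀ j ∈ Finset.range n,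
      ∫ t in Icc ((j:ℝ) / n) ((j + 1 : ℝ) / n), euc (D t - φ ((j:ℝ) / n)) ^ p ≤
      8 * (∫ t in Icc ((j:ℝ) / n) ((j + 1 : ℝ) / n), ‖D t - φ t‖ ^ p) + 1 / n * (8 * (δ / 32)) := by
    intro j hj
    have hsub := hIsub j hj
    have hint1 : IntegrableOn (fun t => 8 * ‖D t - φ t‖ ^ p + 8 * (δ / 32))
        (Icc ((j:ℝ) / n) ((j + 1 : ℝ) / n)) :=
      ((hDφp.mono_set hsub).const_mul 8).add (integrable_const _)
    have hint2 := integrableOn_euc_sub_rpow hp hp2 (hD.mono_set hsub) (hDp.mono_set hsub)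
      (φ ((j:ℝ) / n))
    calc ∫ t in Icc ((j:ℝ) / n) ((j + 1 : ℝ) / n), euc (D t - φ ((j:ℝ) / n)) ^ p
        ≤ ∫ t in Icc ((j:ℝ) / n) ((j + 1 : ℝ) / n), (8 * ‖D t - φ t‖ ^ p + 8 * (δ / 32)) := by
          refine setIntegral_mono_on hint2 hint1 measurableSet_Icc fun t ht => ?_
          have h4 : ‖φ t - φ ((j:ℝ) / n)‖ ≤ δ' := by
            rw [← dist_eq_norm]
            refine hφr t (hsub ht) _ (hsub ⟨le_refl _, ?_⟩) ?_
            · gcongr; linarith
            · rw [Real.dist_eq, abs_of_nonneg (by linarith [ht.1])]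
              have := ht.2
              have e : (j + 1 : ℝ) / n = (j:ℝ) / n + 1 / n := by ring
              linarith
          have h5 : ‖D t - φ ((j:ℝ) / n)‖ ≤ ‖D t - φ t‖ + δ' := by
            calc ‖D t - φ ((j:ℝ) / n)‖ = ‖(D t - φ t) + (φ t - φ ((j:ℝ) / n))‖ := by
                  congr 1; abel
              _ ≤ _ := (norm_add_le _ _).trans (by linarith)
          calc euc (D t - φ ((j:ℝ) / n)) ^ p
              ≤ (2 * (‖D t - φ t‖ + δ')) ^ p := by
                apply Real.rpow_le_rpow (euc_nonneg _) _ hp0.le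
                exact (euc_le _).trans (by linarith)
            _ = 2 ^ p * (‖D t - φ t‖ + δ') ^ p := Real.mul_rpow (by norm_num) (by positivity)
            _ ≤ 4 * (2 * (‖D t - φ t‖ ^ p + δ' ^ p)) := by
                have h6 : (2:ℝ) ^ p ≤ 4 := by
                  calc (2:ℝ) ^ p ≤ 2 ^ (2:ℝ) := Real.rpow_le_rpow_of_exponent_le (by norm_num) hp2
                    _ = 4 := by norm_num
                have h7 := rpow_add_le_two (norm_nonneg (D t - φ t)) hδ'0.le hp hp2
                exact mul_le_mul h6 h7 (by positivity) (by norm_num)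
            _ = 8 * ‖D t - φ t‖ ^ p + 8 * (δ / 32) := by
                have : δ' ^ p = δ / 32 := by
                  rw [hδ', ← Real.rpow_mul (by positivity), one_div_mul_cancel hp0.ne',
                    Real.rpow_one]
                rw [this]; ring
      _ = _ := by
          rw [integral_add ((hDφp.mono_set hsub).const_mul 8) (integrable_const _),
            integral_const_mul, integral_const, smul_eq_mul]
          congr 2
          rw [measureReal_def, Measure.restrict_apply_univ, Real.volume_Icc, ENNReal.toReal_ofReal]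
          · ring
          · rw [← sub_div]
            have : (j:ℝ) + 1 - j = 1 := by ring
            rw [this]; positivity
  have hsum : ∑ j ∈ Finset.range n,
      ∫ t in Icc ((j:ℝ) / n) ((j + 1 : ℝ) / n), ‖D t - φ t‖ ^ p ≤ δ / 32 := by
    have hle : ∀ j : ℕ, (j:ℝ) / n ≤ (j + 1 : ℝ) / n := fun j => by gcongr; linarith
    have e1 : ∀ j ∈ Finset.range n, ∫ t in Icc ((j:ℝ) / n) ((j + 1 : ℝ) / n), ‖D t - φ t‖ ^ p =
        ∫ t in ((j:ℕ):ℝ) / n..((j + 1 : ℕ):ℝ) / n, ‖D t - φ t‖ ^ p := by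
      intro j _
      have e : (((j + 1 : ℕ):ℝ)) = (j:ℝ) + 1 := by push_cast; ring
      rw [e, intervalIntegral.integral_of_le (hle j), integral_Icc_eq_integral_Ioc]
    rw [Finset.sum_congr rfl e1,
      intervalIntegral.sum_integral_adjacent_intervals (a := fun j : ℕ => (j:ℝ) / n)]
    · have : ((n:ℕ):ℝ) / n = 1 := div_self hnpos.ne'
      simp only [Nat.cast_zero, zero_div, this]
      rw [intervalIntegral.integral_of_le zero_le_one, ← integral_Icc_eq_integral_Ioc]
      exact hφp'
    · intro k hk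
      have e : (((k + 1 : ℕ):ℝ)) = (k:ℝ) + 1 := by push_cast; ring
      simp only [e]
      rw [intervalIntegrable_iff_integrableOn_Icc_of_le (hle k)]
      exact hDφp.mono_set (hIsub k (Finset.mem_range.2 hk))
  calc _ ≤ ∑ j ∈ Finset.range n, (8 * (∫ t in Icc ((j:ℝ) / n) ((j + 1 : ℝ) / n),
          ‖D t - φ t‖ ^ p) + 1 / n * (8 * (δ / 32))) := Finset.sum_le_sum hone
    _ = 8 * (∑ j ∈ Finset.range n, ∫ t in Icc ((j:ℝ) / n) ((j + 1 : ℝ) / n),
          ‖D t - φ t‖ ^ p) + 8 * (δ / 32) := by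
        rw [Finset.sum_add_distrib, ← Finset.mul_sum, Finset.sum_const, Finset.card_range,
          nsmul_eq_mul]
        field_simp
    _ ≤ δ := by linarith

end P073.Net
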