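import Vale.Agent.P073.Net.NH2c
import Vale.Agent.P073.Net.NH1

/-!
# P073, block NET, NH2: gluing of reparametrisations, subdivision of a graph
-/

open Set Metric Topology MeasureTheory Filter
open scoped ENNReal NNReal

namespace P073.Net

open Vale.Agent.P073.St (V euc IsHomeo)

/-- increasing conical self-homeomorphism of the interval `[a, b]` -/
structure IsRep (a b : ℝ) (ρ : ℝ → ℝ) : Prop where
  left : ρ a = a
  right : ρ b = b
  mono : StrictMonoOn ρ (Icc a b)
  cont : ContinuousOn ρ (Icc a b)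
  con : ConicalOn ρ (Icc a b)

theorem isRep_id (a b : ℝ) : IsRep a b (fun t => t) := by
  refine ⟨rfl, rfl, fun x _ y _ h => h, continuous_id.continuousOn, ?_⟩
  intro x hx
  refine ⟨1, one_pos, fun v _ hv t ht => ⟨?_, ?_⟩⟩
  · have := (convex_Icc a b).add_smul_sub_mem hx hv ht
    simpa using this
  · simp

theorem IsRep.mapsTo {a b : ℝ} {ρ : ℝ → ℝ} (h : IsRep a b ρ) : MapsTo ρ (Icc a b) (Icc a b) := by
  intro t ht
  have hab : a ≤ b := ht.1.trans ht.2
  constructor
  · conv_lhs => rw [← h.left]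
    exact h.mono.monotoneOn ⟨le_refl _, hab⟩ ht ht.1
  · conv_rhs => rw [← h.right]
    exact h.mono.monotoneOn ht ⟨hab, le_refl _⟩ ht.2

/-- gluing conical functions -/
theorem conical_glue {a b c : ℝ} (hab : a ≤ b) (hbc : b ≤ c) {ρ σ r : ℝ → ℝ}
    (hρ : ConicalOn ρ (Icc a b)) (hσ : ConicalOn σ (Icc b c)) (h1 : EqOn r ρ (Icc a b))
    (h2 : EqOn r σ (Icc b c)) : ConicalOn r (Icc a c) := by
  intro x hx
  have hmem : ∀ v : ℝ, x + v ∈ Icc a c → ∀ t ∈ Icc (0:ℝ) 1, x + t • v ∈ Icc a c := by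
    intro v hv t ht
    have := (convex_Icc a c).add_smul_sub_mem hx hv ht
    simpa using this
  rcases lt_trichotomy x b with h | h | h
  · obtain ⟨s, hs, H⟩ := hρ x ⟨hx.1, h.le⟩
    refine ⟨min s (b - x), lt_min hs (by linarith), fun v hv hxv t ht => ⟨hmem v hxv t ht, ?_⟩⟩
    have hv1 : |v| ≤ b - x := by
      rw [Real.norm_eq_abs] at hv; exact hv.trans (min_le_right _ _)
    have hv2 : x + v ∈ Icc a b := ⟨hxv.1, by linarith [le_abs_self v]⟩
    obtain ⟨k1, k2⟩ := H v (hv.trans (min_le_left _ _)) hv2 t ht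
    rw [h1 k1, h1 hv2, h1 ⟨hx.1, h.le⟩, k2]
  · subst h
    obtain ⟨s, hs, H⟩ := hρ x ⟨hab, le_refl _⟩
    obtain ⟨s', hs', H'⟩ := hσ x ⟨le_refl _, hbc⟩
    refine ⟨min s s', lt_min hs hs', fun v hv hxv t ht => ⟨hmem v hxv t ht, ?_⟩⟩
    rcases le_total v 0 with h0 | h0
    · have hv2 : x + v ∈ Icc a x := ⟨hxv.1, by linarith⟩
      obtain ⟨k1, k2⟩ := H v (hv.trans (min_le_left _ _)) hv2 t ht
      rw [h1 k1, h1 hv2, h1 ⟨hab, le_refl _⟩, k2]
    · have hv2 : x + v ∈ Icc x c := ⟨by linarith, hxv.2⟩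
      obtain ⟨k1, k2⟩ := H' v (hv.trans (min_le_right _ _)) hv2 t ht
      rw [h2 k1, h2 hv2, h2 ⟨le_refl _, hbc⟩, k2]
  · obtain ⟨s, hs, H⟩ := hσ x ⟨h.le, hx.2⟩
    refine ⟨min s (x - b), lt_min hs (by linarith), fun v hv hxv t ht => ⟨hmem v hxv t ht, ?_⟩⟩
    have hv1 : |v| ≤ x - b := by
      rw [Real.norm_eq_abs] at hv; exact hv.trans (min_le_right _ _)
    have hv2 : x + v ∈ Icc b c := ⟨by linarith [neg_abs_le v], hxv.2⟩
    obtain ⟨k1, k2⟩ := H v (hv.trans (min_le_left _ _)) hv2 t ht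
    rw [h2 k1, h2 hv2, h2 ⟨h.le, hx.2⟩, k2]

theorem IsRep.glue {a b c : ℝ} (hab : a ≤ b) (hbc : b ≤ c) {ρ σ r : ℝ → ℝ}
    (hρ : IsRep a b ρ) (hσ : IsRep b c σ) (h1 : EqOn r ρ (Icc a b))
    (h2 : EqOn r σ (Icc b c)) : IsRep a c r := by
  have hU : Icc a b ∪ Icc b c = Icc a c := Icc_union_Icc_eq_Icc hab hbc
  refine ⟨?_, ?_, ?_, ?_, conical_glue hab hbc hρ.con hσ.con h1 h2⟩
  · rw [h1 ⟨le_refl _, hab⟩, hρ.left]
  · rw [h2 ⟨hbc, le_refl _⟩, hσ.right]
  · rw [← hU]
    exact StrictMonoOn.union (c := b) (hρ.mono.congr h1.symm) (hσ.mono.congr h2.symm)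
      (isGreatest_Icc hab) (isLeast_Icc hbc)
  · rw [← hU]
    exact ContinuousOn.union_of_isClosed (hρ.cont.congr h1) (hσ.cont.congr h2) isClosed_Icc
      isClosed_Icc

/-- gluing finitely many reparametrisations -/
theorem exists_glue_rep (x : ℕ → ℝ) (ρ : ℕ → ℝ → ℝ) (N : ℕ)
    (hx : ∀ k < N, x k ≤ x (k + 1)) (hρ : ∀ k < N, IsRep (x k) (x (k + 1)) (ρ k)) :
    x 0 ≤ x N ∧ ∃ r : ℝ → ℝ, IsRep (x 0) (x N) r ∧
      ∀ k < N, EqOn r (ρ k) (Icc (x k) (x (k + 1))) := by
  induction N with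
  | zero => exact ⟨le_refl _, fun t => t, isRep_id _ _, fun k hk => absurd hk (by omega)⟩
  | succ N ih =>
    obtain ⟨h0, r, hr, hrk⟩ := ih (fun k hk => hx k (by omega)) (fun k hk => hρ k (by omega))
    have hN := hx N (by omega)
    refine ⟨h0.trans hN, fun t => if t ≤ x N then r t else ρ N t, ?_, ?_⟩
    · refine IsRep.glue h0 hN hr (hρ N (by omega)) (fun t ht => ?_) (fun t ht => ?_)
      · simp only [if_pos ht.2]
      · rcases ht.1.eq_or_lt with h | h
        · simp only [← h, le_refl, if_true]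
          rw [hr.right, (hρ N (by omega)).left]
        · simp only [if_neg (not_le.2 h)]
    · intro k hk t ht
      rcases Nat.lt_succ_iff_lt_or_eq.1 hk with h | h
      · have hmono : x (k + 1) ≤ x N := by
          have : ∀ j, k + 1 + j ≤ N → x (k + 1) ≤ x (k + 1 + j) := by
            intro j
            induction j with
            | zero => intro _; exact le_refl _
            | succ j ihj => intro hj; exact (ihj (by omega)).trans (hx _ (by omega))
          obtain ⟨j, hj⟩ := Nat.exists_eq_add_of_le (show k + 1 ≤ N from h)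
          rw [hj]; exact this j (by omega)
        simp only [if_pos (ht.2.trans hmono)]
        exact hrk k h ht
      · subst h
        rcases ht.1.eq_or_lt with h | h
        · simp only [← h, le_refl, if_true]
          rw [hr.right, (hρ k (by omega)).left]
        · simp only [if_neg (not_le.2 h)]

/-! ### Subdivision -/

section Sub

variable {Ω : Set V} (G : Graph Ω)

theorem Graph.e_sub (i : G.ι) (s t : ℝ) : G.e i s - G.e i t = (s - t) • (G.b i - G.a i) := by
  unfold Graph.e; module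

/-- points of an edge between two times -/
theorem Graph.mem_seg_iff (i : G.ι) {s t : ℝ} (hst : s ≤ t) {x : V} :
    x ∈ segment ℝ (G.e i s) (G.e i t) ↔ ∃ u ∈ Icc s t, x = G.e i u := by
  rw [segment_eq_image']
  constructor
  · rintro ⟨θ, hθ, rfl⟩
    refine ⟨s + θ * (t - s), ⟨by nlinarith [hθ.1], by nlinarith [hθ.2]⟩, ?_⟩
    rw [G.e_sub]
    unfold Graph.e; module
  · rintro ⟨u, hu, rfl⟩
    rcases hst.eq_or_lt with h | h
    · subst h
      have : u = s := le_antisymm hu.2 hu.1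
      subst this
      exact ⟨0, ⟨le_refl _, zero_le_one⟩, by simp⟩
    · refine ⟨(u - s) / (t - s), ⟨div_nonneg (by linarith [hu.1]) (by linarith),
        (div_le_one (by linarith)).2 (by linarith [hu.2])⟩, ?_⟩
      simp only
      rw [G.e_sub, smul_smul, div_mul_cancel₀ _ (by linarith)]
      unfold Graph.e; module

/-- the subdivision of the edge `i` into `n i` equal pieces -/
noncomputable def Graph.subdiv (n : G.ι → ℕ) (hn : ∀ i, 0 < n i) : Graph Ω where
  ι := Σ i : G.ι, Fin (n i)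
  a := fun j => G.e j.1 ((j.2 : ℝ) / n j.1)
  b := fun j => G.e j.1 ((j.2 + 1 : ℝ) / n j.1)
  ne := fun j h => by
    have h0 : (0:ℝ) < n j.1 := by exact_mod_cast hn j.1
    have := G.e_injective j.1 h
    rw [div_left_inj' h0.ne'] at this
    linarith
  sub := fun j x hx => by
    have h0 : (0:ℝ) < n j.1 := by exact_mod_cast hn j.1
    obtain ⟨u, hu, rfl⟩ := (G.mem_seg_iff j.1 (by gcongr; linarith)).1 hx
    refine G.sub j.1 (G.e_mem j.1 ⟨le_trans (by positivity) hu.1, hu.2.trans ?_⟩)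
    rw [div_le_one h0]
    have := j.2.2
    exact_mod_cast this
  fin := fun K hK hKc => by
    have hfin := G.fin K hK hKc
    have h1 : ({j : Σ i : G.ι, Fin (n i) | (segment ℝ (G.e j.1 ((j.2 : ℝ) / n j.1))
        (G.e j.1 ((j.2 + 1 : ℝ) / n j.1)) ∩ K).Nonempty}) ⊆
        ⋃ i ∈ {i | (segment ℝ (G.a i) (G.b i) ∩ K).Nonempty},
          (fun k : Fin (n i) => (⟨i, k⟩ : Σ i : G.ι, Fin (n i))) '' univ := by
      rintro ⟨i, k⟩ ⟨x, hx, hxK⟩
      have h0 : (0:ℝ) < n i := by exact_mod_cast hn i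
      obtain ⟨u, hu, rfl⟩ := (G.mem_seg_iff i (by gcongr; linarith)).1 hx
      refine mem_iUnion₂.2 ⟨i, ⟨_, G.e_mem i ⟨le_trans (by positivity) hu.1, hu.2.trans ?_⟩, hxK⟩,
        ⟨k, mem_univ _, rfl⟩⟩
      rw [div_le_one h0]
      have := k.2
      exact_mod_cast this
    exact (hfin.biUnion fun i _ => (finite_univ.image _)).subset h1
  meet := by
    rintro ⟨i, k⟩ ⟨j, l⟩ hne x ⟨hx, hy⟩
    have h0 : (0:ℝ) < n i := by exact_mod_cast hn i
    have h0' : (0:ℝ) < n j := by exact_mod_cast hn j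
    obtain ⟨u, hu, hxu⟩ := (G.mem_seg_iff i (by gcongr; linarith)).1 hx
    obtain ⟨w, hw, hxw⟩ := (G.mem_seg_iff j (by gcongr; linarith)).1 hy
    have hu01 : u ∈ Icc (0:ℝ) 1 := ⟨le_trans (by positivity) hu.1, hu.2.trans (by
      rw [div_le_one h0]; exact_mod_cast k.2)⟩
    have hw01 : w ∈ Icc (0:ℝ) 1 := ⟨le_trans (by positivity) hw.1, hw.2.trans (by
      rw [div_le_one h0']; exact_mod_cast l.2)⟩
    by_cases hij : i = j
    · subst hij
      have huw : u = w := G.e_injective i (hxu.symm.trans hxw)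
      subst huw
      have hkl : k ≠ l := fun h => hne (by rw [h])
      rcases lt_or_gt_of_ne (fun h => hkl (Fin.ext h) : (k:ℕ) ≠ (l:ℕ)) with h | h
      · have h1 : ((k:ℕ):ℝ) + 1 ≤ (l:ℕ) := by exact_mod_cast h
        have h2 : ((k:ℕ) + 1 : ℝ) / n i ≤ ((l:ℕ):ℝ) / n i := by gcongr
        have h3 : u = ((k:ℕ) + 1 : ℝ) / n i := le_antisymm hu.2 (h2.trans hw.1)
        have h4 : u = ((l:ℕ):ℝ) / n i := le_antisymm (hu.2.trans h2) hw.1
        constructor
        · right; rw [mem_singleton_iff, hxu, h3]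
        · left; rw [hxu, h4]
      · have h1 : ((l:ℕ):ℝ) + 1 ≤ (k:ℕ) := by exact_mod_cast h
        have h2 : ((l:ℕ) + 1 : ℝ) / n i ≤ ((k:ℕ):ℝ) / n i := by gcongr
        have h3 : u = ((l:ℕ) + 1 : ℝ) / n i := le_antisymm hw.2 (h2.trans hu.1)
        have h4 : u = ((k:ℕ):ℝ) / n i := le_antisymm (hw.2.trans h2) hu.1
        constructor
        · left; rw [hxu, h4]
        · right; rw [mem_singleton_iff, hxu, h3]
    · -- different edges: `x` is a common end point
      have hm := G.meet i j hij ⟨hxu ▸ G.e_mem i hu01, hxw ▸ G.e_mem j hw01⟩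
      have key : ∀ (i : G.ι) (k : Fin (n i)) (u : ℝ), u ∈ Icc ((k:ℝ) / n i) ((k + 1 : ℝ) / n i) →
          x = G.e i u → x ∈ ({G.a i, G.b i} : Set V) →
          x ∈ ({G.e i ((k:ℝ) / n i), G.e i ((k + 1 : ℝ) / n i)} : Set V) := by
        intro i k u hu hxu hab
        have h0 : (0:ℝ) < n i := by exact_mod_cast hn i
        rcases hab with h | h
        · rw [← G.e_zero i, hxu] at h
          have h1 := G.e_injective i h
          left
          rw [hxu]
          have h2 : (k:ℝ) / n i = u := le_antisymm hu.1 (by rw [h1]; positivity)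
          rw [h2]
        · rw [mem_singleton_iff, ← G.e_one i, hxu] at h
          have h1 := G.e_injective i h
          right
          rw [mem_singleton_iff, hxu]
          have h2 : (k + 1 : ℝ) / n i = u := le_antisymm (by
            rw [h1, div_le_one h0]; exact_mod_cast k.2) hu.2
          rw [h2]
      exact ⟨key i k u hu hxu hm.1, key j l w hw hxw hm.2⟩

theorem Graph.subdiv_e (n : G.ι → ℕ) (hn : ∀ i, 0 < n i) (i : G.ι) (k : Fin (n i)) (t : ℝ) :
    (G.subdiv n hn).e ⟨i, k⟩ t = G.e i (((k:ℝ) + t) / n i) := by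
  show G.e i ((k:ℝ) / n i) + t • (G.e i ((k + 1 : ℝ) / n i) - G.e i ((k:ℝ) / n i)) = _
  have h0 : (0:ℝ) < n i := by exact_mod_cast hn i
  rw [G.e_sub]
  unfold Graph.e
  have e1 : ((k + 1 : ℝ) / n i - (k:ℝ) / n i) = 1 / n i := by ring
  rw [e1, smul_smul, add_assoc, ← add_smul]
  congr 2
  field_simp

theorem Graph.subdiv_seg (n : G.ι → ℕ) (hn : ∀ i, 0 < n i) (j : (G.subdiv n hn).ι) :
    segment ℝ ((G.subdiv n hn).a j) ((G.subdiv n hn).b j) ⊆ segment ℝ (G.a j.1) (G.b j.1) := by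
  intro x hx
  have h0 : (0:ℝ) < n j.1 := by exact_mod_cast hn j.1
  obtain ⟨u, hu, rfl⟩ := (G.mem_seg_iff j.1 (by gcongr; linarith)).1 hx
  refine G.e_mem j.1 ⟨le_trans (by positivity) hu.1, hu.2.trans ?_⟩
  rw [div_le_one h0]
  exact_mod_cast j.2.2

end Sub

end P073.Net
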