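import Vale.Agent.P073.Net.NH2d

/-!
# P073, block NET, NH2: reparametrisation of one edge
-/

open Set Metric Topology MeasureTheory Filter
open scoped ENNReal NNReal

namespace P073.Net

open Vale.Agent.P073.St (V euc IsHomeo)

/-- a partition covers the interval -/
theorem partition_cover (y : ℕ → ℝ) (n : ℕ) (hn : 0 < n) {t : ℝ} (ht : t ∈ Icc (y 0) (y n)) :
    ∃ k < n, t ∈ Icc (y k) (y (k + 1)) := by
  induction n with
  | zero => omega
  | succ n ih =>
    rcases Nat.eq_zero_or_pos n with h | h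
    · subst h
      exact ⟨0, by omega, ht⟩
    · rcases le_total t (y n) with h1 | h1
      · obtain ⟨k, hk, hk'⟩ := ih h ⟨ht.1, h1⟩
        exact ⟨k, by omega, hk'⟩
      · exact ⟨n, by omega, h1, ht.2⟩

theorem abs_sub_le_of_mem {x y t u : ℝ} (ht : t ∈ Icc x y) (hu : u ∈ Icc x y) : |t - u| ≤ y - x := by
  rw [abs_le]; constructor <;> linarith [ht.1, ht.2, hu.1, hu.2]

/-- small end intervals -/
theorem exists_tau {f : ℝ → ℝ} (hf : IntegrableOn f (Icc 0 1)) {η σ : ℝ} (hη : 0 < η)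
    (hσ : 0 < σ) (hσ1 : σ ≤ 1) :
    ∃ τ, 0 < τ ∧ τ ≤ σ ∧ ∫ t in Icc 0 τ, f t ≤ η ∧ ∫ t in Icc (1 - τ) 1, f t ≤ η := by
  have hu : uIcc (0:ℝ) 1 = Icc 0 1 := uIcc_of_le zero_le_one
  have h1 : ContinuousOn (fun x => ∫ t in (0:ℝ)..x, f t) (Icc 0 1) := by
    have := intervalIntegral.continuousOn_primitive_interval (a := (0:ℝ)) (b := 1) (μ := volume)
      (f := f) (by rwa [hu])
    rwa [hu] at this
  have h2 : ContinuousOn (fun x => ∫ t in x..(1:ℝ), f t) (Icc 0 1) := by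
    have := intervalIntegral.continuousOn_primitive_interval_left (a := (0:ℝ)) (b := 1)
      (μ := volume) (f := f) (by rwa [hu])
    rwa [hu] at this
  have e1 : ∀ᶠ x in 𝓝[Icc 0 1] (0:ℝ), ∫ t in (0:ℝ)..x, f t < η := by
    exact Filter.Tendsto.eventually_lt_const (by simpa using hη) (h1 0 ⟨le_refl _, zero_le_one⟩)
  have e2 : ∀ᶠ x in 𝓝[Icc 0 1] (1:ℝ), ∫ t in x..(1:ℝ), f t < η := by
    exact Filter.Tendsto.eventually_lt_const (by simpa using hη) (h2 1 ⟨zero_le_one, le_refl _⟩)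
  rw [eventually_nhdsWithin_iff, Metric.eventually_nhds_iff] at e1 e2
  obtain ⟨r1, hr1, H1⟩ := e1
  obtain ⟨r2, hr2, H2⟩ := e2
  refine ⟨min σ (min (r1 / 2) (r2 / 2)), by positivity, min_le_left _ _, ?_, ?_⟩
  · set τ := min σ (min (r1 / 2) (r2 / 2)) with hτ
    have hτ0 : 0 < τ := by positivity
    have hτσ : τ ≤ σ := min_le_left _ _
    have hτ1 : τ ≤ r1 / 2 := (min_le_right _ _).trans (min_le_left _ _)
    have := H1 (y := τ) (by rw [Real.dist_eq, sub_zero, abs_of_pos hτ0]; linarith)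
      ⟨hτ0.le, hτσ.trans hσ1⟩
    rw [intervalIntegral.integral_of_le hτ0.le, ← integral_Icc_eq_integral_Ioc] at this
    exact this.le
  · set τ := min σ (min (r1 / 2) (r2 / 2)) with hτ
    have hτ0 : 0 < τ := by positivity
    have hτσ : τ ≤ σ := min_le_left _ _
    have hτ1 : τ ≤ r2 / 2 := (min_le_right _ _).trans (min_le_right _ _)
    have := H2 (y := 1 - τ) (by
      rw [Real.dist_eq, show 1 - τ - 1 = -τ by ring, abs_neg, abs_of_pos hτ0]; linarith)
      ⟨by linarith, by linarith⟩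
    rw [intervalIntegral.integral_of_le (by linarith), ← integral_Icc_eq_integral_Ioc] at this
    exact this.le

/-- restriction of a finite length -/
theorem arc_le {q : ℝ → V} {a b α β : ℝ} (hq : ConicalOn q (Icc a b)) (haα : a ≤ α)
    (hαβ : α ≤ β) (hβb : β ≤ b) : arc q α β ≤ arc q a b := by
  unfold arc
  refine ENNReal.toReal_mono (conical_len_lt_top (haα.trans (hαβ.trans hβb)) hq).ne ?_
  exact eVariationOn.mono _ (Icc_subset_Icc haα hβb)

/-- the partition points -/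
theorem exists_partition {n : ℕ} (hn : 0 < n) {τ : ℝ} (hτ : 0 < τ) (hτn : τ * (4 * n) ≤ 1) :
    ∃ y : ℕ → ℝ, y 0 = τ ∧ y n = 1 - τ ∧ (∀ k < n, y k = max τ ((k:ℝ) / n)) ∧
      (∀ k < n, y (k + 1) = min ((k + 1 : ℝ) / n) (1 - τ)) ∧
      ∀ k < n, (k:ℝ) / n ≤ y k ∧ y (k + 1) ≤ (k + 1 : ℝ) / n ∧ 0 < y k ∧ y (k + 1) < 1 ∧
      1 / (2 * n) ≤ y (k + 1) - y k := by
  have hnpos : (0:ℝ) < n := by exact_mod_cast hn
  have hn1 : (1:ℝ) ≤ n := by exact_mod_cast hn
  have hτ4 : τ ≤ 1 / 4 := by nlinarith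
  set y : ℕ → ℝ := fun k => max τ (min ((k:ℝ) / n) (1 - τ)) with hy
  have hinv4 : 1 / (n:ℝ) ≥ 4 * τ := by
    rw [ge_iff_le, le_div_iff₀ hnpos]; linarith
  have hyl : ∀ k < n, y k = max τ ((k:ℝ) / n) := by
    intro k hk
    simp only [hy]
    congr 1
    apply min_eq_left
    have : (k:ℝ) + 1 ≤ n := by exact_mod_cast hk
    have h1 : (k:ℝ) / n ≤ 1 - 1 / n := by
      rw [div_le_iff₀ hnpos, sub_mul, one_mul, one_div, inv_mul_cancel₀ hnpos.ne']; linarith
    linarith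
  have hyr : ∀ k < n, y (k + 1) = min ((k + 1 : ℝ) / n) (1 - τ) := by
    intro k hk
    simp only [hy]
    push_cast
    apply max_eq_right
    refine le_min ?_ (by linarith)
    have h1 : 1 / (n:ℝ) ≤ (k + 1 : ℝ) / n := by
      gcongr
      have : (0:ℝ) ≤ k := by positivity
      linarith
    linarith
  refine ⟨y, ?_, ?_, hyl, hyr, ?_⟩
  · simp only [hy, Nat.cast_zero, zero_div]
    rw [min_eq_left (by linarith), max_eq_left hτ.le]
  · simp only [hy]
    rw [div_self hnpos.ne', min_eq_right (by linarith), max_eq_right (by linarith)]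
  · intro k hk
    have hk' : (k:ℝ) + 1 ≤ n := by exact_mod_cast hk
    have hkn : (k:ℝ) / n ≤ 1 - 1 / n := by
      rw [div_le_iff₀ hnpos, sub_mul, one_mul, one_div, inv_mul_cancel₀ hnpos.ne']; linarith
    have hkn' : 1 / (n:ℝ) ≤ (k + 1 : ℝ) / n := by
      gcongr
      have : (0:ℝ) ≤ k := by positivity
      linarith
    have hdiff : (k + 1 : ℝ) / n = (k:ℝ) / n + 1 / n := by ring
    have h2n : 1 / (2 * (n:ℝ)) = (1 / n) / 2 := by field_simp
    rw [hyl k hk, hyr k hk]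
    refine ⟨le_max_right _ _, min_le_left _ _, lt_max_of_lt_left hτ,
      (min_le_right _ _).trans_lt (by linarith), ?_⟩
    rw [h2n]
    rcases le_total τ ((k:ℝ) / n) with h1 | h1 <;> rcases le_total ((k + 1 : ℝ) / n) (1 - τ) with h2 | h2
    · rw [max_eq_right h1, min_eq_left h2]; linarith
    · rw [max_eq_right h1, min_eq_right h2]; linarith
    · rw [max_eq_left h1, min_eq_left h2]; linarith
    · rw [max_eq_left h1, min_eq_right h2]
      have : 1 / (n:ℝ) ≤ 1 := by rw [div_le_one hnpos]; exact hn1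
      linarith

/-- the reparametrisation -/
theorem exists_edge_rep {q : ℝ → V} {n : ℕ} {τ : ℝ} (hτ : 0 < τ) (hτ4 : τ ≤ 1 / 4)
    (hq : ConicalOn q (Icc 0 1)) (hinj : InjOn q (Icc 0 1)) {y : ℕ → ℝ} (hy0 : y 0 = τ)
    (hyn : y n = 1 - τ) (hylt : ∀ k < n, y k < y (k + 1))
    (hsub01 : ∀ k < n, Icc (y k) (y (k + 1)) ⊆ Icc (0:ℝ) 1)
    (hyt : ∀ k < n, Icc (y k) (y (k + 1)) ⊆ Icc τ (1 - τ)) :
    ∃ (ρ : ℕ → ℝ → ℝ) (r : ℝ → ℝ), (∀ k < n, IsRep (y k) (y (k + 1)) (ρ k) ∧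
      ∀ s t, y k ≤ s → s ≤ t → t ≤ y (k + 1) → len (q ∘ ρ k) (Icc s t) =
        ENNReal.ofReal (arc q (y k) (y (k + 1)) / (y (k + 1) - y k) * (t - s))) ∧
      IsRep 0 1 r ∧ EqOn r (fun t => t) (Icc 0 τ) ∧ EqOn r (fun t => t) (Icc (1 - τ) 1) ∧
      ∀ k < n, EqOn r (ρ k) (Icc (y k) (y (k + 1))) := by
  have hpieces : ∀ k : ℕ, ∃ ρ : ℝ → ℝ, k < n → IsRep (y k) (y (k + 1)) ρ ∧
      ∀ s t, y k ≤ s → s ≤ t → t ≤ y (k + 1) → len (q ∘ ρ) (Icc s t) =
        ENNReal.ofReal (arc q (y k) (y (k + 1)) / (y (k + 1) - y k) * (t - s)) := by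
    intro k
    by_cases hk : k < n
    · obtain ⟨ρ, h1, h2, h3, h4, h5, h6, h7⟩ := exists_const_speed (hylt k hk)
        (ConicalOn.icc_mono hq (hsub01 k hk)) (hinj.mono (hsub01 k hk))
      exact ⟨ρ, fun _ => ⟨⟨h2, h3, h4, h5, h6⟩, h7⟩⟩
    · exact ⟨fun t => t, fun h => absurd h hk⟩
  choose ρ hρ using hpieces
  obtain ⟨-, r₁, hr₁, hr₁k⟩ := exists_glue_rep y ρ n (fun k hk => (hylt k hk).le)
    (fun k hk => (hρ k hk).1)
  rw [hy0, hyn] at hr₁
  set r : ℝ → ℝ := fun t => if t ≤ τ then t else if t ≤ 1 - τ then r₁ t else t with hr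
  have hrA : EqOn r (fun t => t) (Icc 0 τ) := fun t ht => by simp only [hr, if_pos ht.2]
  have hrB : EqOn r r₁ (Icc τ (1 - τ)) := fun t ht => by
    simp only [hr]
    rcases ht.1.eq_or_lt with h | h
    · rw [if_pos h.symm.le, ← h, hr₁.left]
    · rw [if_neg (not_le.2 h), if_pos ht.2]
  have hrC : EqOn r (fun t => t) (Icc (1 - τ) 1) := fun t ht => by
    simp only [hr]
    rw [if_neg (not_le.2 (by linarith [ht.1]))]
    rcases ht.1.eq_or_lt with h | h
    · rw [if_pos h.symm.le, ← h, hr₁.right]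
    · rw [if_neg (not_le.2 h)]
  have hrep1 : IsRep 0 (1 - τ) r := IsRep.glue hτ.le (by linarith) (isRep_id 0 τ) hr₁ hrA hrB
  have hrep : IsRep 0 1 r := IsRep.glue (by linarith) (by linarith) hrep1 (isRep_id _ _)
    (fun t _ => rfl) hrC
  exact ⟨ρ, r, fun k hk => hρ k hk, hrep, hrA, hrC, fun k hk t ht => by
    rw [hrB (hyt k hk ht), hr₁k k hk ht]⟩

/-- replacing a curve on an interval -/
theorem lint_replace {p : ℝ} {D γ g : ℝ → V} {α β : ℝ} (hgγ : EqOn γ g (Icc α β)) :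
    ∫⁻ t in Icc α β, ENNReal.ofReal (euc (deriv γ t - D t) ^ p) =
      ∫⁻ t in Icc α β, ENNReal.ofReal (euc (deriv g t - D t) ^ p) := by
  rw [← restrict_Ioo_eq_restrict_Icc]
  refine setLIntegral_congr_fun measurableSet_Ioo fun t ht => ?_
  have : γ =ᶠ[𝓝 t] g := by
    filter_upwards [Ioo_mem_nhds ht.1 ht.2] with s hs
    exact hgγ (Ioo_subset_Icc_self hs)
  rw [this.deriv_eq]

/-- the estimate on an interval where the curve is just Lipschitz -/
theorem end_estimate {p : ℝ} (hp : 1 ≤ p) (hp2 : p ≤ 2) {D q : ℝ → V} {K : ℝ≥0}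
    (hK : LipschitzOnWith K q (Icc 0 1)) {α β η : ℝ} (hsub : Icc α β ⊆ Icc 0 1)
    (hfi : IntegrableOn (fun t => 2 * ((2 * (K:ℝ)) ^ p + euc (D t) ^ p)) (Icc 0 1))
    (hle : ∫ t in Icc α β, 2 * ((2 * (K:ℝ)) ^ p + euc (D t) ^ p) ≤ η) :
    ∫⁻ t in Icc α β, ENNReal.ofReal (euc (deriv q t - D t) ^ p) ≤ ENNReal.ofReal η := by
  have hp0 : 0 ≤ p := by linarith
  have hK0 : 0 ≤ (K:ℝ) := K.2
  rw [← restrict_Ioo_eq_restrict_Icc]
  calc ∫⁻ t in Ioo α β, ENNReal.ofReal (euc (deriv q t - D t) ^ p)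
      ≤ ∫⁻ t in Ioo α β, ENNReal.ofReal (2 * ((2 * (K:ℝ)) ^ p + euc (D t) ^ p)) := by
        refine setLIntegral_mono' measurableSet_Ioo fun t ht => ENNReal.ofReal_le_ofReal ?_
        have h1 : ‖deriv q t‖ ≤ K := by
          refine norm_deriv_le_of_lipschitzOn (s := Icc 0 1) ?_ hK
          exact Filter.mem_of_superset (Icc_mem_nhds ht.1 ht.2) hsub
        have h2 : euc (deriv q t - D t) ≤ 2 * K + euc (D t) := by
          calc euc (deriv q t - D t) = euc (deriv q t + (- D t)) := by rw [sub_eq_add_neg]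
            _ ≤ euc (deriv q t) + euc (- D t) := euc_add_le _ _
            _ = euc (deriv q t) + euc (D t) := by rw [euc_neg]
            _ ≤ _ := by
              have := euc_le (deriv q t)
              linarith
        have hD0 := euc_nonneg (D t)
        calc euc (deriv q t - D t) ^ p ≤ (2 * K + euc (D t)) ^ p :=
              Real.rpow_le_rpow (euc_nonneg _) h2 hp0
          _ ≤ 2 * ((2 * K) ^ p + euc (D t) ^ p) :=
              rpow_add_le_two (by positivity) hD0 hp hp2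
    _ = ∫⁻ t in Icc α β, ENNReal.ofReal (2 * ((2 * (K:ℝ)) ^ p + euc (D t) ^ p)) := by
        rw [restrict_Ioo_eq_restrict_Icc]
    _ = ENNReal.ofReal (∫ t in Icc α β, 2 * ((2 * (K:ℝ)) ^ p + euc (D t) ^ p)) :=
        (ofReal_integral_eq_lintegral_ofReal (hfi.mono_set hsub)
          (Eventually.of_forall fun t => by
            have hD0 := euc_nonneg (D t)
            simp only [Pi.zero_apply]
            positivity)).symm
    _ ≤ _ := ENNReal.ofReal_le_ofReal hle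

/-- integrals over unions -/
theorem integral_union_le' {f : ℝ → ℝ} (hf : IntegrableOn f (Icc 0 1)) (h0 : ∀ t, 0 ≤ f t)
    {A B : Set ℝ} (hA1 : A ⊆ Icc 0 1) (hB1 : B ⊆ Icc 0 1) :
    ∫ t in A ∪ B, f t ≤ (∫ t in A, f t) + ∫ t in B, f t := by
  have iA : Integrable f (volume.restrict A) :=
    Integrable.mono_measure hf (Measure.restrict_mono hA1 le_rfl)
  have iB : Integrable f (volume.restrict B) :=
    Integrable.mono_measure hf (Measure.restrict_mono hB1 le_rfl)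
  have hm : volume.restrict (A ∪ B) ≤ volume.restrict A + volume.restrict B :=
    Measure.restrict_union_le A B
  calc ∫ t in A ∪ B, f t ≤ ∫ t, f t ∂(volume.restrict A + volume.restrict B) :=
        integral_mono_measure hm (Eventually.of_forall h0) (Integrable.add_measure iA iB)
    _ = _ := integral_add_measure iA iB

/-- integral over a full piece against the middle piece -/
theorem integral_piece_le {f : ℝ → ℝ} (hf : IntegrableOn f (Icc 0 1)) (h0 : ∀ t, 0 ≤ f t)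
    {a b τ e : ℝ} (ha : 0 ≤ a) (hb : b ≤ 1) (hτ : 0 < τ) (hτ1 : τ ≤ 1)
    (h1 : ∫ t in Icc 0 τ, f t ≤ e) (h2 : ∫ t in Icc (1 - τ) 1, f t ≤ e) :
    ∫ t in Icc a b, f t ≤ (∫ t in Icc (max τ a) (min b (1 - τ)), f t) + (e + e) := by
  have hsubU : Icc a b ⊆ Icc (max τ a) (min b (1 - τ)) ∪ (Icc 0 τ ∪ Icc (1 - τ) 1) := by
    intro t ht
    rcases le_total t τ with h | h
    · exact Or.inr (Or.inl ⟨ha.trans ht.1, h⟩)
    rcases le_total (1 - τ) t with h' | h'
    · exact Or.inr (Or.inr ⟨h', ht.2.trans hb⟩)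
    · exact Or.inl ⟨max_le h ht.1, le_min ht.2 h'⟩
  have hs1 : Icc (max τ a) (min b (1 - τ)) ⊆ Icc (0:ℝ) 1 :=
    Icc_subset_Icc (hτ.le.trans (le_max_left _ _)) ((min_le_left _ _).trans hb)
  have hs2 : Icc (0:ℝ) τ ⊆ Icc (0:ℝ) 1 := Icc_subset_Icc le_rfl hτ1
  have hs3 : Icc (1 - τ) 1 ⊆ Icc (0:ℝ) 1 := Icc_subset_Icc (by linarith) le_rfl
  have c1 : ∫ t in Icc a b, f t ≤
      ∫ t in Icc (max τ a) (min b (1 - τ)) ∪ (Icc 0 τ ∪ Icc (1 - τ) 1), f t :=
    setIntegral_mono_set (hf.mono_set (union_subset hs1 (union_subset hs2 hs3)))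
      (Eventually.of_forall h0) (LE.le.eventuallyLE hsubU)
  have c2 := integral_union_le' hf h0 hs1 (union_subset hs2 hs3)
  have c3 := integral_union_le' hf h0 hs2 hs3
  linarith

/-- the last term of the middle estimate -/
theorem last_term {p e J : ℝ} {n : ℕ} (hp : 1 ≤ p) (hn : 0 < n) (he : 0 ≤ e)
    (hJ : 1 / (2 * n) ≤ J) (he1 : 8 * n * e ≤ 1) : (4 * e / J) ^ p ≤ 8 * n * e := by
  have hnpos : (0:ℝ) < n := by exact_mod_cast hn
  have hJ0 : 0 < J := lt_of_lt_of_le (by positivity) hJ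
  have h1 : 4 * e / J ≤ 8 * n * e := by
    rw [div_le_iff₀ hJ0]
    have h2 : 1 ≤ J * (2 * n) := (div_le_iff₀ (by positivity : (0:ℝ) < 2 * n)).1 hJ
    have h3 := mul_le_mul_of_nonneg_left h2 (by positivity : 0 ≤ 4 * e)
    calc 4 * e = 4 * e * 1 := by ring
      _ ≤ 4 * e * (J * (2 * n)) := h3
      _ = _ := by ring
  have h0 : 0 ≤ 4 * e / J := by positivity
  rcases h0.eq_or_lt with h | h
  · rw [← h, Real.zero_rpow (by linarith)]; positivity
  calc (4 * e / J) ^ p ≤ (4 * e / J) ^ (1:ℝ) :=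
        Real.rpow_le_rpow_of_exponent_ge h (h1.trans he1) hp
    _ = 4 * e / J := Real.rpow_one _
    _ ≤ _ := h1

/-- sum over a finite union -/
theorem lintegral_biUnion_range_le (f : ℝ → ℝ≥0∞) (n : ℕ) (A : ℕ → Set ℝ) :
    ∫⁻ t in ⋃ k ∈ Finset.range n, A k, f t ≤ ∑ k ∈ Finset.range n, ∫⁻ t in A k, f t := by
  have : ∀ s : Finset ℕ, ∫⁻ t in ⋃ k ∈ s, A k, f t ≤ ∑ k ∈ s, ∫⁻ t in A k, f t := by
    intro s
    induction s using Finset.induction_on with
    | empty => simp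
    | insert a s ha ih =>
      rw [Finset.set_biUnion_insert, Finset.sum_insert ha]
      exact (lintegral_union_le _ _ _).trans (add_le_add le_rfl ih)
  exact this _

end P073.Net
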