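import Vale.Agent.P073.Net.NH2e

/-!
# P073, block NET, NH2: reparametrisation of one edge, the estimate
-/

open Set Metric Topology MeasureTheory Filter
open scoped ENNReal NNReal

namespace P073.Net

open Vale.Agent.P073.St (V euc IsHomeo)

/-- the form of `piece_estimate` -/
def PieceBd (p θ C : ℝ) : Prop :=
  ∀ (g D : ℝ → V) (α β S e : ℝ) (c : V), α < β → 0 < S → 0 ≤ e →
      ConicalOn g (Icc α β) →
      (∀ s t, α ≤ s → s ≤ t → t ≤ β → len g (Icc s t) = ENNReal.ofReal (S * (t - s))) →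
      IntegrableOn D (Icc α β) → IntegrableOn (fun t => euc (D t) ^ p) (Icc α β) →
      S * (β - α) ≤ (∫ t in Icc α β, euc (D t)) + e →
      euc (g β - g α - ∫ t in Icc α β, D t) ≤ e →
      ∫⁻ t in Icc α β, ENNReal.ofReal (euc (deriv g t - D t) ^ p) ≤
        ENNReal.ofReal (θ * (∫ t in Icc α β, euc (D t) ^ p) +
          C * (∫ t in Icc α β, euc (D t - c) ^ p) + C * ((β - α) * (e / (β - α)) ^ p))

/-- the middle pieces -/
theorem mid_estimate {p θ C : ℝ} (hp : 1 ≤ p) (hp2 : p ≤ 2) (hC0 : 0 < C) (hC : PieceBd p θ C)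
    {D q F : ℝ → V} {e : ℝ}
    (hq : ConicalOn q (Icc 0 1)) (hinj : InjOn q (Icc 0 1))
    (hD : IntegrableOn D (Icc 0 1)) (hDp : IntegrableOn (fun t => euc (D t) ^ p) (Icc 0 1))
    (hF : ∀ s t, 0 ≤ s → s ≤ t → t ≤ 1 → F t - F s = ∫ u in Icc s t, D u)
    (he : 0 < e) (hclose : ∀ t ∈ Icc (0:ℝ) 1, ‖q t - F t‖ ≤ e)
    {a b α β M : ℝ} (ha : 0 ≤ a) (hb : b ≤ 1) (haα : a ≤ α) (hαβ : α < β) (hβb : β ≤ b)
    {ρ : ℝ → ℝ} (hρ : IsRep α β ρ)
    (hsp : ∀ s t, α ≤ s → s ≤ t → t ≤ β → len (q ∘ ρ) (Icc s t) =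
        ENNReal.ofReal (arc q α β / (β - α) * (t - s)))
    (hlen : len q (Icc a b) ≤ ENNReal.ofReal ((∫ t in Icc a b, euc (D t)) + e))
    (hI : ∫ t in Icc a b, euc (D t) ≤ (∫ t in Icc α β, euc (D t)) + (e + e)) (c : V)
    (hM : (4 * e / (β - α)) ^ p ≤ M) :
    ∫⁻ t in Icc α β, ENNReal.ofReal (euc (deriv (q ∘ ρ) t - D t) ^ p) ≤
        ENNReal.ofReal (θ * (∫ t in Icc α β, euc (D t) ^ p) +
          C * (∫ t in Icc a b, euc (D t - c) ^ p) + C * ((β - α) * M)) := by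
  have hsab : Icc a b ⊆ Icc (0:ℝ) 1 := Icc_subset_Icc ha hb
  have hss : Icc α β ⊆ Icc a b := Icc_subset_Icc haα hβb
  have hs01 : Icc α β ⊆ Icc (0:ℝ) 1 := hss.trans hsab
  have hαm : α ∈ Icc (0:ℝ) 1 := hs01 ⟨le_refl _, hαβ.le⟩
  have hβm : β ∈ Icc (0:ℝ) 1 := hs01 ⟨hαβ.le, le_refl _⟩
  have hJ0 : 0 < β - α := by linarith
  have harc0 : 0 < arc q α β := arc_pos hq hinj hαm.1 hαβ hβm.2
  have hgcon : ConicalOn (q ∘ ρ) (Icc α β) :=
    ConicalOn.comp (ConicalOn.icc_mono hq hs01) hρ.con hρ.mapsTo hρ.cont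
  have hS1 : arc q α β ≤ (∫ t in Icc α β, euc (D t)) + 4 * e := by
    have c1 : arc q α β ≤ arc q a b := arc_le (ConicalOn.icc_mono hq hsab) haα hαβ.le hβb
    have c2 : arc q a b ≤ (∫ t in Icc a b, euc (D t)) + e := by
      unfold arc
      refine ENNReal.toReal_le_of_le_ofReal ?_ hlen
      have : 0 ≤ ∫ t in Icc a b, euc (D t) := integral_nonneg fun t => euc_nonneg _
      linarith
    linarith
  have hS2 : arc q α β / (β - α) * (β - α) ≤ (∫ t in Icc α β, euc (D t)) + 4 * e := by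
    rw [div_mul_cancel₀ _ hJ0.ne']; exact hS1
  have hinc : euc ((q ∘ ρ) β - (q ∘ ρ) α - ∫ t in Icc α β, D t) ≤ 4 * e := by
    simp only [Function.comp]
    rw [hρ.right, hρ.left, ← hF α β hαm.1 hαβ.le hβm.2]
    have : q β - q α - (F β - F α) = (q β - F β) - (q α - F α) := by abel
    rw [this]
    refine (euc_le _).trans ?_
    have d1 := hclose β hβm
    have d2 := hclose α hαm
    have d3 := norm_sub_le (q β - F β) (q α - F α)
    linarith
  have hmain := hC (q ∘ ρ) D α β (arc q α β / (β - α)) (4 * e) c hαβ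
    (div_pos harc0 hJ0) (by linarith) hgcon hsp (hD.mono_set hs01) (hDp.mono_set hs01) hS2 hinc
  refine hmain.trans (ENNReal.ofReal_le_ofReal ?_)
  have g1 : ∫ t in Icc α β, euc (D t - c) ^ p ≤ ∫ t in Icc a b, euc (D t - c) ^ p := by
    refine setIntegral_mono_set (integrableOn_euc_sub_rpow hp hp2
      (hD.mono_set hsab) (hDp.mono_set hsab) c)
      (Eventually.of_forall fun t => ?_) (LE.le.eventuallyLE hss)
    have := euc_nonneg (D t - c)
    simp only [Pi.zero_apply]; positivity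
  have g3 := mul_le_mul_of_nonneg_left g1 hC0.le
  have g4 := mul_le_mul_of_nonneg_left (mul_le_mul_of_nonneg_left hM hJ0.le) hC0.le
  linarith

/-- the final summation -/
theorem final_sum {p θ C ε δ M τ : ℝ} {n : ℕ} {P Q : ℕ → ℝ} {y : ℕ → ℝ} {D γ : ℝ → V} {I : ℝ}
    (hC0 : 0 < C) (hθ : 0 ≤ θ) (hε : 0 < ε) (hM0 : 0 ≤ M)
    (hcov : Icc (0:ℝ) 1 ⊆ (Icc 0 τ ∪ Icc (1 - τ) 1) ∪
        ⋃ k ∈ Finset.range n, Icc (y k) (y (k + 1)))
    (hE1 : ∫⁻ t in Icc 0 τ, ENNReal.ofReal (euc (deriv γ t - D t) ^ p) ≤ ENNReal.ofReal (ε / 8))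
    (hE2 : ∫⁻ t in Icc (1 - τ) 1, ENNReal.ofReal (euc (deriv γ t - D t) ^ p) ≤
      ENNReal.ofReal (ε / 8))
    (hmid : ∀ k ∈ Finset.range n,
        ∫⁻ t in Icc (y k) (y (k + 1)), ENNReal.ofReal (euc (deriv γ t - D t) ^ p) ≤
        ENNReal.ofReal (θ * P k + C * Q k + C * ((y (k + 1) - y k) * M)))
    (hP0 : ∀ k ∈ Finset.range n, 0 ≤ P k) (hQ0 : ∀ k ∈ Finset.range n, 0 ≤ Q k)
    (hy0 : ∀ k ∈ Finset.range n, 0 ≤ y (k + 1) - y k)
    (hPsum : ∑ k ∈ Finset.range n, P k ≤ I) (hQsum : ∑ k ∈ Finset.range n, Q k ≤ δ)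
    (hJsum : ∑ k ∈ Finset.range n, (y (k + 1) - y k) ≤ 1)
    (hθε : θ * I ≤ ε / 8) (hδε : C * δ ≤ ε / 8) (hMε : C * M ≤ ε / 8) :
    ∫⁻ t in Icc (0:ℝ) 1, ENNReal.ofReal (euc (deriv γ t - D t) ^ p) ≤ ENNReal.ofReal ε := by
  have hnn : ∀ k ∈ Finset.range n, 0 ≤ θ * P k + C * Q k + C * ((y (k + 1) - y k) * M) := by
    intro k hk
    have h1 := mul_nonneg hθ (hP0 k hk)
    have h2 := mul_nonneg hC0.le (hQ0 k hk)
    have h3 := mul_nonneg hC0.le (mul_nonneg (hy0 k hk) hM0)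
    linarith
  have hfin : (ε / 8 + ε / 8) +
      ∑ k ∈ Finset.range n, (θ * P k + C * Q k + C * ((y (k + 1) - y k) * M)) ≤ ε := by
    rw [Finset.sum_add_distrib, Finset.sum_add_distrib, ← Finset.mul_sum, ← Finset.mul_sum,
      ← Finset.mul_sum, ← Finset.sum_mul]
    have m1 := mul_le_mul_of_nonneg_left hPsum hθ
    have m2 := mul_le_mul_of_nonneg_left hQsum hC0.le
    have m3 : C * ((∑ k ∈ Finset.range n, (y (k + 1) - y k)) * M) ≤ C * (1 * M) :=
      mul_le_mul_of_nonneg_left (mul_le_mul_of_nonneg_right hJsum hM0) hC0.le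
    rw [one_mul] at m3
    linarith
  calc ∫⁻ t in Icc (0:ℝ) 1, ENNReal.ofReal (euc (deriv γ t - D t) ^ p)
      ≤ ∫⁻ t in (Icc 0 τ ∪ Icc (1 - τ) 1) ∪ ⋃ k ∈ Finset.range n, Icc (y k) (y (k + 1)),
          ENNReal.ofReal (euc (deriv γ t - D t) ^ p) := lintegral_mono_set hcov
    _ ≤ (∫⁻ t in Icc 0 τ ∪ Icc (1 - τ) 1, ENNReal.ofReal (euc (deriv γ t - D t) ^ p)) +
        ∫⁻ t in ⋃ k ∈ Finset.range n, Icc (y k) (y (k + 1)),
          ENNReal.ofReal (euc (deriv γ t - D t) ^ p) := lintegral_union_le _ _ _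
    _ ≤ ((∫⁻ t in Icc 0 τ, ENNReal.ofReal (euc (deriv γ t - D t) ^ p)) +
        ∫⁻ t in Icc (1 - τ) 1, ENNReal.ofReal (euc (deriv γ t - D t) ^ p)) +
        ∑ k ∈ Finset.range n, ∫⁻ t in Icc (y k) (y (k + 1)),
          ENNReal.ofReal (euc (deriv γ t - D t) ^ p) :=
        add_le_add (lintegral_union_le _ _ _) (lintegral_biUnion_range_le _ n _)
    _ ≤ (ENNReal.ofReal (ε / 8) + ENNReal.ofReal (ε / 8)) +
        ∑ k ∈ Finset.range n, ENNReal.ofReal (θ * P k + C * Q k + C * ((y (k + 1) - y k) * M)) :=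
        add_le_add (add_le_add hE1 hE2) (Finset.sum_le_sum hmid)
    _ = ENNReal.ofReal ((ε / 8 + ε / 8) +
        ∑ k ∈ Finset.range n, (θ * P k + C * Q k + C * ((y (k + 1) - y k) * M))) := by
        rw [ENNReal.ofReal_add (by linarith) (Finset.sum_nonneg hnn),
          ENNReal.ofReal_add (by linarith) (by linarith), ENNReal.ofReal_sum_of_nonneg hnn]
    _ ≤ ENNReal.ofReal ε := ENNReal.ofReal_le_ofReal hfin

/-- **reparametrisation of one edge** -/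
theorem edge_rep {p : ℝ} (hp : 1 ≤ p) (hp2 : p ≤ 2) {D q F : ℝ → V} {n : ℕ} (hn : 0 < n)
    {θ C e δ ε : ℝ} (hC0 : 0 < C) (hC : PieceBd p θ C)
    (hq : ConicalOn q (Icc 0 1)) (hinj : InjOn q (Icc 0 1))
    (hD : IntegrableOn D (Icc 0 1)) (hDp : IntegrableOn (fun t => euc (D t) ^ p) (Icc 0 1))
    (hF : ∀ s t, 0 ≤ s → s ≤ t → t ≤ 1 → F t - F s = ∫ u in Icc s t, D u)
    (he : 0 < e) (hclose : ∀ t ∈ Icc (0:ℝ) 1, ‖q t - F t‖ ≤ e)
    (hlen : ∀ k < n, len q (Icc ((k:ℝ) / n) ((k + 1 : ℝ) / n)) ≤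
      ENNReal.ofReal ((∫ t in Icc ((k:ℝ) / n) ((k + 1 : ℝ) / n), euc (D t)) + e))
    (c : ℕ → V) (hstep : ∑ k ∈ Finset.range n,
      ∫ t in Icc ((k:ℝ) / n) ((k + 1 : ℝ) / n), euc (D t - c k) ^ p ≤ δ)
    (hθ : 0 ≤ θ) (hε : 0 < ε) (hθε : θ * (∫ t in Icc (0:ℝ) 1, euc (D t) ^ p) ≤ ε / 8)
    (hδε : C * δ ≤ ε / 8) (he1 : 8 * n * e ≤ 1) (heε : C * (8 * n * e) ≤ ε / 8) :
    ∃ τ > 0, ∃ r : ℝ → ℝ, IsRep 0 1 r ∧
      (∀ t ∈ Icc (0:ℝ) 1, (t ≤ τ ∨ 1 - τ ≤ t) → r t = t) ∧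
      (∀ t ∈ Icc (0:ℝ) 1, |r t - t| ≤ 1 / n) ∧
      ∀ γ : ℝ → V, EqOn γ (q ∘ r) (Icc 0 1) →
        ∫⁻ t in Icc (0:ℝ) 1, ENNReal.ofReal (euc (deriv γ t - D t) ^ p) ≤ ENNReal.ofReal ε := by
  have hp0 : 0 ≤ p := by linarith
  have hnpos : (0:ℝ) < n := by exact_mod_cast hn
  have hn1 : (1:ℝ) ≤ n := by exact_mod_cast hn
  obtain ⟨K, hK⟩ := conical_lipschitz zero_le_one hq
  -- the end intervals
  set f1 : ℝ → ℝ := fun t => 2 * ((2 * (K:ℝ)) ^ p + euc (D t) ^ p) with hf1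
  set f2 : ℝ → ℝ := fun t => euc (D t) with hf2
  have hf1i : IntegrableOn f1 (Icc 0 1) := ((integrable_const _).add hDp).const_mul 2
  have hf2i : IntegrableOn f2 (Icc 0 1) := integrable_euc hD
  have hf1n : ∀ t, 0 ≤ f1 t := fun t => by
    have := euc_nonneg (D t)
    have : 0 ≤ (K:ℝ) := K.2
    simp only [hf1]; positivity
  have hf2n : ∀ t, 0 ≤ f2 t := fun t => euc_nonneg (D t)
  obtain ⟨τ, hτ, hτσ, hτ1, hτ2⟩ := exists_tau (f := fun t => f1 t + f2 t) (hf1i.add hf2i)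
    (η := min (ε / 8) e) (σ := 1 / (4 * n))
    (lt_min (by linarith) he) (by positivity) (by
      rw [div_le_one (by positivity)]; linarith)
  have hτn : τ * (4 * n) ≤ 1 := (le_div_iff₀ (by positivity : (0:ℝ) < 4 * n)).1 hτσ
  have hτ4 : τ ≤ 1 / 4 := by nlinarith
  have hm1 : ∀ s : Set ℝ, s ⊆ Icc 0 1 → ∫ t in s, f1 t ≤ ∫ t in s, (f1 t + f2 t) := by
    intro s hs
    exact integral_mono (Integrable.mono_measure hf1i (Measure.restrict_mono hs le_rfl))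
      (Integrable.mono_measure (hf1i.add hf2i) (Measure.restrict_mono hs le_rfl))
      fun t => by have := hf2n t; show f1 t ≤ f1 t + f2 t; linarith
  have hm2 : ∀ s : Set ℝ, s ⊆ Icc 0 1 → ∫ t in s, f2 t ≤ ∫ t in s, (f1 t + f2 t) := by
    intro s hs
    exact integral_mono (Integrable.mono_measure hf2i (Measure.restrict_mono hs le_rfl))
      (Integrable.mono_measure (hf1i.add hf2i) (Measure.restrict_mono hs le_rfl))
      fun t => by have := hf1n t; show f2 t ≤ f1 t + f2 t; linarith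
  have hsA : Icc (0:ℝ) τ ⊆ Icc (0:ℝ) 1 := Icc_subset_Icc le_rfl (by linarith)
  have hsB : Icc (1 - τ) 1 ⊆ Icc (0:ℝ) 1 := Icc_subset_Icc (by linarith) le_rfl
  obtain ⟨y, hy0, hyn, hyl, hyr, hyk⟩ := exists_partition hn hτ hτn
  have h2n0 : 0 < 1 / (2 * (n:ℝ)) := by positivity
  have hylt : ∀ k < n, y k < y (k + 1) := fun k hk => by linarith [(hyk k hk).2.2.2.2]
  have hsub01 : ∀ k < n, Icc (y k) (y (k + 1)) ⊆ Icc (0:ℝ) 1 := fun k hk =>
    Icc_subset_Icc (hyk k hk).2.2.1.le (hyk k hk).2.2.2.1.le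
  have hsubk : ∀ k < n, Icc (y k) (y (k + 1)) ⊆ Icc ((k:ℝ) / n) ((k + 1 : ℝ) / n) := fun k hk =>
    Icc_subset_Icc (hyk k hk).1 (hyk k hk).2.1
  have hyt : ∀ k < n, Icc (y k) (y (k + 1)) ⊆ Icc τ (1 - τ) := fun k hk =>
    Icc_subset_Icc (by rw [hyl k hk]; exact le_max_left _ _)
      (by rw [hyr k hk]; exact min_le_right _ _)
  obtain ⟨ρ, r, hρ, hrep, hrA, hrC, hrk⟩ := exists_edge_rep hτ hτ4 hq hinj hy0 hyn hylt hsub01 hyt
  refine ⟨τ, hτ, r, hrep, ?_, ?_, ?_⟩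
  · rintro t ht (h | h)
    · exact hrA ⟨ht.1, h⟩
    · exact hrC ⟨h, ht.2⟩
  · intro t ht
    rcases le_total t τ with h | h
    · rw [hrA ⟨ht.1, h⟩]; simp
    rcases le_total (1 - τ) t with h' | h'
    · rw [hrC ⟨h', ht.2⟩]; simp
    obtain ⟨k, hk, hkt⟩ := partition_cover y n hn (t := t) (by rw [hy0, hyn]; exact ⟨h, h'⟩)
    rw [hrk k hk hkt]
    have h1 := (hρ k hk).1.mapsTo hkt
    refine (abs_sub_le_of_mem (hsubk k hk h1) (hsubk k hk hkt)).trans (le_of_eq ?_)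
    ring
  · intro γ hγ
    have hcov : Icc (0:ℝ) 1 ⊆ (Icc 0 τ ∪ Icc (1 - τ) 1) ∪
        ⋃ k ∈ Finset.range n, Icc (y k) (y (k + 1)) := by
      intro t ht
      rcases le_total t τ with h | h
      · exact Or.inl (Or.inl ⟨ht.1, h⟩)
      rcases le_total (1 - τ) t with h' | h'
      · exact Or.inl (Or.inr ⟨h', ht.2⟩)
      obtain ⟨k, hk, hkt⟩ := partition_cover y n hn (t := t) (by rw [hy0, hyn]; exact ⟨h, h'⟩)
      exact Or.inr (mem_iUnion₂.2 ⟨k, Finset.mem_range.2 hk, hkt⟩)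
    have hE1 : ∫⁻ t in Icc 0 τ, ENNReal.ofReal (euc (deriv γ t - D t) ^ p) ≤
        ENNReal.ofReal (ε / 8) := by
      rw [lint_replace (g := q) fun t ht => by
        rw [hγ ⟨ht.1, by linarith [ht.2]⟩]; simp only [Function.comp]; rw [hrA ht]]
      exact end_estimate hp hp2 hK hsA hf1i ((hm1 _ hsA).trans (hτ1.trans (min_le_left _ _)))
    have hE2 : ∫⁻ t in Icc (1 - τ) 1, ENNReal.ofReal (euc (deriv γ t - D t) ^ p) ≤
        ENNReal.ofReal (ε / 8) := by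
      rw [lint_replace (g := q) fun t ht => by
        rw [hγ ⟨by linarith [ht.1], ht.2⟩]; simp only [Function.comp]; rw [hrC ht]]
      exact end_estimate hp hp2 hK hsB hf1i ((hm1 _ hsB).trans (hτ2.trans (min_le_left _ _)))
    have hmid : ∀ k ∈ Finset.range n,
        ∫⁻ t in Icc (y k) (y (k + 1)), ENNReal.ofReal (euc (deriv γ t - D t) ^ p) ≤
        ENNReal.ofReal (θ * (∫ t in Icc (y k) (y (k + 1)), euc (D t) ^ p) +
          C * (∫ t in Icc ((k:ℝ) / n) ((k + 1 : ℝ) / n), euc (D t - c k) ^ p) +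
          C * ((y (k + 1) - y k) * (8 * n * e))) := by
      intro k hk
      rw [Finset.mem_range] at hk
      obtain ⟨b1, b2, b3, b4, b5⟩ := hyk k hk
      have ha : (0:ℝ) ≤ (k:ℝ) / n := by positivity
      have hb : (k + 1 : ℝ) / n ≤ 1 := by rw [div_le_one hnpos]; exact_mod_cast hk
      rw [lint_replace (g := q ∘ ρ k) fun t ht => by
        rw [hγ (hsub01 k hk ht)]; simp only [Function.comp]; rw [hrk k hk ht]]
      have hI := integral_piece_le hf2i hf2n ha hb hτ (by linarith)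
        ((hm2 _ hsA).trans (hτ1.trans (min_le_right _ _)))
        ((hm2 _ hsB).trans (hτ2.trans (min_le_right _ _)))
      rw [← hyl k hk, ← hyr k hk] at hI
      exact mid_estimate hp hp2 hC0 hC hq hinj hD hDp hF he hclose ha hb b1 (hylt k hk) b2
        (hρ k hk).1 (hρ k hk).2 (hlen k hk) hI (c k) (last_term hp hn he.le b5 he1)
    have hPsum : ∑ k ∈ Finset.range n, ∫ t in Icc (y k) (y (k + 1)), euc (D t) ^ p ≤
        ∫ t in Icc (0:ℝ) 1, euc (D t) ^ p := by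
      have e1 : ∀ k ∈ Finset.range n, ∫ t in Icc (y k) (y (k + 1)), euc (D t) ^ p =
          ∫ t in y k..y (k + 1), euc (D t) ^ p := by
        intro k hk
        rw [intervalIntegral.integral_of_le (hylt k (Finset.mem_range.1 hk)).le,
          integral_Icc_eq_integral_Ioc]
      rw [Finset.sum_congr rfl e1, intervalIntegral.sum_integral_adjacent_intervals, hy0, hyn,
        intervalIntegral.integral_of_le (by linarith), ← integral_Icc_eq_integral_Ioc]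
      · refine setIntegral_mono_set hDp (Eventually.of_forall fun t => ?_)
          (LE.le.eventuallyLE (Icc_subset_Icc hτ.le (by linarith)))
        have := euc_nonneg (D t)
        simp only [Pi.zero_apply]; positivity
      · intro k hk
        rw [intervalIntegrable_iff_integrableOn_Icc_of_le (hylt k hk).le]
        exact hDp.mono_set (hsub01 k hk)
    have hJsum : ∑ k ∈ Finset.range n, (y (k + 1) - y k) ≤ 1 := by
      rw [Finset.sum_range_sub, hy0, hyn]; linarith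
    exact final_sum hC0 hθ hε (by positivity) hcov hE1 hE2 hmid
      (fun k _ => integral_nonneg fun t => by
        have := euc_nonneg (D t); simp only [Pi.zero_apply]; positivity)
      (fun k _ => integral_nonneg fun t => by
        have := euc_nonneg (D t - c k); simp only [Pi.zero_apply]; positivity)
      (fun k hk => by linarith [hylt k (Finset.mem_range.1 hk)]) hPsum hstep hJsum hθε hδε heε

end P073.Net
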