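import Vale.Agent.P073.Net.NG1
import Vale.Agent.P073.Net.NearDefs

/-!
# P073, block NET with closeness: moving the crossings, tile by tile (NG1)

The proof is that of `specNG1`; the only new conclusion is that the new map is in the same tiles as
the old one, at every point.
-/

open Set Metric Topology MeasureTheory Filter
open scoped ENNReal NNReal

namespace P073.Net

open Vale.Agent.P073.St (V euc IsHomeo IsInv)
open ND1 (dyo_sub_dyc isClosed_dyc)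
open NG1

/-- (NG1) with the same tiles -/
def SpecNG1N : Prop :=
  ∀ (Ω Λ : Set V) (f : V → V) (G : Graph Ω), IsOpen Ω → IsOpen Λ → IsHomeo Ω Λ f →
    ∀ (ρ : V → ℝ) (v : V), SizeFn Λ ρ → (∀ i, GenPos (fun t => f (G.e i t)) ρ v) →
    ∀ h₀ : ConHomeo Ω Λ, SameCode G f h₀.toFun ρ v →
    ∀ Q : Set (G.ι × ℝ),
    (∀ q ∈ Q, ∃ k m z m' z', Crosses (fun t => f (G.e q.1 t)) ρ v q.2 k m z m' z') →
    (∀ q ∈ Q, ∀ q' ∈ Q, ∀ m z m' z', IsTile ρ v m z → IsTile ρ v m' z' → (m, z) ≠ (m', z') →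
      f (G.e q.1 q.2) ∈ dyc v m z → f (G.e q.1 q.2) ∈ dyc v m' z' →
      f (G.e q'.1 q'.2) ∈ dyc v m z → f (G.e q'.1 q'.2) ∈ dyc v m' z' → q = q') →
    ∃ h₁ : ConHomeo Ω Λ, SameCode G f h₁.toFun ρ v ∧
      (∀ q ∈ Q, h₁.toFun (G.e q.1 q.2) = f (G.e q.1 q.2)) ∧
      ∀ x, ∀ m z, IsTile ρ v m z → (h₁.toFun x ∈ dyc v m z ↔ h₀.toFun x ∈ dyc v m z)

/-- **NG1** -/
theorem specNG1N (hT2 : SpecT2) : SpecNG1N := by
  intro Ω Λ f G hΩ hΛ hf ρ v hρ hgen h₀ hcode Q hQ hpair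
  obtain ⟨htsub, _, hdis, _, htfin⟩ := specNC Λ ρ hρ v
  -- the data of the crossings
  have key : ∀ q : Q, ∃ (m : ℕ) (z : Fin 3 → ℤ) (m' : ℕ) (z' : Fin 3 → ℤ) (ν : ℝ)
      (Θ : ConHomeo (univ : Set V) (univ : Set V)),
      IsTile ρ v m z ∧ IsTile ρ v m' z' ∧ (m, z) ≠ (m', z') ∧ q.1.2 ∈ Ioo (0:ℝ) 1 ∧
      h₀.toFun (G.e q.1.1 q.1.2) ∈ dyc v m z ∧ h₀.toFun (G.e q.1.1 q.1.2) ∈ dyc v m' z' ∧
      f (G.e q.1.1 q.1.2) ∈ dyc v m z ∧ f (G.e q.1.1 q.1.2) ∈ dyc v m' z' ∧ 0 < ν ∧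
      (∀ x ∈ bx (h₀.toFun (G.e q.1.1 q.1.2)) (f (G.e q.1.1 q.1.2)) (2 * ν), ∀ m₁ z₁,
        IsTile ρ v m₁ z₁ → x ∈ dyc v m₁ z₁ → (m₁, z₁) = (m, z) ∨ (m₁, z₁) = (m', z')) ∧
      (∀ x ∈ bx (h₀.toFun (G.e q.1.1 q.1.2)) (f (G.e q.1.1 q.1.2)) (2 * ν),
        x ∈ dyc v m z ∨ x ∈ dyc v m' z') ∧
      (∀ x, x ∉ bx (h₀.toFun (G.e q.1.1 q.1.2)) (f (G.e q.1.1 q.1.2)) ν → Θ.toFun x = x) ∧
      Θ.toFun (h₀.toFun (G.e q.1.1 q.1.2)) = f (G.e q.1.1 q.1.2) ∧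
      ∀ x, ∀ m₁ z₁, IsTile ρ v m₁ z₁ → (Θ.toFun x ∈ dyc v m₁ z₁ ↔ x ∈ dyc v m₁ z₁) := by
    intro q
    obtain ⟨k, m, z, m', z', h1, h2, h3, h4, h5, h6, h7, h8, h9⟩ := crosses_normal (hQ q.1 q.2)
    have ht := Ioo_subset_Icc_self h4
    have hp := (hcode q.1.1 q.1.2 ht m z h1).2 h5
    have hp' := (hcode q.1.1 q.1.2 ht m' z' h2).2 h6
    obtain ⟨ν, hν, a1, a2, Θ, b1, b2, b3⟩ := exists_move hT2 hρ h1 h2 h3 hp hp' h5 h6
      (fun m₁ z₁ h h' => h7 m₁ z₁ h ((hcode q.1.1 q.1.2 ht m₁ z₁ h).1 h')) h7 h8 h9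
    exact ⟨m, z, m', z', ν, Θ, h1, h2, h3, h4, hp, hp', h5, h6, hν, a1, a2, b1, b2, b3⟩
  choose m z m' z' ν Θ h1 h2 h3 h4 hp hp' hg hg' hν a1 a2 b1 b2 b3 using key
  set K : Q → Set V := fun q =>
    bx (h₀.toFun (G.e q.1.1 q.1.2)) (f (G.e q.1.1 q.1.2)) (ν q) with hK
  have hK2 : ∀ q : Q, K q ⊆ bx (h₀.toFun (G.e q.1.1 q.1.2)) (f (G.e q.1.1 q.1.2)) (2 * ν q) :=
    fun q => bx_mono (by linarith [hν q])
  have hKcov : ∀ q x, x ∈ K q → x ∈ dyc v (m q) (z q) ∨ x ∈ dyc v (m' q) (z' q) :=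
    fun q x hx => a2 q x (hK2 q hx)
  have hKsub : ∀ q, K q ⊆ Λ := fun q x hx => by
    rcases hKcov q x hx with h | h
    · exact htsub _ _ (h1 q) h
    · exact htsub _ _ (h2 q) h
  -- two boxes do not meet
  have hone : ∀ q q' : Q, ν q' ≤ ν q → ∀ x, x ∈ K q → x ∈ K q' → q = q' := by
    intro q q' hle x hx hx'
    obtain ⟨y, hy, hy'⟩ := exists_near (hν q').le hx hx'
    have hyb := bx_mono (show ν q + ν q' ≤ 2 * ν q by linarith) hy'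
    have hyD := bx_zero_sub (hp q') (hg q') hy
    have hyD' := bx_zero_sub (hp' q') (hg' q') hy
    have e1 := a1 q y hyb _ _ (h1 q') hyD
    have e2 := a1 q y hyb _ _ (h2 q') hyD'
    have hsame : (∀ w, w ∈ dyc v (m q) (z q) → w ∈ dyc v (m' q) (z' q) →
        w ∈ dyc v (m q') (z q') ∧ w ∈ dyc v (m' q') (z' q')) := by
      intro w hw hw'
      rcases e1 with e1 | e1 <;> rcases e2 with e2 | e2
      · exact absurd (e1.trans e2.symm) (h3 q')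
      · rw [Prod.mk.injEq] at e1 e2
        rw [e1.1, e1.2, e2.1, e2.2]
        exact ⟨hw, hw'⟩
      · rw [Prod.mk.injEq] at e1 e2
        rw [e1.1, e1.2, e2.1, e2.2]
        exact ⟨hw', hw⟩
      · exact absurd (e1.trans e2.symm) (h3 q')
    obtain ⟨g1, g2⟩ := hsame _ (hg q) (hg' q)
    exact Subtype.ext (hpair q.1 q.2 q'.1 q'.2 (m q') (z q') (m' q') (z' q') (h1 q') (h2 q')
      (h3 q') g1 g2 (hg q') (hg' q'))
  have hdisj : ∀ q q' : Q, q ≠ q' → ∀ x, x ∈ K q → x ∈ K q' → False := by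
    intro q q' hne x hx hx'
    rcases le_total (ν q') (ν q) with h | h
    · exact hne (hone q q' h x hx hx')
    · exact hne (hone q' q h x hx' hx).symm
  -- finiteness
  have hfin1 : ∀ M Z, IsTile ρ v M Z → {q : Q | f (G.e q.1.1 q.1.2) ∈ dyc v M Z}.Finite := by
    intro M Z hMZ
    have hfinI := gc_locFin G hf _ (htsub M Z hMZ) (isCompact_dyc v M Z)
    choose X hX hX' using hgen
    have hbig : (⋃ i ∈ {i | (gc G f i '' Icc 0 1 ∩ dyc v M Z).Nonempty},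
        ((({i} : Set G.ι) ×ˢ (X i : Set ℝ)) : Set (G.ι × ℝ))).Finite := by
      refine hfinI.biUnion fun i _ => ?_
      exact (finite_singleton i).prod (X i).finite_toSet
    refine Set.Finite.of_finite_image (f := Subtype.val) (hbig.subset ?_)
      Subtype.val_injective.injOn
    rintro _ ⟨q, hq, rfl⟩
    have ht := Ioo_subset_Icc_self (h4 q)
    refine mem_iUnion₂.2 ⟨q.1.1, ⟨_, ⟨q.1.2, ht, rfl⟩, hq⟩, rfl, ?_⟩
    show q.1.2 ∈ X q.1.1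
    by_contra hnot
    obtain ⟨M', Z', c1, c2⟩ := hX' q.1.1 q.1.2 ht hnot
    by_cases he : (M', Z') = (m q, z q)
    · exact Set.disjoint_left.1 (hdis M' Z' (m' q) (z' q) c1 (h2 q) (he ▸ h3 q)) c2 (hg' q)
    · exact Set.disjoint_left.1 (hdis M' Z' (m q) (z q) c1 (h1 q) he) c2 (hg q)
  have hfin : ∀ L ⊆ Λ, IsCompact L → {q : Q | (K q ∩ L).Nonempty}.Finite := by
    intro L hL hLc
    have hT := htfin L hL hLc
    have hbig : (⋃ p ∈ {p : ℕ × (Fin 3 → ℤ) | IsTile ρ v p.1 p.2 ∧ (dyc v p.1 p.2 ∩ L).Nonempty},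
        {q : Q | f (G.e q.1.1 q.1.2) ∈ dyc v p.1 p.2}).Finite :=
      hT.biUnion fun p hp => hfin1 p.1 p.2 hp.1
    refine hbig.subset ?_
    rintro q ⟨x, hx, hxL⟩
    rcases hKcov q x hx with h | h
    · exact mem_iUnion₂.2 ⟨(m q, z q), ⟨h1 q, ⟨x, h, hxL⟩⟩, hg q⟩
    · exact mem_iUnion₂.2 ⟨(m' q, z' q), ⟨h2 q, ⟨x, h, hxL⟩⟩, hg' q⟩
  obtain ⟨Φ, f1, f2, _, _⟩ := exists_glue_ambient hΛ Θ K hKsub b1 (locFin_of_compact hΛ hfin)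
    (fun q q' hne x hx hx' => (hdisj q q' hne x hx hx').elim)
  have hΦ : ∀ x, ∀ m₁ z₁, IsTile ρ v m₁ z₁ → (Φ.toFun x ∈ dyc v m₁ z₁ ↔ x ∈ dyc v m₁ z₁) := by
    intro x m₁ z₁ ht
    by_cases hx : ∃ q, x ∈ K q
    · obtain ⟨q, hq⟩ := hx
      rw [f1 q x hq]
      exact b3 q x m₁ z₁ ht
    · push Not at hx
      rw [f2 x hx]
  refine ⟨h₀.trans Φ, fun i t ht m₁ z₁ hmz => ?_, fun q hq => ?_, fun x m₁ z₁ hmz =>
    hΦ _ _ _ hmz⟩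
  · show Φ.toFun (h₀.toFun (G.e i t)) ∈ _ ↔ _
    rw [hΦ _ _ _ hmz]
    exact hcode i t ht m₁ z₁ hmz
  · show Φ.toFun (h₀.toFun (G.e q.1 q.2)) = _
    have hmem : h₀.toFun (G.e q.1 q.2) ∈ K ⟨q, hq⟩ := by
      intro j
      have h5 := hν ⟨q, hq⟩
      have h6 := min_le_left ((h₀.toFun (G.e q.1 q.2)) j) ((f (G.e q.1 q.2)) j)
      have h7 := le_max_left ((h₀.toFun (G.e q.1 q.2)) j) ((f (G.e q.1 q.2)) j)
      constructor
      · show min ((h₀.toFun (G.e q.1 q.2)) j) ((f (G.e q.1 q.2)) j) - ν ⟨q, hq⟩ ≤ _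
        linarith
      · show _ ≤ max ((h₀.toFun (G.e q.1 q.2)) j) ((f (G.e q.1 q.2)) j) + ν ⟨q, hq⟩
        linarith
    rw [f1 ⟨q, hq⟩ _ hmem]
    exact b2 ⟨q, hq⟩

end P073.Net
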