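import Vale.Agent.P073.Net.ND2
import Vale.Agent.P073.Net.NearDefs

/-!
# P073, block NET with closeness: the size function and the choice of the tiling (ND)
-/

open Set Metric Topology MeasureTheory Filter
open scoped ENNReal NNReal

namespace P073.Net

open Vale.Agent.P073.St (V euc IsHomeo)
open ND

/-! ### Size functions below a given function -/

/-- a `1`-Lipschitz function below a positive continuous function -/
theorem exists_lip_lower {Λ : Set V} (hΛ : IsOpen Λ) {s : V → ℝ} (hs : ContinuousOn s Λ)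
    (hs0 : ∀ y ∈ Λ, 0 < s y) :
    ∃ τ : V → ℝ, (∀ x y, τ x ≤ τ y + ‖x - y‖) ∧ (∀ x ∈ Λ, 0 < τ x) ∧
      ∀ x, ∀ w ∈ Λ, τ x ≤ s w + ‖x - w‖ := by
  rcases Λ.eq_empty_or_nonempty with rfl | hne
  · exact ⟨fun _ => 0, fun x y => by positivity, fun x hx => hx.elim, fun x w hw => hw.elim⟩
  have : Nonempty Λ := hne.to_subtype
  have hbdd : ∀ x : V, BddBelow (range fun w : Λ => s w + ‖x - w‖) := fun x =>
    ⟨0, by
      rintro _ ⟨w, rfl⟩
      exact add_nonneg (hs0 _ w.2).le (norm_nonneg _)⟩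
  refine ⟨fun x => ⨅ w : Λ, (s w + ‖x - w‖), fun x y => ?_, fun x hx => ?_, fun x w hw => ?_⟩
  · have h : (⨅ w : Λ, (s w + ‖x - w‖)) - ‖x - y‖ ≤ ⨅ w : Λ, (s w + ‖y - w‖) := by
      refine le_ciInf fun w => ?_
      have h1 : (⨅ w : Λ, (s w + ‖x - w‖)) ≤ s w + ‖x - w‖ := ciInf_le (hbdd x) w
      have h2 := norm_sub_le_norm_sub_add_norm_sub x y (w : V)
      linarith
    show (⨅ w : Λ, (s w + ‖x - w‖)) ≤ (⨅ w : Λ, (s w + ‖y - w‖)) + ‖x - y‖
    linarith
  · have hcx : ContinuousAt s x := hs.continuousAt (hΛ.mem_nhds hx)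
    have hsx := hs0 x hx
    have h1 : ∀ᶠ w in 𝓝 x, s x / 2 < s w := hcx.eventually_const_lt (by linarith)
    obtain ⟨r, hr, hball⟩ := Metric.eventually_nhds_iff_ball.1 h1
    refine lt_of_lt_of_le (lt_min (show 0 < s x / 2 by linarith) hr) (le_ciInf fun w => ?_)
    by_cases hw : (w : V) ∈ ball x r
    · have h2 := hball _ hw
      have h3 := norm_nonneg (x - w)
      exact (min_le_left _ _).trans (by linarith)
    · have h2 : r ≤ ‖x - w‖ := by
        by_contra h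
        push Not at h
        refine hw ?_
        rw [mem_ball, dist_comm, dist_eq_norm]
        exact h
      have h3 := hs0 _ w.2
      exact (min_le_right _ _).trans (by linarith)
  · exact ciInf_le (hbdd x) ⟨w, hw⟩

/-- **The size function**, below given constants on given sets, and small compared with a given
positive continuous function. -/
theorem exists_size_near {ι : Type} {Λ : Set V} (hΛ : IsOpen Λ) (K : ι → Set V) (δ : ι → ℝ)
    (hδ : ∀ i, 0 < δ i) (hne : ∀ i, (K i).Nonempty)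
    (hfin : ∀ C ⊆ Λ, IsCompact C → {i | (K i ∩ C).Nonempty}.Finite) {s : V → ℝ}
    (hs : ContinuousOn s Λ) (hs0 : ∀ y ∈ Λ, 0 < s y) {C : ℝ} (hC : 0 ≤ C) :
    ∃ ρ, SizeFn Λ ρ ∧ (∀ i, ∀ x ∈ K i, ρ x ≤ δ i) ∧
      ∀ y, ∀ w ∈ Λ, ‖y - w‖ ≤ C * ρ y → C * ρ y ≤ s w := by
  obtain ⟨ρ, hρ, hρδ⟩ := exists_size Λ hΛ K δ hδ hne hfin
  obtain ⟨τ, hτ1, hτ2, hτ3⟩ := exists_lip_lower hΛ hs hs0
  have hc : (0:ℝ) < 2 * (C + 1) := by linarith
  have hc1 : (1:ℝ) ≤ 2 * (C + 1) := by linarith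
  refine ⟨fun x => min (ρ x) (τ x) / (2 * (C + 1)), ⟨fun x y => ?_, fun x hx => ?_, fun x hx => ?_,
    fun x => ?_⟩, fun i x hx => ?_, fun y w hw hyw => ?_⟩
  · have h1 : min (ρ x) (τ x) ≤ min (ρ y) (τ y) + ‖x - y‖ := by
      rw [← min_add_add_right]
      exact min_le_min (hρ.lip x y) (hτ1 x y)
    have h2 := norm_nonneg (x - y)
    show min (ρ x) (τ x) / (2 * (C + 1)) ≤ min (ρ y) (τ y) / (2 * (C + 1)) + ‖x - y‖
    rw [div_add' _ _ _ hc.ne', div_le_div_iff_of_pos_right hc]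
    nlinarith
  · exact div_pos (lt_min (hρ.pos x hx) (hτ2 x hx)) hc
  · exact div_nonpos_of_nonpos_of_nonneg ((min_le_left _ _).trans (hρ.off x hx)) hc.le
  · show min (ρ x) (τ x) / (2 * (C + 1)) ≤ 1
    rw [div_le_one hc]
    exact ((min_le_left _ _).trans (hρ.le_one x)).trans hc1
  · show min (ρ x) (τ x) / (2 * (C + 1)) ≤ δ i
    rw [div_le_iff₀ hc]
    have h1 : min (ρ x) (τ x) ≤ δ i := (min_le_left _ _).trans (hρδ i x hx)
    have h2 := hδ i
    nlinarith
  · have h1 := hτ3 y w hw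
    have hyw' : ‖y - w‖ ≤ C * (min (ρ y) (τ y) / (2 * (C + 1))) := hyw
    show C * (min (ρ y) (τ y) / (2 * (C + 1))) ≤ s w
    set r := min (ρ y) (τ y) / (2 * (C + 1)) with hr
    have h2 : r * (2 * (C + 1)) ≤ τ y := by
      rw [hr, div_mul_cancel₀ _ hc.ne']
      exact min_le_right _ _
    have h3 := hs0 w hw
    rcases le_total r 0 with h | h
    · nlinarith
    · nlinarith

/-! ### The choice of the tiling -/

/-- (ND) for a given size function `ρ` -/
def SpecNDR : Prop :=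
  ∀ (Λ : Set V) (ρ : V → ℝ), SizeFn Λ ρ → ∀ (ι : Type) (_ : Countable ι) (g D : ι → ℝ → V),
    (∀ i, IntervalIntegrable (D i) volume 0 1) →
    (∀ i, ∀ t ∈ Icc (0:ℝ) 1, g i t = g i 0 + ∫ s in (0:ℝ)..t, D i s) →
    (∀ i, MapsTo (g i) (Icc 0 1) Λ) →
    ∀ (bad : ι → Fin 3 → Set ℝ), (∀ i k, IsOpen (bad i k)) → (∀ i k, bad i k ⊆ Ioo 0 1) →
    ∀ (β η : ι → ℝ), (∀ i, 0 < β i) → (∀ i, 0 < η i) →
    (∀ i k, ∫⁻ t in bad i k, ENNReal.ofReal |D i t k| ≤ ENNReal.ofReal (η i * β i)) →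
    (∑' i, ENNReal.ofReal (β i)) ≤ ENNReal.ofReal (1 / 100) →
    ∀ P : V → Prop, (∀ᵐ v, P v) → ∃ v, P v ∧ (∀ i, GenPos (g i) ρ v) ∧
      ∀ i, ∀ X : Finset ℝ, (∀ t ∈ X, ∃ k m z m' z', Crosses (g i) ρ v t k m z m' z' ∧
        t ∈ bad i k) → (∑ t ∈ X, ρ (g i t)) ≤ η i

/-- **ND** for a given size function. -/
theorem specNDR (hNA1 : SpecNA1) (hNA2 : SpecNA2) (hNC : SpecNC) : SpecNDR := by
  classical
  intro Λ ρ hρ ι hι g D hD hg hm bad hbo hbI β η hβ hη hbad hsum P hP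
  -- the size along the curves is continuous
  have hρc : Continuous ρ := by
    refine LipschitzWith.continuous (K := 1) (LipschitzWith.of_dist_le_mul fun x y => ?_)
    rw [Real.dist_eq, dist_eq_norm, NNReal.coe_one, one_mul, abs_sub_le_iff]
    have h1 := hρ.lip x y
    have h2 := hρ.lip y x
    rw [norm_sub_rev] at h2
    constructor <;> linarith
  have hgc : ∀ i, ContinuousOn (g i) (Icc 0 1) := fun i => ND1.continuousOn_g (hD i) (hg i)
  have hqc : ∀ i k, ContinuousOn (fun t => ρ (g i t)) (bad i k) := fun i k =>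
    hρc.comp_continuousOn ((hgc i).mono ((hbI i k).trans Ioo_subset_Icc_self))
  -- the majorants
  have hN : ∀ i (k : Fin 3) (M : ℕ), ∃ N : ℝ → ℝ≥0∞, Measurable N ∧
      (∀ y, cnt (scaleSet (bad i k) (fun t => ρ (g i t)) M ∩ (fun t => g i t k) ⁻¹' {y}) ≤ N y) ∧
      ∫⁻ y, N y ≤ ∫⁻ t in scaleSet (bad i k) (fun t => ρ (g i t)) M,
        ENNReal.ofReal |D i t k| := by
    intro i k M
    exact hNA1 (fun t => g i t k) (fun t => D i t k) (ND1.intervalIntegrable_coord (hD i) k)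
      (fun t ht => ND1.coord_eq (hD i) (hg i) k ht) _ (isOpen_scaleSet (hbo i k) (hqc i k) M)
      (inter_subset_left.trans (hbI i k))
  choose N hNm hNc hNi using hN
  -- expectation
  have hE : ∀ i, ∫⁻ v, maj (N i) v ∂cubeLaw ≤ 48 * ENNReal.ofReal (η i * β i) := by
    intro i
    calc ∫⁻ v, maj (N i) v ∂cubeLaw ≤ 4 * ∑ k : Fin 3, ∑' M : ℕ, ∫⁻ y, N i k M y :=
          lintegral_maj (hNm i)
      _ ≤ 4 * ∑ k : Fin 3, 4 * ENNReal.ofReal (η i * β i) := by
          gcongr with k _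
          calc ∑' M : ℕ, ∫⁻ y, N i k M y
              ≤ ∑' M : ℕ, ∫⁻ t in scaleSet (bad i k) (fun t => ρ (g i t)) M,
                  ENNReal.ofReal |D i t k| := ENNReal.tsum_le_tsum fun M => hNi i k M
            _ ≤ 4 * ∫⁻ t in bad i k, ENNReal.ofReal |D i t k| :=
                scaleSet_sum (hbo i k) (hqc i k) _
            _ ≤ 4 * ENNReal.ofReal (η i * β i) := by
                gcongr
                exact hbad i k
      _ = 48 * ENNReal.ofReal (η i * β i) := by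
          rw [Finset.sum_const, Finset.card_univ, Fintype.card_fin, nsmul_eq_mul, ← mul_assoc,
            ← mul_assoc]
          norm_num
  -- Markov
  have hMk : ∀ i, cubeLaw {v | ENNReal.ofReal (η i) ≤ maj (N i) v} ≤
      48 * ENNReal.ofReal (β i) := by
    intro i
    have hη0 : ENNReal.ofReal (η i) ≠ 0 := by
      rw [Ne, ENNReal.ofReal_eq_zero, not_le]; exact hη i
    refine (meas_ge_le_lintegral_div (measurable_maj (hNm i)).aemeasurable hη0
      ENNReal.ofReal_ne_top).trans ?_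
    rw [ENNReal.div_le_iff hη0 ENNReal.ofReal_ne_top]
    refine (hE i).trans (le_of_eq ?_)
    rw [ENNReal.ofReal_mul (hη i).le, mul_assoc, mul_comm (ENNReal.ofReal (η i))]
  by_contra hno
  push Not at hno
  have hgen : ∀ᵐ v : V, ∀ i, GenPos (g i) ρ v :=
    ae_all_iff.2 fun i => specND1 hNA2 hNC hρ (hD i) (hg i) (hm i)
  have h1 : ∀ᵐ v ∂cubeLaw, v ∈ ⋃ i, {v | ENNReal.ofReal (η i) ≤ maj (N i) v} := by
    filter_upwards [cubeLaw_ae hP, cubeLaw_ae hgen] with v hv1 hv2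
    obtain ⟨i, X, hX, hlt⟩ := hno v hv1 hv2
    refine mem_iUnion.2 ⟨i, ?_⟩
    have h2 := sum_le_maj (hNc i) (hNC Λ ρ hρ v).2.2.2.1 hX
    exact (ENNReal.ofReal_le_ofReal hlt.le).trans h2
  have h2 : (1:ℝ≥0∞) ≤ cubeLaw (⋃ i, {v | ENNReal.ofReal (η i) ≤ maj (N i) v}) := by
    have := measure_mono_ae (μ := cubeLaw) (s := univ)
      (t := ⋃ i, {v | ENNReal.ofReal (η i) ≤ maj (N i) v}) (by
        filter_upwards [h1] with v hv _
        exact hv)
    rwa [measure_univ] at this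
  have h3 : cubeLaw (⋃ i, {v | ENNReal.ofReal (η i) ≤ maj (N i) v}) ≤ 48 / 100 := by
    calc cubeLaw (⋃ i, {v | ENNReal.ofReal (η i) ≤ maj (N i) v})
        ≤ ∑' i, cubeLaw {v | ENNReal.ofReal (η i) ≤ maj (N i) v} := measure_iUnion_le _
      _ ≤ ∑' i, 48 * ENNReal.ofReal (β i) := ENNReal.tsum_le_tsum hMk
      _ = 48 * ∑' i, ENNReal.ofReal (β i) := ENNReal.tsum_mul_left
      _ ≤ 48 * ENNReal.ofReal (1 / 100) := by gcongr
      _ = 48 / 100 := by
          rw [ENNReal.ofReal_div_of_pos (by norm_num), ENNReal.ofReal_one, ENNReal.ofReal_ofNat,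
            mul_one_div]
  have h4 : (48:ℝ≥0∞) / 100 < 1 := by
    rw [ENNReal.div_lt_iff (by norm_num) (by norm_num)]
    norm_num
  exact absurd (h2.trans h3) (not_le.2 h4)

end P073.Net
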