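import Vale.Agent.P073.Net.NG
import Vale.Agent.P073.Net.Near1
import Vale.Agent.P073.Net.Near2

/-!
# P073, block NET with closeness: assembly (`NetLenN`)

The proofs are those of `final_len` and `netLen_of`; new: the size function is small compared with
the given function, and the final map is in the same tiles as the topological input.
-/

open Set Metric Topology MeasureTheory Filter
open scoped ENNReal NNReal

namespace P073.Net

open Vale.Agent.P073.St (V euc IsHomeo IsInv)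
open ND1 (dyo_sub_dyc isClosed_dyc)

section final

variable {Ω Λ : Set V} {f : V → V} {G : Graph Ω} {ρ : V → ℝ} {v : V}

/-- the glued map does not change the tiles -/
theorem same_tile (hNC : SpecNC) (hρ : SizeFn Λ ρ)
    (Θ : {p : ℕ × (Fin 3 → ℤ) // IsTile ρ v p.1 p.2} → ConHomeo (univ : Set V) (univ : Set V))
    (h1 : ∀ p, ∀ x, x ∉ dyo v p.1.1 p.1.2 → (Θ p).toFun x = x)
    (h2 : ∀ p, ∀ x ∈ dyo v p.1.1 p.1.2, (Θ p).toFun x ∈ dyo v p.1.1 p.1.2)
    {Φ : ConHomeo Λ Λ} (hΦ : ∀ p : {p : ℕ × (Fin 3 → ℤ) // IsTile ρ v p.1 p.2},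
      ∀ x ∈ dyc v p.1.1 p.1.2, Φ.toFun x = (Θ p).toFun x) {y : V} (hy : y ∈ Λ) {m : ℕ}
    {z : Fin 3 → ℤ} (hmz : IsTile ρ v m z) (hym : Φ.toFun y ∈ dyc v m z) : y ∈ dyc v m z := by
  obtain ⟨_, htcov, hdis, _, _⟩ := hNC Λ ρ hρ v
  obtain ⟨m₁, z₁, hmz₁, hx₁⟩ := htcov _ hy
  have e1 := hΦ ⟨(m₁, z₁), hmz₁⟩ _ hx₁
  by_cases hxo : y ∈ dyo v m₁ z₁
  · have e2 : (Θ ⟨(m₁, z₁), hmz₁⟩).toFun y ∈ dyo v m₁ z₁ := h2 ⟨(m₁, z₁), hmz₁⟩ _ hxo
    by_cases hne : (m₁, z₁) = (m, z)
    · rw [Prod.mk.injEq] at hne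
      rw [← hne.1, ← hne.2]
      exact hx₁
    · rw [e1] at hym
      exact absurd hym (Set.disjoint_left.1 (hdis m₁ z₁ m z hmz₁ hmz hne) e2)
  · rw [e1, h1 ⟨(m₁, z₁), hmz₁⟩ _ hxo] at hym
    exact hym

/-- the last step: lengths -/
theorem final_lenN (hNC : SpecNC) (hT1 : SpecT1) (hNG3 : SpecNG3) (hΛ : IsOpen Λ)
    (hρ : SizeFn Λ ρ) (hf : IsHomeo Ω Λ f) {D : G.ι → ℝ → V} (hD : ACOn G f D)
    {h : ConHomeo Ω Λ} (hcode : SameCode G f h.toFun ρ v)
    (X : G.ι → Finset ℝ)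
    (hX : ∀ i, ∀ x ∈ X i, x ∈ Icc (0:ℝ) 1)
    (hX2 : ∀ i, ∀ t ∈ Icc (0:ℝ) 1, t ∉ X i → ∃ m z, IsTile ρ v m z ∧ gc G f i t ∈ dyo v m z)
    (n : G.ι → ℕ)
    (hsmall : ∀ i, ∀ t ∈ Icc (0:ℝ) 1, ρ (gc G f i t) < 1 / (n i + 1 : ℝ))
    (good : G.ι → ℝ → Prop)
    (hgood : ∀ i x, good i x → (∃ k m z m' z', Crosses (gc G f i) ρ v x k m z m' z' ∧
      GoodT (gc G f i) (oth G f i) k (n i) x) ∧ h.toFun (G.e i x) = gc G f i x)
    (ε η δ : G.ι → ℝ) (hε : ∀ i, 0 < ε i) (hδ : ∀ i, ∀ t ∈ Icc (0:ℝ) 1, ρ (gc G f i t) ≤ δ i)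
    (hη : ∀ i, ∀ Y ⊆ X i, (∀ t ∈ Y, ¬ good i t) → ∑ t ∈ Y, ρ (gc G f i t) ≤ η i)
    (hsum : ∀ i, 8 * δ i + 4 * η i ≤ ε i / 2) :
    ∃ h' : ConHomeo Ω Λ, (∀ x ∈ Ω, ∀ m z, IsTile ρ v m z → h'.toFun x ∈ dyc v m z →
      h.toFun x ∈ dyc v m z) ∧ ∀ i,
      (∀ t ∈ Icc (0:ℝ) 1, ‖h'.toFun (G.e i t) - f (G.e i t)‖ ≤ δ i) ∧
      len (fun t => h'.toFun (G.e i t)) (Icc 0 1) ≤
        ENNReal.ofReal ((∫ t in (0:ℝ)..1, euc (D i t)) + ε i) := by
  classical
  obtain ⟨htsub, htcov, hdis, _, htfin⟩ := hNC Λ ρ hρ v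
  set S : G.ι → Finset ℝ := fun i => insert 0 (insert 1 (X i)) with hS
  have hS01 : ∀ i, ∀ x ∈ S i, x ∈ Icc (0:ℝ) 1 := by
    intro i x hx
    rcases Finset.mem_insert.1 hx with rfl | hx
    · exact ⟨le_refl _, zero_le_one⟩
    · rcases Finset.mem_insert.1 hx with rfl | hx
      · exact ⟨zero_le_one, le_refl _⟩
      · exact hX i x hx
  set er : G.ι → ℝ := fun i => ε i / (4 * ((S i).card + 1)) with her
  have her0 : ∀ i, 0 < er i := fun i => by
    have := hε i
    rw [her]; positivity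
  have hermul : ∀ i, 2 * ((S i).card * er i) ≤ ε i / 2 := by
    intro i
    have h1 : er i * (4 * ((S i).card + 1)) = ε i := by
      rw [her]; field_simp
    have := her0 i
    nlinarith
  -- the tile maps
  have key : ∀ p : {p : ℕ × (Fin 3 → ℤ) // IsTile ρ v p.1 p.2}, _ := fun p =>
    exists_tile_map hNC hT1 hNG3 hρ hf hcode S hS01 n hsmall good hgood er her0 p.2
  choose Θ h1 h2 h3 using key
  obtain ⟨Φ, hΦ⟩ := exists_global hNC hΛ hρ v Θ h1
  have hin : ∀ (p : {p : ℕ × (Fin 3 → ℤ) // IsTile ρ v p.1 p.2}) x, x ∈ dyc v p.1.1 p.1.2 →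
      (Θ p).toFun x ∈ dyc v p.1.1 p.1.2 := by
    intro p x hx
    by_cases hxo : x ∈ dyo v p.1.1 p.1.2
    · exact dyo_sub_dyc _ _ _ (h2 p x hxo)
    · rw [h1 p x hxo]; exact hx
  refine ⟨h.trans Φ, fun x hx m z hmz hxm => same_tile hNC hρ Θ h1 h2 hΦ (h.mapsTo hx) hmz hxm,
    fun i => ⟨fun t ht => ?_, ?_⟩⟩
  · obtain ⟨m, z, hmz, hgt⟩ := htcov _ (gc_mapsTo G hf i ht)
    have e1 : h.toFun (G.e i t) ∈ dyc v m z := (hcode i t ht m z hmz).2 hgt
    have e2 : (h.trans Φ).toFun (G.e i t) ∈ dyc v m z := by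
      show Φ.toFun (h.toFun (G.e i t)) ∈ _
      rw [hΦ ⟨(m, z), hmz⟩ _ e1]
      exact hin ⟨(m, z), hmz⟩ _ e1
    have h4 := mem_dyc_iff.1 e2
    have h5 := mem_dyc_iff.1 hgt
    calc ‖(h.trans Φ).toFun (G.e i t) - gc G f i t‖
        = ‖((h.trans Φ).toFun (G.e i t) - ctr v m z) - (gc G f i t - ctr v m z)‖ := by
          congr 1; abel
      _ ≤ ‖(h.trans Φ).toFun (G.e i t) - ctr v m z‖ + ‖gc G f i t - ctr v m z‖ := norm_sub_le _ _
      _ ≤ hs m + hs m := add_le_add h4 h5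
      _ = 1 / 2 ^ m := by unfold hs; ring
      _ ≤ ρ (gc G f i t) := hmz.1 _ hgt
      _ ≤ δ i := hδ i t ht
  · -- lengths
    have hDi := hD.int i
    have hsubI : ∀ a ∈ Icc (0:ℝ) 1, ∀ b ∈ Icc (0:ℝ) 1, IntervalIntegrable (D i) volume a b := by
      intro a ha b hb
      refine hDi.mono_set ?_
      rw [uIcc_of_le zero_le_one]
      exact uIcc_subset_Icc ha hb
    have hF : ∀ x ∈ Icc (0:ℝ) 1, ∀ y ∈ Icc (0:ℝ) 1,
        (∫ s in (0:ℝ)..y, euc (D i s)) - (∫ s in (0:ℝ)..x, euc (D i s)) =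
          ∫ s in x..y, euc (D i s) := by
      intro x hx y hy
      exact intervalIntegral.integral_interval_sub_left
        (intervalIntegrable_euc (hsubI 0 ⟨le_refl _, zero_le_one⟩ y hy))
        (intervalIntegrable_euc (hsubI 0 ⟨le_refl _, zero_le_one⟩ x hx))
    have hF0 : ∀ x ∈ Icc (0:ℝ) 1, ∀ y ∈ Icc (0:ℝ) 1, x ≤ y → 0 ≤ ∫ s in x..y, euc (D i s) :=
      fun x _ y _ hxy => intervalIntegral.integral_nonneg hxy fun u _ => euc_nonneg _
    set w : ℝ → ℝ := fun x => (if good i x then 0 else 2 * ρ (gc G f i x)) + er i with hw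
    have hρ0 : ∀ x ∈ Icc (0:ℝ) 1, 0 ≤ ρ (gc G f i x) := fun x hx =>
      (hρ.pos _ (gc_mapsTo G hf i hx)).le
    have hw0 : ∀ x ∈ S i, 0 ≤ w x := by
      intro x hx
      have h5 := hρ0 x (hS01 i x hx)
      have h6 := her0 i
      simp only [hw]
      split_ifs <;> linarith
    have hwer : ∀ x ∈ S i, er i ≤ w x := by
      intro x hx
      have h5 := hρ0 x (hS01 i x hx)
      simp only [hw]
      split_ifs <;> linarith
    have hchain := len_chain (q := fun t => (h.trans Φ).toFun (G.e i t))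
      (F := fun t => ∫ s in (0:ℝ)..t, euc (D i s)) (w := w) (S := S i) (a := 0)
      (Finset.mem_insert_self _ _) (fun x hx => (hS01 i x hx).1)
      (fun x hx y hy hxy => by
        have h5 := hF x (hS01 i x hx) y (hS01 i y hy)
        have h6 := hF0 x (hS01 i x hx) y (hS01 i y hy) hxy
        linarith) hw0 ?_ 1 (Finset.mem_insert_of_mem (Finset.mem_insert_self _ _))
    · refine hchain.trans (ENNReal.ofReal_le_ofReal ?_)
      have hfilter : (S i).filter (· ≤ (1:ℝ)) = S i := Finset.filter_true_of_mem fun x hx =>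
        (hS01 i x hx).2
      rw [hfilter]
      have hw1 : 0 ≤ w 1 := hw0 1 (Finset.mem_insert_of_mem (Finset.mem_insert_self _ _))
      have hsumw : ∑ x ∈ S i, w x ≤ 2 * (2 * δ i + η i) + (S i).card * er i := by
        have e1 : ∑ x ∈ S i, w x = ∑ x ∈ S i, (if good i x then 0 else 2 * ρ (gc G f i x)) +
            (S i).card * er i := by
          simp only [hw]
          rw [Finset.sum_add_distrib, Finset.sum_const, nsmul_eq_mul]
        rw [e1]
        gcongr
        have e2 : ∀ (T : Finset ℝ) (a : ℝ), (∀ x ∈ insert a T, x ∈ Icc (0:ℝ) 1) →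
            ∑ x ∈ insert a T, (if good i x then 0 else 2 * ρ (gc G f i x)) ≤
              2 * ρ (gc G f i a) + ∑ x ∈ T, (if good i x then 0 else 2 * ρ (gc G f i x)) := by
          intro T a hT
          have ha := hρ0 a (hT a (Finset.mem_insert_self _ _))
          by_cases haT : a ∈ T
          · rw [Finset.insert_eq_of_mem haT]; linarith
          · rw [Finset.sum_insert haT]
            gcongr
            split_ifs <;> linarith
        have e3 := e2 (insert 1 (X i)) 0 (hS01 i)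
        have e4 := e2 (X i) 1 (fun x hx => hS01 i x (Finset.mem_insert_of_mem hx))
        have e5 : ∑ x ∈ X i, (if good i x then 0 else 2 * ρ (gc G f i x)) ≤ 2 * η i := by
          have e6 := hη i ((X i).filter fun x => ¬ good i x) (Finset.filter_subset _ _)
            (fun t ht => (Finset.mem_filter.1 ht).2)
          rw [Finset.sum_filter] at e6
          have e7 : ∑ x ∈ X i, (if good i x then 0 else 2 * ρ (gc G f i x)) =
              2 * ∑ x ∈ X i, (if ¬ good i x then ρ (gc G f i x) else 0) := by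
            rw [Finset.mul_sum]
            refine Finset.sum_congr rfl fun x _ => ?_
            by_cases hg : good i x <;> simp [hg]
          rw [e7]; linarith
        have e8 := hδ i 0 ⟨le_refl _, zero_le_one⟩
        have e9 := hδ i 1 ⟨zero_le_one, le_refl _⟩
        linarith
      have h5 := hermul i
      have h6 := hsum i
      simp only [intervalIntegral.integral_same]
      linarith
    · -- one interval
      intro x hx y hy hxy hcons
      have hx01 := hS01 i x hx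
      have hy01 := hS01 i y hy
      have hsub : Icc x y ⊆ Icc (0:ℝ) 1 := Icc_subset_Icc hx01.1 hy01.2
      obtain ⟨m, z, hmz, hstr⟩ := exists_tile_interval hNC hρ (v := v) hxy
        ((gc_continuousOn G hf i).mono (Ioo_subset_Icc_self.trans hsub)) (fun t ht => by
          refine hX2 i t (hsub (Ioo_subset_Icc_self ht)) fun htX => ?_
          rcases hcons t (Finset.mem_insert_of_mem (Finset.mem_insert_of_mem htX)) with h | h
          · exact absurd ht.1 (not_lt.2 h)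
          · exact absurd ht.2 (not_lt.2 h))
      have hcl := strand_closed hxy ((gc_continuousOn G hf i).mono hsub) hstr
      have heq : EqOn (fun t => (h.trans Φ).toFun (G.e i t))
          ((Θ ⟨(m, z), hmz⟩).toFun ∘ fun t => h.toFun (G.e i t)) (Icc x y) := by
        intro t ht
        show Φ.toFun (h.toFun (G.e i t)) = _
        exact hΦ ⟨(m, z), hmz⟩ _ ((hcode i t (hsub ht) m z hmz).2 (hcl t ht))
      rw [len_congr heq]
      obtain ⟨c1, c2⟩ := h3 ⟨(m, z), hmz⟩ i x hx y hy hxy hcons hstr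
      have hFxy := hF x hx01 y hy01
      have hF0xy := hF0 x hx01 y hy01 hxy.le
      have hwx := hwer x hx
      have hwy := hwer y hy
      have herp := her0 i
      by_cases hgg : good i x ∧ good i y
      · refine (c1 hgg).trans (ENNReal.ofReal_le_ofReal ?_)
        have e1 : gc G f i y - gc G f i x = ∫ s in x..y, D i s := by
          have a1 := hD.eq i y hy01
          have a2 := hD.eq i x hx01
          have a3 : (∫ s in (0:ℝ)..y, D i s) - (∫ s in (0:ℝ)..x, D i s) = ∫ s in x..y, D i s :=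
            intervalIntegral.integral_interval_sub_left
              (hsubI 0 ⟨le_refl _, zero_le_one⟩ y hy01) (hsubI 0 ⟨le_refl _, zero_le_one⟩ x hx01)
          show f (G.e i y) - f (G.e i x) = _
          rw [a1, a2, ← a3]; abel
        have e2 : euc (gc G f i x - gc G f i y) ≤ ∫ s in x..y, euc (D i s) := by
          rw [euc_sub_comm, e1]
          exact ng_euc_integral_le hxy.le (hsubI x hx01 y hy01)
        linarith
      · refine (c2 hgg).trans (ENNReal.ofReal_le_ofReal ?_)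
        have hsx : 4 * hs m ≤ 2 * ρ (gc G f i x) := by
          have := hmz.1 _ (hcl x ⟨le_refl _, hxy.le⟩)
          have e : 4 * hs m = 2 * (1 / 2 ^ m) := by unfold hs; ring
          rw [e]; linarith
        have hsy : 4 * hs m ≤ 2 * ρ (gc G f i y) := by
          have := hmz.1 _ (hcl y ⟨hxy.le, le_refl _⟩)
          have e : 4 * hs m = 2 * (1 / 2 ^ m) := by unfold hs; ring
          rw [e]; linarith
        rw [not_and_or] at hgg
        rcases hgg with hg | hg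
        · have : w x = 2 * ρ (gc G f i x) + er i := by simp only [hw]; rw [if_neg hg]
          linarith
        · have : w y = 2 * ρ (gc G f i y) + er i := by simp only [hw]; rw [if_neg hg]
          linarith

end final

/-- **NetLen with closeness** -/
theorem netLenN_of (hNB : SpecNB) (hNC : SpecNC) (hND : SpecNDR) (hT1 : SpecT1)
    (hNG1 : SpecNG1N) (hNG3 : SpecNG3) : NetLenN := by
  classical
  intro C Ω Λ f G D hΩ hΛ hf hD hTT ε hε σ hσ hσ0
  -- the inverse of `f`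
  obtain ⟨fi, ⟨hfi1, hfi2⟩, hfc, hfic⟩ := id hf
  have hsc : ContinuousOn (fun y => σ (fi y)) Λ :=
    hσ.comp hfic fun y hy => (hfi2 y hy).1
  have hsp : ∀ y ∈ Λ, 0 < σ (fi y) := fun y hy => hσ0 _ (hfi2 y hy).1
  have hcount := graph_countable G hΩ
  -- weights
  obtain ⟨β', hβ', hβs⟩ := ENNReal.exists_pos_sum_of_countable
    (ε := ENNReal.ofReal (1 / 100)) (by simp) G.ι
  set β : G.ι → ℝ := fun i => (β' i : ℝ) with hβdef
  have hβ : ∀ i, 0 < β i := fun i => by exact_mod_cast hβ' i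
  have hβsum : (∑' i, ENNReal.ofReal (β i)) ≤ ENNReal.ofReal (1 / 100) := by
    simp only [hβdef, ENNReal.ofReal_coe_nnreal]
    exact hβs.le
  set η : G.ι → ℝ := fun i => ε i / 16 with hη
  have hη0 : ∀ i, 0 < η i := fun i => by have := hε i; rw [hη]; positivity
  -- AC formula for the curves
  have hgc : ∀ i, ∀ t ∈ Icc (0:ℝ) 1, gc G f i t = gc G f i 0 + ∫ s in (0:ℝ)..t, D i s :=
    fun i t ht => hD.eq i t ht
  have hNB' := fun i k => hNB (gc G f i) (D i) (oth G f i) k (hD.int i) (hgc i) (gc_injOn G hf i)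
    (fun t ht => gc_far G hΩ hf i ht)
  have hexn : ∀ i, ∃ n : ℕ, ∀ k, ∫⁻ t in BadS (gc G f i) (oth G f i) k n,
      ENNReal.ofReal |D i t k| ≤ ENNReal.ofReal (η i * β i) := by
    intro i
    have h1 : ∀ k, ∃ n, ∫⁻ t in BadS (gc G f i) (oth G f i) k n,
        ENNReal.ofReal |D i t k| ≤ ENNReal.ofReal (η i * β i) := fun k =>
      (hNB' i k).2.2 _ (mul_pos (hη0 i) (hβ i))
    choose n hn using h1
    refine ⟨Finset.univ.sup n, fun k => ?_⟩
    have hanti : Antitone (fun n => BadS (gc G f i) (oth G f i) k n) :=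
      antitone_nat_of_succ_le fun n => (hNB' i k).2.1 n
    exact (lintegral_mono_set (hanti (Finset.le_sup (Finset.mem_univ k)))).trans (hn k)
  choose n hn using hexn
  set δ : G.ι → ℝ := fun i => min (1 / (2 * (n i + 1))) (ε i / 64) with hδ
  have hδ0 : ∀ i, 0 < δ i := fun i => by
    have := hε i
    rw [hδ]; exact lt_min (by positivity) (by positivity)
  obtain ⟨ρ, hρ, hρδ', hρs⟩ := exists_size_near hΛ (fun i => gc G f i '' Icc 0 1) δ hδ0
    (fun i => ⟨gc G f i 0, 0, ⟨le_refl _, zero_le_one⟩, rfl⟩) (gc_locFin G hf) hsc hsp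
    (C := max C 0 + 1) (by have := le_max_right C 0; linarith)
  have hρδ : ∀ i, ∀ t ∈ Icc (0:ℝ) 1, ρ (gc G f i t) ≤ δ i := fun i t ht =>
    hρδ' i _ ⟨t, ht, rfl⟩
  obtain ⟨v, ⟨h₀, hcode₀, hnear⟩, hgen, hbad⟩ := hND Λ ρ hρ G.ι hcount (gc G f) D hD.int hgc
    (fun i => gc_mapsTo G hf i)
    (fun i k => BadS (gc G f i) (oth G f i) k (n i)) (fun i k => (hNB' i k).1 (n i))
    (fun i k t ht => ht.1) β η hβ hη0 (fun i k => hn i k) hβsum
    (fun v => TTn C Ω Λ f G ρ v) (hTT ρ hρ)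
  have hsmall : ∀ i, ∀ t ∈ Icc (0:ℝ) 1, ρ (gc G f i t) < 1 / (n i + 1 : ℝ) := by
    intro i t ht
    have h1 := (hρδ i t ht).trans (min_le_left _ _)
    refine h1.trans_lt ?_
    rw [div_lt_div_iff₀ (by positivity) (by positivity)]
    have : (0:ℝ) < (n i : ℝ) + 1 := by positivity
    linarith
  -- the good crossings
  set Q : Set (G.ι × ℝ) := {q | ∃ k m z m' z', Crosses (gc G f q.1) ρ v q.2 k m z m' z' ∧
    GoodT (gc G f q.1) (oth G f q.1) k (n q.1) q.2} with hQ
  obtain ⟨h₁, hcode₁, hpos, htile₁⟩ := hNG1 Ω Λ f G hΩ hΛ hf ρ v hρ hgen h₀ hcode₀ Q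
    (fun q hq => by
      obtain ⟨k, m, z, m', z', h1, _⟩ := hq
      exact ⟨k, m, z, m', z', h1⟩)
    (fun q hq q' hq' m z m' z' t1 t2 hne a1 a2 a3 a4 => by
      obtain ⟨k, m1, z1, m1', z1', b1, b2⟩ := hq
      obtain ⟨k2, m2, z2, m2', z2', c1, c2⟩ := hq'
      exact good_unique b1 b2 (hsmall q.1 q.2 (Ioo_subset_Icc_self b1.2.2.2.1))
        (Ioo_subset_Icc_self c1.2.2.2.1) t1 t2 hne a1 a2 a3 a4)
  choose X hX1 hX2 using hgen
  obtain ⟨h', htile', hh'⟩ := final_lenN hNC hT1 hNG3 hΛ hρ hf hD hcode₁ X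
    (fun i x hx => by
      obtain ⟨k, m, z, m', z', h1⟩ := hX1 i x hx
      exact Ioo_subset_Icc_self h1.2.2.2.1)
    (fun i t ht htX => hX2 i t ht htX) n hsmall (fun i x => (i, x) ∈ Q)
    (fun i x hx => ⟨hx, hpos (i, x) hx⟩) ε η δ hε hρδ
    (fun i Y hY hYg => hbad i Y fun t ht => by
      obtain ⟨k, m, z, m', z', h1⟩ := hX1 i t (hY ht)
      refine ⟨k, m, z, m', z', h1, h1.2.2.2.1, fun hg => hYg t ht ?_⟩
      exact ⟨k, m, z, m', z', h1, hg⟩)
    (fun i => by
      have h1 : δ i ≤ ε i / 64 := min_le_right _ _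
      have h2 := hε i
      simp only [hη]
      linarith)
  refine ⟨h', fun x hx => ?_, fun i => ⟨fun t ht => ?_, (hh' i).2⟩⟩
  · obtain ⟨_, htcov, _, _, _⟩ := hNC Λ ρ hρ v
    obtain ⟨m, z, hmz, hxm⟩ := htcov _ (h'.mapsTo hx)
    have e1 : h₀.toFun x ∈ dyc v m z := (htile₁ x m z hmz).1 (htile' x hx m z hmz hxm)
    have e2 := hnear x hx m z hmz e1
    have h4 := mem_dyc_iff.1 hxm
    have h5 := mem_dyc_iff.1 e1
    have h6 : ‖h'.toFun x - h₀.toFun x‖ ≤ 1 / 2 ^ m := by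
      calc ‖h'.toFun x - h₀.toFun x‖
          = ‖(h'.toFun x - ctr v m z) - (h₀.toFun x - ctr v m z)‖ := by congr 1; abel
        _ ≤ ‖h'.toFun x - ctr v m z‖ + ‖h₀.toFun x - ctr v m z‖ := norm_sub_le _ _
        _ ≤ hs m + hs m := add_le_add h4 h5
        _ = 1 / 2 ^ m := by unfold hs; ring
    have h7 : ‖h'.toFun x - f x‖ ≤ (max C 0 + 1) * ρ (h'.toFun x) := by
      have h8 := hmz.1 _ hxm
      have h9 : C / 2 ^ m ≤ max C 0 * (1 / 2 ^ m) := by
        rw [div_eq_mul_one_div]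
        exact mul_le_mul_of_nonneg_right (le_max_left _ _) (by positivity)
      calc ‖h'.toFun x - f x‖ = ‖(h'.toFun x - h₀.toFun x) + (h₀.toFun x - f x)‖ := by
            congr 1; abel
        _ ≤ ‖h'.toFun x - h₀.toFun x‖ + ‖h₀.toFun x - f x‖ := norm_add_le _ _
        _ ≤ 1 / 2 ^ m + max C 0 * (1 / 2 ^ m) := add_le_add h6 (e2.trans h9)
        _ = (max C 0 + 1) * (1 / 2 ^ m) := by ring
        _ ≤ (max C 0 + 1) * ρ (h'.toFun x) := by
          refine mul_le_mul_of_nonneg_left h8 ?_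
          have := le_max_right C 0
          linarith
    have h8 := hρs _ (f x) (hfi1 x hx).1 h7
    rw [(hfi1 x hx).2] at h8
    exact h7.trans h8
  have h1 : δ i ≤ ε i / 64 := min_le_right _ _
  have := hε i
  exact ((hh' i).1 t ht).trans (by linarith)

end P073.Net
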