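import Vale.Agent.P073.Net.NH1

/-!
# P073, block NET with closeness: reparametrisation of the net (NH1)

The proof is that of `specNH1` (helper260); new: the map moves only points near the edges, and only
as far as the reparametrisation.
-/

open Set Metric Topology MeasureTheory Filter
open scoped ENNReal NNReal

namespace P073.Net

open Vale.Agent.P073.St (V euc IsHomeo)

/-- (NH1) reparametrisation of the net by a conical homeomorphism of `Ω`, which moves only points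
in given neighbourhoods of the edges, not more than the reparametrisation does -/
def SpecNH1N : Prop :=
  ∀ (Ω : Set V) (G : Graph Ω), IsOpen Ω → ∀ (τ : G.ι → ℝ) (r : G.ι → ℝ → ℝ) (σ κ : G.ι → ℝ),
    (∀ i, 0 < τ i) → (∀ i, 0 < σ i) → (∀ i, 0 ≤ κ i) →
    (∀ i, StrictMonoOn (r i) (Icc 0 1)) → (∀ i, ConicalOn (r i) (Icc 0 1)) →
    (∀ i, ContinuousOn (r i) (Icc 0 1)) →
    (∀ i, ∀ t ∈ Icc (0:ℝ) 1, (t ≤ τ i ∨ 1 - τ i ≤ t) → r i t = t) →
    (∀ i, ∀ t ∈ Icc (0:ℝ) 1, |r i t - t| ≤ κ i) →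
    ∃ R : ConHomeo Ω Ω, (∀ i, ∀ t ∈ Icc (0:ℝ) 1, R.toFun (G.e i t) = G.e i (r i t)) ∧
      ∀ x ∈ Ω, R.toFun x = x ∨ ∃ i, (∃ t ∈ Icc (0:ℝ) 1, ‖x - G.e i t‖ ≤ σ i) ∧
        ‖R.toFun x - x‖ ≤ κ i * ‖G.b i - G.a i‖

/-- the soft threshold moves less than `r` -/
theorem soft_sub_le (r : ℝ ≃o ℝ) {κ : ℝ} (hκ : 0 ≤ κ) (s : ℝ) :
    |soft r κ s - s| ≤ |r s - s| := by
  unfold soft
  rcases le_total (r s) s with h | h
  · rw [abs_of_nonpos (by linarith : r s - s ≤ 0), abs_le]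
    have h1 : r s ≤ max (r s - κ) (min s (r s + κ)) :=
      le_max_of_le_right (le_min h (by linarith))
    have h2 : max (r s - κ) (min s (r s + κ)) ≤ s :=
      max_le (by linarith) (min_le_left _ _)
    constructor <;> linarith
  · rw [abs_of_nonneg (by linarith : 0 ≤ r s - s), abs_le]
    have h1 : s ≤ max (r s - κ) (min s (r s + κ)) :=
      le_max_of_le_right (le_min le_rfl (by linarith))
    have h2 : max (r s - κ) (min s (r s + κ)) ≤ r s :=
      max_le (by linarith) ((min_le_left _ _).trans h)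
    constructor <;> linarith

/-- **(NH1) with closeness** -/
theorem specNH1N : SpecNH1N := by
  intro Ω G hΩ τ r σ κ hτ hσ hκ hm hcon hcont hid hrκ
  obtain ⟨ρ, hρ⟩ := exists_sizeFn hΩ
  choose ε' hε' hε4' using fun i => G.exists_tube_size hΩ hρ i (hτ i)
  set ε : G.ι → ℝ := fun i => min (ε' i) (σ i) with hεdef
  have hε : ∀ i, 0 < ε i := fun i => lt_min (hε' i) (hσ i)
  have hεσ : ∀ i, ε i ≤ σ i := fun i => min_le_right _ _
  have hε4 : ∀ i, ∀ t ∈ Icc (τ i) (1 - τ i), 4 * ε i ≤ ρ (G.e i t) ∧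
      ∀ j, j ≠ i → ∀ y ∈ segment ℝ (G.a j) (G.b j), 3 * ε i ≤ ‖G.e i t - y‖ := by
    intro i t ht
    have h1 : ε i ≤ ε' i := min_le_left _ _
    refine ⟨by linarith [(hε4' i t ht).1], fun j hj y hy => ?_⟩
    linarith [(hε4' i t ht).2 j hj y hy]
  choose R hR hRcon hRid hR1 using fun i => exists_orderIso (hτ i) (hid i) (hm i) (hcont i) (hcon i)
  -- linear functionals
  have hℓ : ∀ i, ∃ ℓ : V →L[ℝ] ℝ, ℓ (G.b i - G.a i) = 1 := by
    intro i
    have hne : G.b i - G.a i ≠ 0 := sub_ne_zero.2 (G.ne i).symm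
    obtain ⟨k, hk⟩ : ∃ k, (G.b i - G.a i) k ≠ 0 := by
      by_contra h
      push Not at h
      exact hne (funext h)
    refine ⟨((G.b i - G.a i) k)⁻¹ • ContinuousLinearMap.proj (R := ℝ) (φ := fun _ : Fin 3 => ℝ) k, ?_⟩
    show ((G.b i - G.a i) k)⁻¹ * (G.b i - G.a i) k = 1
    exact inv_mul_cancel₀ hk
  choose ℓ hℓ using hℓ
  let d : G.ι → V := fun i => G.b i - G.a i
  let K : G.ι → Set V := fun i =>
    {x | cs (ℓ i) (G.a i) x ∈ Icc (τ i) (1 - τ i) ∧ ‖cw (ℓ i) (G.a i) (d i) x‖ ≤ ε i}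
  let Θ : G.ι → ConHomeo (univ : Set V) (univ : Set V) := fun i =>
    tubeHomeo conNorm_pi (R i) (hRcon i) (ℓ i) (G.a i) (d i) (hℓ i) (ε i)
  -- points of `K i` are close to the edge
  have hnear : ∀ i, ∀ x ∈ K i, ∃ t ∈ Icc (τ i) (1 - τ i), ‖x - G.e i t‖ ≤ ε i := by
    intro i x hx
    refine ⟨_, hx.1, ?_⟩
    have h1 := eq_seg_add_cw (ℓ i) (G.a i) (d i) x
    have h2 : x - G.e i (cs (ℓ i) (G.a i) x) = cw (ℓ i) (G.a i) (d i) x := by
      show x - (G.a i + cs (ℓ i) (G.a i) x • d i) = _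
      rw [sub_eq_iff_eq_add, add_comm (cw (ℓ i) (G.a i) (d i) x)]
      exact h1
    rw [h2]
    exact hx.2
  have hKΩ : ∀ i, K i ⊆ Ω := by
    intro i x hx
    obtain ⟨t, ht, hxt⟩ := hnear i x hx
    refine hρ.mem ?_
    have h1 := (hε4 i t ht).1
    have h2 := hρ.lip (G.e i t) x
    rw [norm_sub_rev] at h2
    have := hε i
    linarith
  have hidoff : ∀ i x, x ∉ K i → (Θ i).toFun x = x := by
    intro i x hx
    refine tubeMap_of_le _ _ _ _ _ ?_
    by_cases h1 : cs (ℓ i) (G.a i) x ∈ Icc (τ i) (1 - τ i)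
    · have h2 : ε i < ‖cw (ℓ i) (G.a i) (d i) x‖ := by
        by_contra h
        push Not at h
        exact hx ⟨h1, h⟩
      refine (hR1 i _).trans ?_
      rw [one_le_div (hε i)]
      exact h2.le
    · have h2 : cs (ℓ i) (G.a i) x ≤ τ i ∨ 1 - τ i ≤ cs (ℓ i) (G.a i) x := by
        by_contra h
        push Not at h
        exact h1 ⟨h.1.le, h.2.le⟩
      rw [hRid i _ h2, sub_self, abs_zero]
      exact div_nonneg (norm_nonneg _) (hε i).le
  have hdisj : ∀ i j, i ≠ j → ∀ x ∈ K i, x ∉ K j := by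
    intro i j hij x hx hxj
    wlog hle : ε j ≤ ε i generalizing i j
    · exact this j i hij.symm hxj hx (le_of_not_ge hle)
    obtain ⟨t, ht, hxt⟩ := hnear i x hx
    obtain ⟨u, hu, hxu⟩ := hnear j x hxj
    have hu' : u ∈ Icc (0:ℝ) 1 := ⟨(hτ j).le.trans hu.1, hu.2.trans (by linarith [hτ j])⟩
    have h1 := (hε4 i t ht).2 j hij.symm _ (G.e_mem j hu')
    have h2 : ‖G.e i t - G.e j u‖ ≤ ‖x - G.e i t‖ + ‖x - G.e j u‖ := by
      have : G.e i t - G.e j u = (x - G.e j u) - (x - G.e i t) := by abel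
      rw [this, add_comm]
      exact norm_sub_le _ _
    have := hε i
    linarith
  have hfin : ∀ z ∈ Ω, ∃ U ∈ 𝓝 z, {c | (K c ∩ U).Nonempty}.Finite := by
    intro z hz
    have hz0 := hρ.pos z hz
    have hsub : closedBall z (2 / 3 * ρ z) ⊆ Ω := by
      intro y hy
      rw [mem_closedBall, dist_eq_norm, norm_sub_rev] at hy
      refine hρ.mem ?_
      have := hρ.lip z y
      linarith
    have hf := G.fin _ hsub (isCompact_closedBall z _)
    refine ⟨closedBall z (ρ z / 4), closedBall_mem_nhds z (by linarith), hf.subset ?_⟩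
    rintro i ⟨x, hx, hxz⟩
    obtain ⟨t, ht, hxt⟩ := hnear i x hx
    have ht' : t ∈ Icc (0:ℝ) 1 := ⟨(hτ i).le.trans ht.1, ht.2.trans (by linarith [hτ i])⟩
    refine ⟨G.e i t, G.e_mem i ht', ?_⟩
    rw [mem_closedBall, dist_eq_norm] at hxz ⊢
    have h1 := (hε4 i t ht).1
    have h2 := hρ.lip (G.e i t) x
    have h3 := hρ.lip x z
    have h4 : ‖G.e i t - z‖ ≤ ‖G.e i t - x‖ + ‖x - z‖ := by
      have : G.e i t - z = (G.e i t - x) + (x - z) := by abel
      rw [this]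
      exact norm_add_le _ _
    rw [norm_sub_rev] at hxt
    linarith
  obtain ⟨Φ, hΦ1, hΦ2, -, -⟩ := exists_glue_ambient hΩ Θ K hKΩ hidoff hfin
    (fun i j hij x hx hxj => absurd hxj (hdisj i j hij x hx))
  refine ⟨Φ, fun i t ht => ?_, fun x _ => ?_⟩
  rotate_left
  · by_cases hx : ∃ i, x ∈ K i
    · obtain ⟨i, hi⟩ := hx
      obtain ⟨t, ht, hxt⟩ := hnear i x hi
      have ht' : t ∈ Icc (0:ℝ) 1 := ⟨(hτ i).le.trans ht.1, ht.2.trans (by linarith [hτ i])⟩
      refine Or.inr ⟨i, ⟨t, ht', hxt.trans (hεσ i)⟩, ?_⟩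
      rw [hΦ1 i x hi]
      have hs : cs (ℓ i) (G.a i) x ∈ Icc (0:ℝ) 1 :=
        ⟨(hτ i).le.trans hi.1.1, hi.1.2.trans (by linarith [hτ i])⟩
      have h1 : |R i (cs (ℓ i) (G.a i) x) - cs (ℓ i) (G.a i) x| ≤ κ i := by
        rw [hR i _ hs]
        exact hrκ i _ hs
      show ‖tubeMap (R i) (ℓ i) (G.a i) (d i) (ε i) x - x‖ ≤ _
      unfold tubeMap
      rw [add_sub_cancel_left, norm_smul, Real.norm_eq_abs]
      refine mul_le_mul_of_nonneg_right ?_ (norm_nonneg _)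
      exact (soft_sub_le _ (div_nonneg (norm_nonneg _) (hε i).le) _).trans h1
    · push Not at hx
      exact Or.inl (hΦ2 x hx)
  by_cases htτ : t ∈ Icc (τ i) (1 - τ i)
  · have hxK : G.e i t ∈ K i := by
      refine ⟨?_, ?_⟩
      · show cs (ℓ i) (G.a i) (G.a i + t • d i) ∈ _
        rw [cs_seg (hℓ i)]; exact htτ
      · show ‖cw (ℓ i) (G.a i) (d i) (G.a i + t • d i)‖ ≤ _
        rw [cw_seg (hℓ i), norm_zero]; exact (hε i).le
    rw [hΦ1 i _ hxK]
    show tubeMap (R i) (ℓ i) (G.a i) (d i) (ε i) (G.a i + t • d i) = _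
    rw [tubeMap_seg (R i) (G.a i) (hℓ i), hR i t ht]
    rfl
  · have h2 : t ≤ τ i ∨ 1 - τ i ≤ t := by
      by_contra h
      push Not at h
      exact htτ ⟨h.1.le, h.2.le⟩
    rw [hid i t ht h2]
    refine hΦ2 _ fun j hj => ?_
    by_cases hij : j = i
    · subst hij
      apply htτ
      have h3 := hj.1
      change cs (ℓ j) (G.a j) (G.a j + t • d j) ∈ _ at h3
      rwa [cs_seg (hℓ j)] at h3
    · obtain ⟨u, hu, hxu⟩ := hnear j _ hj
      have h1 := (hε4 j u hu).2 i (Ne.symm hij) _ (G.e_mem i ht)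
      rw [norm_sub_rev] at h1
      have := hε j
      linarith

end P073.Net
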