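import Vale.Agent.P073.Net.NH2
import Vale.Agent.P073.Net.Near3
import Vale.Agent.P073.Net.Near4

/-!
# P073, block NET with closeness: the `W^{1,p}` form (NH2)

The proof is that of `specNH2` (helper154); new: the reparametrisation moves only points near the
edges, by so little that `f` changes little.
-/

open Set Metric Topology MeasureTheory Filter
open scoped ENNReal NNReal

namespace P073.Net

open Vale.Agent.P073.St (V euc IsHomeo)

variable {Ω Λ : Set V}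

/-- near a compact set the map changes little -/
theorem exists_nbhd (hΩ : IsOpen Ω) {K : Set V} (hK : IsCompact K) (hKΩ : K ⊆ Ω) {f : V → V}
    (hf : ContinuousOn f Ω) {σ : V → ℝ} (hσ : ContinuousOn σ Ω) (hσ0 : ∀ x ∈ Ω, 0 < σ x) :
    ∃ w > 0, ∀ p ∈ K, ∀ x y : V, ‖x - p‖ ≤ w → ‖y - x‖ ≤ w →
      ‖f y - f x‖ ≤ σ x / 2 ∧ σ y ≤ 2 * σ x := by
  have key : ∀ p ∈ K, ∃ r > 0, ∀ x ∈ ball p r, ∀ y ∈ ball p r,
      ‖f y - f x‖ ≤ σ x / 2 ∧ σ y ≤ 2 * σ x := by
    intro p hp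
    have hp0 := hσ0 p (hKΩ hp)
    have h1 : ∀ᶠ x in 𝓝 p, ‖f x - f p‖ < σ p / 8 := by
      have := (hf.continuousAt (hΩ.mem_nhds (hKΩ hp))).eventually
        (Metric.ball_mem_nhds (f p) (show 0 < σ p / 8 by linarith))
      filter_upwards [this] with x hx
      rwa [dist_eq_norm] at hx
    have h2 : ∀ᶠ x in 𝓝 p, |σ x - σ p| < σ p / 4 := by
      have := (hσ.continuousAt (hΩ.mem_nhds (hKΩ hp))).eventually
        (Metric.ball_mem_nhds (σ p) (show 0 < σ p / 4 by linarith))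
      filter_upwards [this] with x hx
      rwa [Real.dist_eq] at hx
    obtain ⟨r, hr, hb⟩ := Metric.eventually_nhds_iff_ball.1 (h1.and h2)
    refine ⟨r, hr, fun x hx y hy => ?_⟩
    obtain ⟨a1, a2⟩ := hb x hx
    obtain ⟨b1, b2⟩ := hb y hy
    rw [abs_lt] at a2 b2
    refine ⟨?_, by linarith⟩
    calc ‖f y - f x‖ = ‖(f y - f p) - (f x - f p)‖ := by congr 1; abel
      _ ≤ ‖f y - f p‖ + ‖f x - f p‖ := norm_sub_le _ _
      _ ≤ σ x / 2 := by linarith
  choose! r hr hg using key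
  obtain ⟨δ, hδ, hleb⟩ := lebesgue_number_lemma_of_metric (s := K) (c := fun p : K => ball p.1 (r p.1))
    hK (fun p => isOpen_ball) (fun p hp => mem_iUnion.2 ⟨⟨p, hp⟩, mem_ball_self (hr p hp)⟩)
  refine ⟨δ / 3, by positivity, fun p hp x y hx hy => ?_⟩
  obtain ⟨q, hq⟩ := hleb p hp
  refine hg q.1 q.2 x (hq ?_) y (hq ?_)
  · rw [mem_ball, dist_eq_norm]; linarith
  · rw [mem_ball, dist_eq_norm]
    have h1 : ‖y - p‖ ≤ ‖y - x‖ + ‖x - p‖ := by
      have : y - p = (y - x) + (x - p) := by abel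
      rw [this]; exact norm_add_le _ _
    linarith

/-- choice of the parameters on one edge, with many pieces -/
theorem edge_paramsN (n₁ : ℕ) {p : ℝ} (hp : 1 ≤ p) (hp2 : p ≤ 2) {D F : ℝ → V}
    (hD : IntegrableOn D (Icc 0 1)) (hDp : IntegrableOn (fun t => euc (D t) ^ p) (Icc 0 1))
    (hF : ContinuousOn F (Icc 0 1)) {ε : ℝ} (hε : 0 < ε) :
    ∃ (n : ℕ) (θ C δ e : ℝ) (c : ℕ → V), n₁ ≤ n ∧ 0 < n ∧ 0 ≤ θ ∧ 0 < C ∧ PieceBd p θ C ∧ 0 < e ∧
      e ≤ ε / 2 ∧ (∀ s ∈ Icc (0:ℝ) 1, ∀ t ∈ Icc (0:ℝ) 1, |s - t| ≤ 1 / n → ‖F s - F t‖ ≤ ε / 2) ∧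
      ∑ k ∈ Finset.range n,
        ∫ t in Icc ((k:ℝ) / n) ((k + 1 : ℝ) / n), euc (D t - c k) ^ p ≤ δ ∧
      θ * (∫ t in Icc (0:ℝ) 1, euc (D t) ^ p) ≤ ε / 8 ∧
      C * δ ≤ ε / 8 ∧ 8 * n * e ≤ 1 ∧ C * (8 * n * e) ≤ ε / 8 := by
  set I : ℝ := ∫ t in Icc (0:ℝ) 1, euc (D t) ^ p with hI
  have hI0 : 0 ≤ I := integral_nonneg fun t => by
    have := euc_nonneg (D t); simp only [Pi.zero_apply]; positivity
  have hθ : 0 < ε / (8 * (I + 1)) := by positivity
  obtain ⟨C, hC0, hC⟩ := piece_estimate hp hp2 hθ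
  obtain ⟨n₀, hn₀⟩ := exists_step hp hp2 hD hDp (δ := ε / (8 * C)) (by positivity)
  have hu : UniformContinuousOn F (Icc 0 1) :=
    isCompact_Icc.uniformContinuousOn_of_continuous hF
  rw [Metric.uniformContinuousOn_iff] at hu
  obtain ⟨d, hd, hud⟩ := hu (ε / 2) (by positivity)
  obtain ⟨m, hm⟩ := exists_nat_gt (1 / d)
  have hm0 : (0:ℝ) < m := lt_trans (by positivity) hm
  set n : ℕ := max (max n₀ n₁) m with hn
  have hmn : (m:ℝ) ≤ n := by exact_mod_cast le_max_right (max n₀ n₁) m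
  have hnpos : (0:ℝ) < n := hm0.trans_le hmn
  have hn0 : 0 < n := by exact_mod_cast hnpos
  obtain ⟨c, hc⟩ := hn₀ n ((le_max_left _ _).trans (le_max_left _ _)) hn0
  refine ⟨n, ε / (8 * (I + 1)), C, ε / (8 * C), min (ε / 2) (min (1 / (8 * n)) (ε / (64 * n * C))),
    c, (le_max_right _ _).trans (le_max_left _ _), hn0, hθ.le, hC0, hC, by positivity, min_le_left _ _, ?_, hc, ?_, ?_, ?_, ?_⟩
  · intro s hs t ht hst
    have h1 : |s - t| < d := by
      refine hst.trans_lt ?_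
      have h2 : 1 < d * m := by
        have := (div_lt_iff₀ hd).1 hm
        linarith
      rw [div_lt_iff₀ hnpos]
      have := mul_le_mul_of_nonneg_left hmn hd.le
      linarith
    have := hud s hs t ht (by rwa [Real.dist_eq])
    rw [dist_eq_norm] at this
    exact this.le
  · rw [div_mul_eq_mul_div, div_le_div_iff₀ (by positivity) (by norm_num)]
    nlinarith
  · rw [show C * (ε / (8 * C)) = ε / 8 by field_simp]
  · have h1 : min (ε / 2) (min (1 / (8 * n)) (ε / (64 * n * C))) ≤ 1 / (8 * n) :=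
      (min_le_right _ _).trans (min_le_left _ _)
    have h2 : 8 * (n:ℝ) * (1 / (8 * n)) = 1 := by field_simp
    calc 8 * (n:ℝ) * min (ε / 2) (min (1 / (8 * n)) (ε / (64 * n * C)))
        ≤ 8 * (n:ℝ) * (1 / (8 * n)) := mul_le_mul_of_nonneg_left h1 (by positivity)
      _ = 1 := h2
  · have h1 : min (ε / 2) (min (1 / (8 * n)) (ε / (64 * n * C))) ≤ ε / (64 * n * C) :=
      (min_le_right _ _).trans (min_le_right _ _)
    have h2 : C * (8 * (n:ℝ) * (ε / (64 * n * C))) = ε / 8 := by field_simp; norm_num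
    calc C * (8 * (n:ℝ) * min (ε / 2) (min (1 / (8 * n)) (ε / (64 * n * C))))
        ≤ C * (8 * (n:ℝ) * (ε / (64 * n * C))) :=
          mul_le_mul_of_nonneg_left (mul_le_mul_of_nonneg_left h1 (by positivity)) hC0.le
      _ = ε / 8 := h2

/-- **(NH2) with closeness** -/
theorem specNH2N (hLen : NetLenN) (hNH1 : SpecNH1N) : NetLpN := by
  intro C₀ p Ω Λ f G D hp hp2 hΩ hΛ hf hD hDp hTT ε hε σ hσ hσ0
  have hDi : ∀ i, IntegrableOn (D i) (Icc 0 1) := fun i =>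
    (intervalIntegrable_iff_integrableOn_Icc_of_le zero_le_one).1 (hD.int i)
  have hDpi : ∀ i, IntegrableOn (fun t => euc (D i t) ^ p) (Icc 0 1) := fun i =>
    (intervalIntegrable_iff_integrableOn_Icc_of_le zero_le_one).1 (hDp i)
  have hfc : ContinuousOn f Ω := by
    obtain ⟨_, _, h, _⟩ := hf; exact h
  have hFc : ∀ i, ContinuousOn (fun t => f (G.e i t)) (Icc 0 1) := fun i =>
    hfc.comp (G.continuous_e i).continuousOn (G.e_mem_Ω i)
  -- the neighbourhoods of the edges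
  choose w hw hwg using fun i => exists_nbhd hΩ (G.isCompact_seg i) (G.sub i) hfc hσ hσ0
  have hn1 : ∀ i, ∃ n₁ : ℕ, ∀ n : ℕ, n₁ ≤ n → 0 < n → 1 / (n:ℝ) * ‖G.b i - G.a i‖ ≤ w i := by
    intro i
    obtain ⟨n₁, h⟩ := exists_nat_ge (‖G.b i - G.a i‖ / w i)
    refine ⟨n₁, fun n hn hn0 => ?_⟩
    have h0 : (0:ℝ) < n := by exact_mod_cast hn0
    have h1 : (n₁:ℝ) ≤ n := by exact_mod_cast hn
    rw [one_div_mul_eq_div, div_le_iff₀ h0]
    have h2 := (div_le_iff₀ (hw i)).1 (h.trans h1)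
    linarith
  choose n₁ hn₁ using hn1
  choose n θ C δ e c hnn hn hθ hC0 hC he heε hclose hstep hθε hδε he1 heC using fun i =>
    edge_paramsN (n₁ i) hp hp2 (hDi i) (hDpi i) (hFc i) (hε i)
  obtain ⟨h₀, hh₀n, hh₀⟩ := hLen C₀ Ω Λ f (G.subdiv n hn) (subD D n hn) hΩ hΛ hf
    (subdiv_acon hD n hn)
    (fun ρ hρ => by
      filter_upwards [hTT ρ hρ] with v hv
      obtain ⟨h, hh, hnear⟩ := hv
      exact ⟨h, P073.Top.sameCode_mono (fun j => ⟨j.1, G.subdiv_seg n hn j⟩) hh, hnear⟩)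
    (fun j => e j.1) (fun j => he j.1) (fun x => σ x / 4) (hσ.div_const 4)
    (fun x hx => by have := hσ0 x hx; linarith)
  -- the curves
  have hq : ∀ i, ConicalOn (fun t => h₀.toFun (G.e i t)) (Icc 0 1) := fun i =>
    G.conical_curve h₀ i
  have hinj : ∀ i, InjOn (fun t => h₀.toFun (G.e i t)) (Icc 0 1) := fun i s hs t ht hst =>
    G.e_injective i (h₀.injOn (G.e_mem_Ω i hs) (G.e_mem_Ω i ht) hst)
  have hcl : ∀ i, ∀ t ∈ Icc (0:ℝ) 1, ‖h₀.toFun (G.e i t) - f (G.e i t)‖ ≤ e i := by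
    intro i t ht
    have h0 : (0:ℝ) < n i := by exact_mod_cast hn i
    obtain ⟨k, hk, hkt⟩ := partition_cover (fun k => (k:ℝ) / n i) (n i) (hn i) (t := t) (by
      simpa [div_self h0.ne'] using ht)
    simp only [Nat.cast_add, Nat.cast_one] at hkt
    have h1 := (div_le_iff₀ h0).1 hkt.1
    have h2 := (le_div_iff₀ h0).1 hkt.2
    let j : (G.subdiv n hn).ι := ⟨i, ⟨k, hk⟩⟩
    have h3 := (hh₀ j).1 (t * n i - k) ⟨by linarith, by linarith⟩
    rw [subdiv_e'] at h3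
    have h4 : ((((j.2 : ℕ) : ℝ) + (t * n i - k)) / n j.1) = t := by
      show ((k:ℝ) + (t * n i - k)) / n i = t
      field_simp
      ring
    rw [h4] at h3
    exact h3
  have hlen : ∀ i, ∀ k < n i, len (fun t => h₀.toFun (G.e i t))
      (Icc ((k:ℝ) / n i) ((k + 1 : ℝ) / n i)) ≤
      ENNReal.ofReal ((∫ t in Icc ((k:ℝ) / n i) ((k + 1 : ℝ) / n i), euc (D i t)) + e i) := by
    intro i k hk
    let j : (G.subdiv n hn).ι := ⟨i, ⟨k, hk⟩⟩
    have h3 := (hh₀ j).2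
    rw [len_piece, subD_euc] at h3
    exact h3
  choose τ hτ r hr hrτ hrn hrE using fun i =>
    edge_rep (F := fun t => f (G.e i t)) hp hp2 (hn i) (hC0 i) (hC i) (hq i) (hinj i) (hDi i)
      (hDpi i) (fun s t hs hst ht => hD.sub_eq i hs hst ht) (he i) (hcl i) (hlen i) (c i) (hstep i)
      (hθ i) (hε i) (hθε i) (hδε i) (he1 i) (heC i)
  obtain ⟨R, hR, hRn⟩ := hNH1 Ω G hΩ τ r w (fun i => 1 / (n i : ℝ)) hτ hw
    (fun i => by positivity) (fun i => (hr i).mono) (fun i => (hr i).con)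
    (fun i => (hr i).cont) hrτ hrn
  have hcurve : ∀ i, ∀ t ∈ Icc (0:ℝ) 1, (R.trans h₀).toFun (G.e i t) =
      h₀.toFun (G.e i (r i t)) := by
    intro i t ht
    simp only [ConHomeo.trans_toFun, Function.comp]
    rw [hR i t ht]
  refine ⟨R.trans h₀, fun x hx => ?_, fun i => ⟨?_, ?_, ?_⟩⟩
  · show ‖h₀.toFun (R.toFun x) - f x‖ ≤ σ x
    rcases hRn x hx with h | ⟨i, ⟨t, ht, hxt⟩, hRx⟩
    · rw [h]
      have := hσ0 x hx
      exact (hh₀n x hx).trans (by linarith)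
    · obtain ⟨g1, g2⟩ := hwg i (G.e i t) (G.e_mem i ht) x (R.toFun x) hxt
        (hRx.trans (hn₁ i (n i) (hnn i) (hn i)))
      have h3 := hh₀n _ (R.mapsTo hx)
      calc ‖h₀.toFun (R.toFun x) - f x‖
          = ‖(h₀.toFun (R.toFun x) - f (R.toFun x)) + (f (R.toFun x) - f x)‖ := by
            congr 1; abel
        _ ≤ ‖h₀.toFun (R.toFun x) - f (R.toFun x)‖ + ‖f (R.toFun x) - f x‖ := norm_add_le _ _
        _ ≤ σ (R.toFun x) / 4 + σ x / 2 := add_le_add h3 g1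
        _ ≤ σ x := by linarith
  · intro t ht
    rw [hcurve i t ht]
    have h1 := (hr i).mapsTo ht
    have h2 := hcl i (r i t) h1
    have h3 := hclose i (r i t) h1 t ht (hrn i t ht)
    calc ‖h₀.toFun (G.e i (r i t)) - f (G.e i t)‖ =
          ‖(h₀.toFun (G.e i (r i t)) - f (G.e i (r i t))) + (f (G.e i (r i t)) - f (G.e i t))‖ := by
            congr 1; abel
      _ ≤ _ := norm_add_le _ _
      _ ≤ e i + ε i / 2 := add_le_add h2 h3
      _ ≤ ε i := by linarith [heε i]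
  · obtain ⟨K, hK⟩ := conical_lipschitz zero_le_one (G.conical_curve (R.trans h₀) i)
    exact ⟨K, hK⟩
  · exact hrE i (fun s => (R.trans h₀).toFun (G.e i s)) fun t ht => hcurve i t ht

end P073.Net
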