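import Vale.Agent.P073.Net.Final
import Vale.Agent.P073.Net.Near5

/-!
# P073, block NET with closeness: final forms
-/

open Set Metric Topology MeasureTheory Filter
open scoped ENNReal

namespace P073.Net

/-- **NET, length form, with closeness** -/
theorem netLenN : NetLenN :=
  netLenN_of specNB specNC (specNDR specNA1 specNA2 specNC) specT1 (specNG1N specT2)
    (specNG3 specT1 specT2)

/-- **NET, `W^{1,p}` form, with closeness** -/
theorem netLpN : NetLpN := specNH2N netLenN specNH1N

end P073.Net

namespace P073.Top

/-- the input of the analysis part, with closeness, from the topology part -/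
theorem netOutN_of_top {C : ℝ} (hTT : TopTTn C) : NetOutN := netOutN_of hTT P073.Net.netLpN

end P073.Top
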