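import Vale.Agent.P073.Net.Defs

/-!
# P073, block NET: explicit ambient conical homeomorphisms

`x ↦ x + (min_j α_j(x))⁺ u` for affine functionals `α_j` with `1 + A_j u > 0`.
-/

open Set Metric Topology MeasureTheory Filter

namespace P073

section
variable {E F : Type*} [NormedAddCommGroup E] [NormedSpace ℝ E]
  [NormedAddCommGroup F] [NormedSpace ℝ F]

/-- products of a conical real function and a fixed vector -/
theorem ConicalWithinAt.smul_const' {a : E → ℝ} {X : Set E} {x : E} (H : ConicalWithinAt a X x)
    (u : F) : ConicalWithinAt (fun y => a y • u) X x :=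
  H.linear_comp (LinearMap.toSpanSingleton ℝ F u)

theorem ConicalOn.smul_const' {a : E → ℝ} {X : Set E} (H : ConicalOn a X)
    (u : F) : ConicalOn (fun y => a y • u) X := fun x hx => (H x hx).smul_const' u

theorem conicalOn_clm_add (A : E →L[ℝ] F) (c : F) : ConicalOn (fun y => A y + c) univ :=
  (conicalOn_linear A.toLinearMap (IsOpen.conicalSet isOpen_univ)).add
    (conicalOn_const c (IsOpen.conicalSet isOpen_univ))

/-- finite minima of continuous conical functions are conical -/
theorem conicalOn_inf' {J : Type*} (s : Finset J) (hs : s.Nonempty) {a : J → E → ℝ}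
    (ha : ∀ j, ConicalOn (a j) univ) (hc : ∀ j, Continuous (a j)) :
    ConicalOn (fun y => s.inf' hs (fun j => a j y)) univ ∧
      Continuous (fun y => s.inf' hs (fun j => a j y)) := by
  classical
  induction hs using Finset.Nonempty.cons_induction with
  | singleton j => simpa using ⟨ha j, hc j⟩
  | cons j s hj hs ih =>
    obtain ⟨h1, h2⟩ := ih
    have he : (fun y => (Finset.cons j s hj).inf' (Finset.cons_nonempty hj) (fun j => a j y)) =
        fun y => min (a j y) (s.inf' hs (fun j => a j y)) := by
      funext y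
      rw [Finset.inf'_cons hs]
    rw [he]
    exact ⟨(ha j).rmin h1 (hc j).continuousOn h2.continuousOn, (hc j).min h2⟩

end

namespace Net

section push

variable {E : Type*} [NormedAddCommGroup E] [NormedSpace ℝ E]
variable {J : Type*} [Fintype J] [Nonempty J]
set_option linter.unusedSectionVars false

/-- the positive part of the minimum of the affine functionals `A j x + c j` -/
noncomputable def depth (A : J → E →L[ℝ] ℝ) (c : J → ℝ) (x : E) : ℝ :=
  max 0 (Finset.univ.inf' Finset.univ_nonempty (fun j => A j x + c j))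

/-- the push map -/
noncomputable def push (A : J → E →L[ℝ] ℝ) (c : J → ℝ) (u : E) (x : E) : E :=
  x + depth A c x • u

theorem depth_nonneg (A : J → E →L[ℝ] ℝ) (c : J → ℝ) (x : E) : 0 ≤ depth A c x :=
  le_max_left _ _

theorem depth_eq_of_le {A : J → E →L[ℝ] ℝ} {c : J → ℝ} {x : E} {j : J} (h : A j x + c j ≤ 0) :
    depth A c x = 0 := by
  refine max_eq_left (le_trans (Finset.inf'_le _ (Finset.mem_univ j)) h)

theorem depth_pos_iff {A : J → E →L[ℝ] ℝ} {c : J → ℝ} {x : E} :
    0 < depth A c x ↔ ∀ j, 0 < A j x + c j := by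
  unfold depth
  rw [lt_max_iff]
  simp

theorem depth_le {A : J → E →L[ℝ] ℝ} {c : J → ℝ} {x : E} (h : 0 < depth A c x) (j : J) :
    depth A c x ≤ A j x + c j := by
  unfold depth at *
  rw [max_eq_right_of_lt (by simpa using h)]
  exact Finset.inf'_le _ (Finset.mem_univ j)

theorem exists_depth_eq {A : J → E →L[ℝ] ℝ} {c : J → ℝ} {x : E} (h : 0 < depth A c x) :
    ∃ j, depth A c x = A j x + c j := by
  obtain ⟨j, _, hj⟩ := Finset.exists_mem_eq_inf' (Finset.univ_nonempty (α := J))
    (fun j => A j x + c j)
  refine ⟨j, ?_⟩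
  have h' := h
  unfold depth at h ⊢
  rw [max_eq_right_of_lt (by simpa using h), hj]

theorem depth_eq_of {A : J → E →L[ℝ] ℝ} {c : J → ℝ} {x : E} {s : ℝ} (hs : 0 ≤ s)
    (h1 : ∀ j, s ≤ A j x + c j) (h2 : ∃ j, A j x + c j = s) : depth A c x = s := by
  obtain ⟨j, hj⟩ := h2
  have : Finset.univ.inf' Finset.univ_nonempty (fun j => A j x + c j) = s := by
    apply le_antisymm
    · rw [← hj]; exact Finset.inf'_le _ (Finset.mem_univ j)
    · exact Finset.le_inf' _ _ fun j _ => h1 j
  unfold depth
  rw [this, max_eq_right hs]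

/-- the functionals of the inverse map -/
noncomputable def invA (A : J → E →L[ℝ] ℝ) (u : E) (j : J) : E →L[ℝ] ℝ := (1 + A j u)⁻¹ • A j

/-- the constants of the inverse map -/
noncomputable def invc (A : J → E →L[ℝ] ℝ) (c : J → ℝ) (u : E) (j : J) : ℝ :=
  (1 + A j u)⁻¹ * c j

theorem invA_add_invc (A : J → E →L[ℝ] ℝ) (c : J → ℝ) (u : E) (j : J) (x : E) :
    invA A u j x + invc A c u j = (1 + A j u)⁻¹ * (A j x + c j) := by
  simp only [invA, invc, smul_apply, smul_eq_mul]
  ring

theorem one_add_invA {A : J → E →L[ℝ] ℝ} {u : E} {j : J} (h : 0 < 1 + A j u) :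
    1 + invA A u j (-u) = (1 + A j u)⁻¹ := by
  simp only [invA, smul_apply, smul_eq_mul, map_neg]
  have := h.ne'
  field_simp
  ring

theorem depth_push {A : J → E →L[ℝ] ℝ} {c : J → ℝ} {u : E} (h : ∀ j, 0 < 1 + A j u) (x : E) :
    depth (invA A u) (invc A c u) (push A c u x) = depth A c x := by
  rcases (depth_nonneg A c x).eq_or_lt with h0 | h0
  · have hx : push A c u x = x := by simp [push, ← h0]
    rw [hx, ← h0]
    have : ¬ ∀ j, 0 < A j x + c j := fun h' => by
      have := depth_pos_iff.2 h'
      linarith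
    push Not at this
    obtain ⟨j, hj⟩ := this
    refine depth_eq_of_le (j := j) ?_
    rw [invA_add_invc]
    exact mul_nonpos_of_nonneg_of_nonpos (inv_nonneg.2 (h j).le) hj
  · refine depth_eq_of h0.le (fun j => ?_) ?_
    · rw [invA_add_invc]
      have h1 := depth_le h0 j
      have h2 : A j (push A c u x) + c j = A j x + c j + depth A c x * A j u := by
        simp only [push, map_add, map_smul, smul_eq_mul]; ring
      rw [h2, inv_mul_eq_div, le_div_iff₀ (h j)]
      nlinarith
    · obtain ⟨j, hj⟩ := exists_depth_eq h0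
      refine ⟨j, ?_⟩
      rw [invA_add_invc]
      have h2 : A j (push A c u x) + c j = A j x + c j + depth A c x * A j u := by
        simp only [push, map_add, map_smul, smul_eq_mul]; ring
      rw [h2, ← hj, inv_mul_eq_div, div_eq_iff (h j).ne']
      ring

theorem push_left_inv {A : J → E →L[ℝ] ℝ} {c : J → ℝ} {u : E} (h : ∀ j, 0 < 1 + A j u) (x : E) :
    push (invA A u) (invc A c u) (-u) (push A c u x) = x := by
  unfold push
  have := depth_push (c := c) h x
  unfold push at this
  rw [this]
  simp

theorem invA_invA {A : J → E →L[ℝ] ℝ} {u : E} (h : ∀ j, 0 < 1 + A j u) :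
    invA (invA A u) (-u) = A := by
  funext j
  have h1 := one_add_invA (h j)
  have h2 := (h j).ne'
  ext x
  rw [invA, h1]
  simp only [invA, smul_apply, smul_eq_mul]
  rw [inv_inv, ← mul_assoc, mul_inv_cancel₀ h2, one_mul]

theorem invc_invc {A : J → E →L[ℝ] ℝ} {c : J → ℝ} {u : E} (h : ∀ j, 0 < 1 + A j u) :
    invc (invA A u) (invc A c u) (-u) = c := by
  funext j
  have h1 := one_add_invA (h j)
  have h2 := (h j).ne'
  rw [invc, h1, inv_inv, invc, ← mul_assoc, mul_inv_cancel₀ h2, one_mul]

theorem push_right_inv {A : J → E →L[ℝ] ℝ} {c : J → ℝ} {u : E} (h : ∀ j, 0 < 1 + A j u) (x : E) :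
    push A c u (push (invA A u) (invc A c u) (-u) x) = x := by
  have h' : ∀ j, 0 < 1 + invA A u j (-u) := fun j => by
    rw [one_add_invA (h j)]; exact inv_pos.2 (h j)
  have := push_left_inv (A := invA A u) (c := invc A c u) (u := -u) h' x
  rwa [invA_invA h, invc_invc h, neg_neg] at this

theorem continuous_depth (A : J → E →L[ℝ] ℝ) (c : J → ℝ) : Continuous (depth A c) := by
  unfold depth
  exact continuous_const.max (conicalOn_inf' _ _ (fun j => conicalOn_clm_add (A j) (c j))
    (fun j => by fun_prop)).2

theorem conicalOn_depth (A : J → E →L[ℝ] ℝ) (c : J → ℝ) : ConicalOn (depth A c) univ := by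
  have h := conicalOn_inf' (Finset.univ (α := J)) Finset.univ_nonempty
    (fun j => conicalOn_clm_add (A j) (c j)) (fun j => by fun_prop)
  exact (conicalOn_const 0 (IsOpen.conicalSet isOpen_univ)).rmax h.1 continuousOn_const
    h.2.continuousOn

theorem continuous_push (A : J → E →L[ℝ] ℝ) (c : J → ℝ) (u : E) : Continuous (push A c u) :=
  continuous_id.add ((continuous_depth A c).smul continuous_const)

theorem conicalOn_push (A : J → E →L[ℝ] ℝ) (c : J → ℝ) (u : E) : ConicalOn (push A c u) univ :=
  (conicalOn_id (IsOpen.conicalSet isOpen_univ)).add ((conicalOn_depth A c).smul_const' u)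

/-- the push map as a conical homeomorphism of the space -/
noncomputable def pushHomeo (A : J → E →L[ℝ] ℝ) (c : J → ℝ) (u : E) (h : ∀ j, 0 < 1 + A j u) :
    ConHomeo (univ : Set E) (univ : Set E) where
  toFun := push A c u
  invFun := push (invA A u) (invc A c u) (-u)
  mapsTo := mapsTo_univ _ _
  mapsTo_inv := mapsTo_univ _ _
  left_inv := fun x _ => push_left_inv h x
  right_inv := fun x _ => push_right_inv h x
  cont := (continuous_push _ _ _).continuousOn
  cont_inv := (continuous_push _ _ _).continuousOn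
  conical := conicalOn_push _ _ _

@[simp] theorem pushHomeo_toFun (A : J → E →L[ℝ] ℝ) (c : J → ℝ) (u : E) (h : ∀ j, 0 < 1 + A j u) :
    (pushHomeo A c u h).toFun = push A c u := rfl

end push

end Net
end P073
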