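import Vale.Agent.P073.Net.Len

/-!
# P073, block NET: squeezing the strands in one cube
-/

open Set Metric Topology MeasureTheory Filter
open scoped ENNReal NNReal

namespace P073.Net

open Vale.Agent.P073.St (V euc)

/-! ### Auxiliary estimates -/

theorem abs_clamp_sub_le (r r' t t' : ℝ) : |clamp r t - clamp r' t'| ≤ |r - r'| + |t - t'| := by
  have h1 : |min t r - min t' r'| ≤ max |t - t'| |r - r'| := abs_min_sub_min_le_max _ _ _ _
  have h2 : |max (-r) (min t r) - max (-r') (min t' r')| ≤ max |-r - -r'| |min t r - min t' r'| :=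
    abs_max_sub_max_le_max _ _ _ _
  have h3 : |-r - -r'| = |r - r'| := by
    rw [← abs_neg]; congr 1; ring
  rw [h3] at h2
  unfold clamp
  have a1 := abs_nonneg (r - r')
  have a2 := abs_nonneg (t - t')
  refine h2.trans (max_le (by linarith) (h1.trans (max_le (by linarith) (by linarith))))

theorem phi_sub_le {κ δ : ℝ} {hκ : 0 < κ} {hκ1 : κ < 1} {hδ : 0 < δ} {hδ1 : δ < 1} (x y : V) :
    ‖(phi κ δ hκ hκ1 hδ hδ1).toFun x - (phi κ δ hκ hκ1 hδ hδ1).toFun y‖ ≤
      ‖x - y‖ + |chi δ ‖x‖ - chi δ ‖y‖| := by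
  rw [pi_norm_le_iff_of_nonneg (by positivity)]
  intro k
  show |qq κ (chi δ ‖x‖) (x k) - qq κ (chi δ ‖y‖) (y k)| ≤ _
  have h1 : |x k - y k| ≤ ‖x - y‖ := norm_le_pi_norm (x - y) k
  have h2 := abs_clamp_sub_le (chi δ ‖x‖) (chi δ ‖y‖) (x k) (y k)
  have e : qq κ (chi δ ‖x‖) (x k) - qq κ (chi δ ‖y‖) (y k) =
      κ * (x k - y k) + (1 - κ) * (clamp (chi δ ‖x‖) (x k) - clamp (chi δ ‖y‖) (y k)) := by
    unfold qq; ring
  rw [e]
  have h3 : |κ * (x k - y k)| ≤ κ * ‖x - y‖ := by
    rw [abs_mul, abs_of_pos hκ]; gcongr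
  have h4 : |(1 - κ) * (clamp (chi δ ‖x‖) (x k) - clamp (chi δ ‖y‖) (y k))| ≤
      (1 - κ) * (|chi δ ‖x‖ - chi δ ‖y‖| + ‖x - y‖) := by
    rw [abs_mul, abs_of_pos (by linarith)]
    have : (0:ℝ) ≤ 1 - κ := by linarith
    gcongr
    exact h2.trans (by linarith)
  have h5 : 0 ≤ |chi δ ‖x‖ - chi δ ‖y‖| := abs_nonneg _
  refine (abs_add_le _ _).trans ?_
  nlinarith

theorem chi_mono {δ : ℝ} (hδ : 0 < δ) : Monotone (chi δ) := by
  intro l l' h
  unfold chi
  refine max_le_max (le_refl _) ?_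
  gcongr

theorem chi_le_one {δ l : ℝ} (hδ : 0 < δ) (h : l ≤ 1) : chi δ l ≤ 1 := by
  unfold chi
  refine max_le zero_le_one ?_
  have : 0 ≤ (1 - l) / δ := div_nonneg (by linarith) hδ.le
  linarith

theorem lam_mem {κ δ l : ℝ} (hκ : 0 < κ) (hκ1 : κ < 1) (h0 : 0 ≤ l) (h1 : l ≤ 1) :
    lam κ (chi δ) l ∈ Icc (0:ℝ) 1 := by
  have a1 : 0 ≤ min l (chi δ l) := le_min h0 (chi_nonneg _ _)
  have a2 : min l (chi δ l) ≤ l := min_le_left _ _
  unfold lam
  constructor
  · have := mul_nonneg hκ.le h0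
    have := mul_nonneg (show (0:ℝ) ≤ 1 - κ by linarith) a1
    linarith
  · nlinarith

theorem lam_mono {κ δ : ℝ} (hκ : 0 < κ) (hκ1 : κ < 1) (hδ : 0 < δ) :
    Monotone (lam κ (chi δ)) := by
  intro l l' h
  have h1 : min l (chi δ l) ≤ min l' (chi δ l') := min_le_min h (chi_mono hδ h)
  unfold lam
  nlinarith

/-- push maps are Lipschitz -/
theorem push_lipschitz {E : Type*} [NormedAddCommGroup E] [NormedSpace ℝ E] {J : Type*} [Fintype J]
    [Nonempty J] (A : J → E →L[ℝ] ℝ) (c : J → ℝ) (u : E) :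
    ∃ L : ℝ, 0 ≤ L ∧ ∀ x y, ‖push A c u x - push A c u y‖ ≤ L * ‖x - y‖ := by
  set K := ∑ j, ‖A j‖ with hK
  have hK0 : 0 ≤ K := Finset.sum_nonneg fun j _ => norm_nonneg _
  have key : ∀ x y, depth A c x ≤ depth A c y + K * ‖x - y‖ := by
    intro x y
    have h0 : 0 ≤ K * ‖x - y‖ := mul_nonneg hK0 (norm_nonneg _)
    unfold depth
    refine max_le (by have := le_max_left (0:ℝ)
                        (Finset.univ.inf' Finset.univ_nonempty (fun j => A j y + c j)); linarith) ?_
    have h1 : Finset.univ.inf' Finset.univ_nonempty (fun j => A j x + c j) ≤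
        Finset.univ.inf' Finset.univ_nonempty (fun j => A j y + c j) + K * ‖x - y‖ := by
      rw [← sub_le_iff_le_add]
      refine Finset.le_inf' _ _ fun j _ => ?_
      have h2 : Finset.univ.inf' Finset.univ_nonempty (fun j => A j x + c j) ≤ A j x + c j :=
        Finset.inf'_le _ (Finset.mem_univ j)
      have h3 : A j x - A j y ≤ K * ‖x - y‖ := by
        rw [← map_sub]
        calc A j (x - y) ≤ ‖A j (x - y)‖ := Real.le_norm_self _
          _ ≤ ‖A j‖ * ‖x - y‖ := (A j).le_opNorm _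
          _ ≤ K * ‖x - y‖ := by
              gcongr
              exact Finset.single_le_sum (f := fun j => ‖A j‖) (fun j _ => norm_nonneg _)
                (Finset.mem_univ j)
      linarith
    exact h1.trans (by
      have := le_max_right (0:ℝ)
        (Finset.univ.inf' Finset.univ_nonempty (fun j => A j y + c j))
      linarith)
  refine ⟨1 + K * ‖u‖, by positivity, fun x y => ?_⟩
  have h1 : |depth A c x - depth A c y| ≤ K * ‖x - y‖ := by
    rw [abs_le]
    have := key x y
    have h := key y x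
    rw [norm_sub_rev] at h
    constructor <;> linarith
  have e : push A c u x - push A c u y = (x - y) + (depth A c x - depth A c y) • u := by
    unfold push; module
  rw [e]
  calc ‖(x - y) + (depth A c x - depth A c y) • u‖
      ≤ ‖x - y‖ + ‖(depth A c x - depth A c y) • u‖ := norm_add_le _ _
    _ = ‖x - y‖ + |depth A c x - depth A c y| * ‖u‖ := by rw [norm_smul, Real.norm_eq_abs]
    _ ≤ ‖x - y‖ + (K * ‖x - y‖) * ‖u‖ := by gcongr
    _ = (1 + K * ‖u‖) * ‖x - y‖ := by ring

/-! ### Bad cubes -/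

/-- conical composition with an ambient conical homeomorphism -/
theorem ConHomeo.comp_conical {Θ : ConHomeo (univ : Set V) (univ : Set V)} {q : ℝ → V} {s : Set ℝ}
    (hq : ConicalOn q s) (hc : ContinuousOn q s) :
    ConicalOn (Θ.toFun ∘ q) s ∧ ContinuousOn (Θ.toFun ∘ q) s :=
  ⟨Θ.conical.comp hq (mapsTo_univ _ _) hc, Θ.cont.comp hc (mapsTo_univ _ _)⟩

theorem var_real_le_one {φ : ℝ → ℝ} {s : Set ℝ} {a b : ℝ} (hab : a ≤ b) (hs : s = Icc a b)
    (hφ : MonotoneOn φ s ∨ AntitoneOn φ s) (h : ∀ t ∈ s, φ t ∈ Icc (0:ℝ) 1) :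
    eVariationOn φ s ≤ 1 := by
  subst hs
  have ha : a ∈ Icc a b := ⟨le_refl _, hab⟩
  have hb : b ∈ Icc a b := ⟨hab, le_refl _⟩
  have h1 := h a ha
  have h2 := h b hb
  rcases hφ with hφ | hφ
  · have := (hφ.eVariationOn_eq (a := a) (b := b) ha hb).le
    rw [inter_self] at this
    refine this.trans ?_
    rw [← ENNReal.ofReal_one]
    exact ENNReal.ofReal_le_ofReal (by linarith [h1.1, h2.2])
  · have h3 : MonotoneOn (fun t => - φ t) (Icc a b) := fun x hx y hy hxy =>
      neg_le_neg (hφ hx hy hxy)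
    have := (h3.eVariationOn_eq (a := a) (b := b) ha hb).le
    rw [inter_self] at this
    have e : eVariationOn φ (Icc a b) ≤ eVariationOn (fun t => - φ t) (Icc a b) := by
      have := eVariationOn_le_of_edist (f := φ) (g := fun t => - φ t) (s := Icc a b) (C := 1)
        (fun x _ y _ => by rw [one_mul, edist_neg_neg])
      rwa [one_mul] at this
    refine e.trans (this.trans ?_)
    rw [← ENNReal.ofReal_one]
    exact ENNReal.ofReal_le_ofReal (by linarith [h1.2, h2.1])

/-- squeezing a strand: crude bound -/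
theorem sq_bad {γ : ℝ → V} {α β : ℝ} (hαβ : α ≤ β) (hγ : ConicalOn γ (Icc α β))
    (hc : ContinuousOn γ (Icc α β)) (hin : ∀ t ∈ Ioo α β, ‖γ t‖ < 1)
    (hle : ∀ t ∈ Icc α β, ‖γ t‖ ≤ 1) {ε : ℝ} (hε : 0 < ε) :
    ∃ δ₀ > 0, ∀ (κ δ : ℝ) (hκ : 0 < κ) (hκ1 : κ < 1) (hδ : 0 < δ) (hδ1 : δ < 1),
      κ ≤ δ₀ → δ ≤ δ₀ →
      var ((phi κ δ hκ hκ1 hδ hδ1).toFun ∘ γ) (Icc α β) ≤ ENNReal.ofReal (2 + ε) := by
  rcases hαβ.eq_or_lt with h | h
  · subst h
    refine ⟨1, one_pos, fun κ δ hκ hκ1 hδ hδ1 _ _ => ?_⟩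
    have : var ((phi κ δ hκ hκ1 hδ hδ1).toFun ∘ γ) (Icc α α) = 0 :=
      eVariationOn.subsingleton _ (by rw [Icc_self]; exact subsingleton_singleton)
    rw [this]; exact zero_le
  · have hα : α ∈ Icc α β := ⟨le_refl _, h.le⟩
    have hβ : β ∈ Icc α β := ⟨h.le, le_refl _⟩
    have hN : ConicalOn (fun t => ‖γ t‖) (Icc α β) :=
      conicalOn_norm.comp hγ (mapsTo_univ _ _) hc
    obtain ⟨r₁, hr₁, hr₁b, w₁, hw₁⟩ := conical_right hγ hα h
    obtain ⟨r₂, hr₂, hr₂b, w₂, hw₂⟩ := conical_left hγ hβ h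
    obtain ⟨p₁, hp₁, hp₁b, n₁, hn₁⟩ := conical_right hN hα h
    obtain ⟨p₂, hp₂, hp₂b, n₂, hn₂⟩ := conical_left hN hβ h
    have hMtop := conical_var_lt_top h.le hγ
    set M := (var γ (Icc α β)).toReal with hM
    have hM0 : 0 ≤ M := ENNReal.toReal_nonneg
    have hMe : var γ (Icc α β) = ENNReal.ofReal M := (ENNReal.ofReal_toReal hMtop.ne).symm
    -- small end pieces
    set s : ℝ := min (min (min r₁ r₂) (min p₁ p₂))
      (min ((β - α) / 3) (ε / (6 * (‖w₁‖ + ‖w₂‖ + 1)))) with hs
    have hs0 : 0 < s := by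
      rw [hs]
      refine lt_min (lt_min (lt_min hr₁ hr₂) (lt_min hp₁ hp₂)) (lt_min (by linarith) ?_)
      positivity
    have s1 : s ≤ r₁ := (min_le_left _ _).trans ((min_le_left _ _).trans (min_le_left _ _))
    have s2 : s ≤ r₂ := (min_le_left _ _).trans ((min_le_left _ _).trans (min_le_right _ _))
    have s3 : s ≤ p₁ := (min_le_left _ _).trans ((min_le_right _ _).trans (min_le_left _ _))
    have s4 : s ≤ p₂ := (min_le_left _ _).trans ((min_le_right _ _).trans (min_le_right _ _))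
    have s5 : s ≤ (β - α) / 3 := (min_le_right _ _).trans (min_le_left _ _)
    have s6 : s ≤ ε / (6 * (‖w₁‖ + ‖w₂‖ + 1)) := (min_le_right _ _).trans (min_le_right _ _)
    have s7 : s * (‖w₁‖ + ‖w₂‖ + 1) ≤ ε / 6 := by
      rw [le_div_iff₀ (by positivity)] at s6
      linarith
    have sw1 : s * ‖w₁‖ ≤ ε / 6 := by
      have := mul_nonneg hs0.le (norm_nonneg w₂)
      nlinarith
    have sw2 : s * ‖w₂‖ ≤ ε / 6 := by
      have := mul_nonneg hs0.le (norm_nonneg w₁)
      nlinarith
    -- the middle part is away from the boundary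
    have hcomp : IsCompact (Icc (α + s) (β - s)) := isCompact_Icc
    have hne : (Icc (α + s) (β - s)).Nonempty := ⟨α + s, le_refl _, by linarith⟩
    have hsub : Icc (α + s) (β - s) ⊆ Icc α β := Icc_subset_Icc (by linarith) (by linarith)
    obtain ⟨t₀, ht₀, hmax⟩ := hcomp.exists_isMaxOn hne ((hc.mono hsub).norm)
    have hlt : ‖γ t₀‖ < 1 := hin t₀ ⟨by linarith [ht₀.1], by linarith [ht₀.2]⟩
    refine ⟨min (1 - ‖γ t₀‖) (ε / (6 * (M + 1))), lt_min (by linarith) (by positivity),
      fun κ δ hκ hκ1 hδ hδ1 hκs hδs => ?_⟩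
    have hδ2 : δ ≤ 1 - ‖γ t₀‖ := hδs.trans (min_le_left _ _)
    have hκ2 : κ * M ≤ ε / 6 := by
      have : κ ≤ ε / (6 * (M + 1)) := hκs.trans (min_le_right _ _)
      rw [le_div_iff₀ (by positivity)] at this
      nlinarith
    set Θ := phi κ δ hκ hκ1 hδ hδ1 with hΘ
    have split : ∀ q : ℝ → V, var q (Icc α β) =
        var q (Icc α (α + s)) + var q (Icc (α + s) (β - s)) + var q (Icc (β - s) β) := by
      intro q
      rw [← var_add (by linarith) (by linarith), ← var_add (by linarith) (by linarith)]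
    have part : ∀ t : Set ℝ, var (Θ.toFun ∘ γ) t ≤ var γ t +
        eVariationOn (fun x => chi δ ‖γ x‖) t := by
      intro t
      refine eVariationOn_le_add fun x _ y _ => ?_
      rw [edist_dist, dist_eq_norm, edist_dist, dist_eq_norm, edist_dist, Real.dist_eq,
        ← ENNReal.ofReal_add (norm_nonneg _) (abs_nonneg _)]
      exact ENNReal.ofReal_le_ofReal (phi_sub_le _ _)
    have left : var (Θ.toFun ∘ γ) (Icc α (α + s)) ≤ ENNReal.ofReal (ε / 6) + 1 := by
      refine (part _).trans (add_le_add ?_ ?_)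
      · refine (var_affine_le (r := s) (fun y hy => hy) (fun x hx => hw₁ x ⟨hx.1, hx.2.trans s1⟩)).trans ?_
        exact ENNReal.ofReal_le_ofReal sw1
      · refine var_real_le_one (by linarith) rfl ?_ ?_
        · have e : ∀ x ∈ Icc α (α + s), ‖γ x‖ = ‖γ α‖ + (x - α) * n₁ := fun x hx => by
            have := hn₁ (x - α) ⟨by linarith [hx.1], by linarith [hx.2]⟩
            simp only [add_sub_cancel, smul_eq_mul] at this
            exact this
          rcases le_total 0 n₁ with hn | hn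
          · left
            intro x hx y hy hxy
            apply chi_mono hδ
            rw [e x hx, e y hy]; nlinarith
          · right
            intro x hx y hy hxy
            apply chi_mono hδ
            rw [e x hx, e y hy]; nlinarith
        · intro t ht
          exact ⟨chi_nonneg _ _, chi_le_one hδ (hle t ⟨ht.1, by linarith [ht.2]⟩)⟩
    have right : var (Θ.toFun ∘ γ) (Icc (β - s) β) ≤ ENNReal.ofReal (ε / 6) + 1 := by
      refine (part _).trans (add_le_add ?_ ?_)
      · refine (var_affine_le' (r := s) (fun y hy => hy) (fun x hx => hw₂ x ⟨hx.1, hx.2.trans s2⟩)).trans ?_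
        exact ENNReal.ofReal_le_ofReal sw2
      · refine var_real_le_one (by linarith) rfl ?_ ?_
        · have e : ∀ x ∈ Icc (β - s) β, ‖γ x‖ = ‖γ β‖ + (β - x) * n₂ := fun x hx => by
            have := hn₂ (β - x) ⟨by linarith [hx.2], by linarith [hx.1]⟩
            simp only [sub_sub_cancel, smul_eq_mul] at this
            exact this
          rcases le_total 0 n₂ with hn | hn
          · right
            intro x hx y hy hxy
            apply chi_mono hδ
            rw [e x hx, e y hy]; nlinarith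
          · left
            intro x hx y hy hxy
            apply chi_mono hδ
            rw [e x hx, e y hy]; nlinarith
        · intro t ht
          exact ⟨chi_nonneg _ _, chi_le_one hδ (hle t ⟨by linarith [ht.1], ht.2⟩)⟩
    have mid : var (Θ.toFun ∘ γ) (Icc (α + s) (β - s)) ≤ ENNReal.ofReal (ε / 6) := by
      have e : EqOn (Θ.toFun ∘ γ) (fun t => κ • γ t) (Icc (α + s) (β - s)) := fun t ht => by
        apply phi_of_le
        have := hmax ht
        simp only [mem_ofPred_eq] at this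
        linarith
      rw [var_congr e]
      have h1 : var (fun t => κ • γ t) (Icc (α + s) (β - s)) ≤
          ENNReal.ofReal κ * var γ (Icc (α + s) (β - s)) :=
        var_comp_le (Θ := fun x => κ • x) hκ.le (fun x y => by
          rw [← smul_sub, norm_smul, Real.norm_of_nonneg hκ.le]) γ _
      refine h1.trans ?_
      have h2 : var γ (Icc (α + s) (β - s)) ≤ ENNReal.ofReal M := by
        rw [← hMe]; exact eVariationOn.mono _ hsub
      calc _ ≤ ENNReal.ofReal κ * ENNReal.ofReal M := by gcongr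
        _ = ENNReal.ofReal (κ * M) := (ENNReal.ofReal_mul hκ.le).symm
        _ ≤ _ := ENNReal.ofReal_le_ofReal hκ2
    rw [split]
    calc _ ≤ (ENNReal.ofReal (ε / 6) + 1) + ENNReal.ofReal (ε / 6) +
          (ENNReal.ofReal (ε / 6) + 1) := add_le_add (add_le_add left mid) right
      _ = ENNReal.ofReal (ε / 6 + 1 + ε / 6 + (ε / 6 + 1)) := by
          rw [ENNReal.ofReal_add (by positivity) (by positivity),
            ENNReal.ofReal_add (by positivity) (by positivity),
            ENNReal.ofReal_add (by positivity) (by positivity), ENNReal.ofReal_one]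
      _ ≤ ENNReal.ofReal (2 + ε) := ENNReal.ofReal_le_ofReal (by linarith)

end P073.Net
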