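import Vale.Agent.P073.Net.Sq

/-!
# P073, block NET: a good cube (one strand, entering and leaving through different faces)
-/

open Set Metric Topology MeasureTheory Filter
open scoped ENNReal NNReal

namespace P073.Net

open Vale.Agent.P073.St (V euc)

/-- the box behind the face `σ e_k` -/
noncomputable def fbLo (k : Fin 3) (σ : ℝ) : V := fun j => if j = k then min 0 σ else -(1 / 2)

/-- the box behind the face `σ e_k` -/
noncomputable def fbHi (k : Fin 3) (σ : ℝ) : V := fun j => if j = k then max 0 σ else 1 / 2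

/-- straightening a germ at the centre of a face -/
theorem exists_germ {k : Fin 3} {σ : ℝ} (hσ : σ = 1 ∨ σ = -1) {w : V} {r : ℝ} (hr : 0 < r)
    (h : ∀ s ∈ Ioc (0:ℝ) r, ‖(Pi.single k σ : V) + s • w‖ < 1) :
    ∃ N : ConHomeo (univ : Set V) (univ : Set V),
      (∀ x, (σ * x k ≤ 0 ∨ 1 ≤ σ * x k ∨ ∃ j, j ≠ k ∧ 1 / 2 ≤ |x j|) → N.toFun x = x) ∧
      (∀ x, ‖x‖ < 1 → ‖N.toFun x‖ < 1) ∧
      ∃ r' > 0, r' ≤ r ∧ ∃ c > 0, r' * c ≤ 1 / 2 ∧
        ∀ s ∈ Icc (0:ℝ) r', N.toFun ((Pi.single k σ : V) + s • w) =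
          (1 - c * s) • (Pi.single k σ : V) := by
  have hσ2 : σ * σ = 1 := by rcases hσ with h | h <;> rw [h] <;> norm_num
  have habs : |σ| = 1 := by rcases hσ with h | h <;> rw [h] <;> norm_num
  set c : ℝ := -(σ * w k) with hc
  have hwk : w k = -(σ * c) := by rw [hc]; linear_combination (-(w k)) * hσ2
  have hcpos : 0 < c := by
    have h1 := h r ⟨hr, le_refl _⟩
    have h2 : |σ + r * w k| < 1 := by
      have := (norm_le_pi_norm ((Pi.single k σ : V) + r • w) k).trans_lt h1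
      simpa using this
    have h3 : σ * (σ + r * w k) < 1 := by
      calc σ * (σ + r * w k) ≤ |σ * (σ + r * w k)| := le_abs_self _
        _ = |σ + r * w k| := by rw [abs_mul, habs, one_mul]
        _ < 1 := h2
    have h4 : r * (σ * w k) < 0 := by nlinarith
    have h5 : σ * w k < 0 := by
      by_contra h'
      push Not at h'
      have := mul_nonneg hr.le h'
      linarith
    rw [hc]; linarith
  -- the size of the germ
  set s₀ : ℝ := min r (min (1 / (2 * c)) (1 / (4 * (‖w‖ + 1)))) with hs₀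
  have hs₀pos : 0 < s₀ := by
    rw [hs₀]; refine lt_min hr (lt_min (by positivity) (by positivity))
  have e1 : s₀ ≤ r := min_le_left _ _
  have e2 : s₀ * c ≤ 1 / 2 := by
    have : s₀ ≤ 1 / (2 * c) := (min_le_right _ _).trans (min_le_left _ _)
    rw [le_div_iff₀ (by positivity)] at this
    linarith
  have e3 : s₀ * ‖w‖ ≤ 1 / 4 := by
    have : s₀ ≤ 1 / (4 * (‖w‖ + 1)) := (min_le_right _ _).trans (min_le_right _ _)
    rw [le_div_iff₀ (by positivity)] at this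
    nlinarith
  set p : V := Pi.single k σ + s₀ • w with hp
  set p' : V := (1 - c * s₀) • (Pi.single k σ : V) with hp'
  have hpk : p k = σ * (1 - c * s₀) := by
    rw [hp]; simp only [Pi.add_apply, Pi.single_eq_same, Pi.smul_apply, smul_eq_mul]
    rw [hwk]; ring
  have hp'k : p' k = σ * (1 - c * s₀) := by
    rw [hp']; simp only [Pi.single_eq_same, Pi.smul_apply, smul_eq_mul]; ring
  have hpj : ∀ j, j ≠ k → |p j| ≤ 1 / 4 := by
    intro j hj
    rw [hp]; simp only [Pi.add_apply, Pi.single_eq_of_ne hj, Pi.smul_apply, smul_eq_mul, zero_add]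
    rw [abs_mul, abs_of_pos hs₀pos]
    have := norm_le_pi_norm w j
    rw [Real.norm_eq_abs] at this
    nlinarith
  have hp'j : ∀ j, j ≠ k → p' j = 0 := by
    intro j hj
    rw [hp']; simp [Pi.single_eq_of_ne hj]
  have hfac : 0 < 1 - c * s₀ ∧ 1 - c * s₀ < 1 := by
    constructor <;> nlinarith [mul_pos hcpos hs₀pos]
  have hside : min 0 σ < σ * (1 - c * s₀) ∧ σ * (1 - c * s₀) < max 0 σ := by
    rcases hσ with h | h
    · rw [h, min_eq_left (by norm_num), max_eq_right (by norm_num)]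
      constructor <;> linarith [hfac.1, hfac.2]
    · rw [h, min_eq_right (by norm_num), max_eq_left (by norm_num)]
      constructor <;> linarith [hfac.1, hfac.2]
  have hInp : InBox (fbLo k σ) (fbHi k σ) p := by
    intro j
    by_cases hj : j = k
    · subst hj
      simp only [fbLo, fbHi, if_true]
      rw [hpk]; exact hside
    · simp only [fbLo, fbHi, if_neg hj]
      have := abs_le.1 (hpj j hj)
      constructor <;> linarith [this.1, this.2]
  have hInp' : InBox (fbLo k σ) (fbHi k σ) p' := by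
    intro j
    by_cases hj : j = k
    · subst hj
      simp only [fbLo, fbHi, if_true]
      rw [hp'k]; exact hside
    · simp only [fbLo, fbHi, if_neg hj]
      rw [hp'j j hj]
      constructor <;> norm_num
  refine ⟨coneMove _ _ p p' hInp hInp', fun x hx => ?_, fun x hx => ?_, s₀, hs₀pos, e1, c, hcpos,
    e2, fun s hs => ?_⟩
  · apply coneMove_eq_self
    rcases hx with hx | hx | ⟨j, hj, hx⟩
    · refine ⟨k, ?_⟩
      simp only [fbLo, fbHi, if_true]
      rcases hσ with h | h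
      · left; rw [h] at hx ⊢; rw [min_eq_left (by norm_num)]; linarith
      · right; rw [h] at hx ⊢; rw [max_eq_left (by norm_num)]; linarith
    · refine ⟨k, ?_⟩
      simp only [fbLo, fbHi, if_true]
      rcases hσ with h | h
      · right; rw [h] at hx ⊢; rw [max_eq_right (by norm_num)]; linarith
      · left; rw [h] at hx ⊢; rw [min_eq_right (by norm_num)]; linarith
    · refine ⟨j, ?_⟩
      simp only [fbLo, fbHi, if_neg hj]
      rcases le_abs.1 hx with h | h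
      · right; exact h
      · left; linarith
  · by_cases hin : InBox (fbLo k σ) (fbHi k σ) x
    · have := coneMove_inBox (ha := hInp) (hb := hInp') hin
      rw [pi_norm_lt_iff one_pos]
      intro j
      rw [Real.norm_eq_abs, abs_lt]
      have hj := this j
      by_cases hjk : j = k
      · subst hjk
        have h1 : -1 ≤ fbLo j σ j := by
          simp only [fbLo, if_true]
          rcases hσ with h | h <;> rw [h] <;> norm_num
        have h2 : fbHi j σ j ≤ 1 := by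
          simp only [fbHi, if_true]
          rcases hσ with h | h <;> rw [h] <;> norm_num
        exact ⟨h1.trans_lt hj.1, hj.2.trans_le h2⟩
      · simp only [fbLo, fbHi, if_neg hjk] at hj
        constructor <;> linarith [hj.1, hj.2]
    · have : ∃ j, x j ≤ fbLo k σ j ∨ fbHi k σ j ≤ x j := by
        unfold InBox at hin
        push Not at hin
        obtain ⟨j, hj⟩ := hin
        refine ⟨j, ?_⟩
        by_contra h2
        push Not at h2
        exact absurd (hj h2.1) (not_le.2 h2.2)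
      rw [coneMove_eq_self this]; exact hx
  · have hy : ∀ j, fbLo k σ j ≤ (Pi.single k σ : V) j ∧ (Pi.single k σ : V) j ≤ fbHi k σ j := by
      intro j
      by_cases hj : j = k
      · subst hj
        simp only [fbLo, fbHi, if_true, Pi.single_eq_same]
        exact ⟨min_le_right _ _, le_max_right _ _⟩
      · simp only [fbLo, fbHi, if_neg hj, Pi.single_eq_of_ne hj]
        constructor <;> norm_num
    have hy' : ∃ j, (Pi.single k σ : V) j = fbLo k σ j ∨ (Pi.single k σ : V) j = fbHi k σ j := by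
      refine ⟨k, ?_⟩
      simp only [fbLo, fbHi, if_true, Pi.single_eq_same]
      rcases hσ with h | h
      · right; rw [h, max_eq_right (by norm_num)]
      · left; rw [h, min_eq_right (by norm_num)]
    have hray := coneMove_ray (ha := hInp) (hb := hInp') hy hy' (r := 1 - s / s₀)
      ⟨by rw [sub_nonneg, div_le_one hs₀pos]; exact hs.2, by
        have := div_nonneg hs.1 hs₀pos.le; linarith⟩
    have a1 : p + (1 - s / s₀) • ((Pi.single k σ : V) - p) = Pi.single k σ + s • w := by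
      rw [hp]
      have : (s / s₀) * s₀ = s := div_mul_cancel₀ _ hs₀pos.ne'
      calc _ = (Pi.single k σ : V) + ((s / s₀) * s₀) • w := by module
        _ = _ := by rw [this]
    have a2 : p' + (1 - s / s₀) • ((Pi.single k σ : V) - p') =
        (1 - c * s) • (Pi.single k σ : V) := by
      rw [hp']
      have : (s / s₀) * s₀ = s := div_mul_cancel₀ _ hs₀pos.ne'
      calc _ = (1 - c * ((s / s₀) * s₀)) • (Pi.single k σ : V) := by module
        _ = _ := by rw [this]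
    rw [a1, a2] at hray
    exact hray

/-- the radial homeomorphism moving the centres of two faces -/
theorem exists_radial {a b : V} {k l : Fin 3} {σ τ : ℝ} (hσ : σ = 1 ∨ σ = -1)
    (hτ : τ = 1 ∨ τ = -1) (hkl : k ≠ l ∨ σ = -τ) (ha1 : a k = σ) (ha2 : ∀ j, j ≠ k → |a j| < 1)
    (hb1 : b l = τ) (hb2 : ∀ j, j ≠ l → |b j| < 1) :
    ∃ Ψ : ConHomeo (univ : Set V) (univ : Set V), (∀ x, ‖Ψ.toFun x‖ = ‖x‖) ∧
      (∀ r : ℝ, 0 ≤ r → Ψ.toFun (r • (Pi.single k σ : V)) = r • a) ∧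
      (∀ r : ℝ, 0 ≤ r → Ψ.toFun (r • (Pi.single l τ : V)) = r • b) ∧
      ∃ L : ℝ, 0 ≤ L ∧ ∀ x y, ‖Ψ.toFun x - Ψ.toFun y‖ ≤ L * ‖x - y‖ := by
  have hσ2 : σ * σ = 1 := by rcases hσ with h | h <;> rw [h] <;> norm_num
  have hτ2 : τ * τ = 1 := by rcases hτ with h | h <;> rw [h] <;> norm_num
  have hσa : |σ| = 1 := by rcases hσ with h | h <;> rw [h] <;> norm_num
  have hτa : |τ| = 1 := by rcases hτ with h | h <;> rw [h] <;> norm_num
  have hwa0 : (a - Pi.single k σ : V) k = 0 := by simp [ha1]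
  have hwb0 : (b - Pi.single l τ : V) l = 0 := by simp [hb1]
  have hwa1 : ∀ j, |(a - Pi.single k σ : V) j| < 1 := by
    intro j
    by_cases h : j = k
    · subst h; rw [hwa0]; norm_num
    · simpa [Pi.single_eq_of_ne h] using ha2 j h
  have hwb1 : ∀ j, |(b - Pi.single l τ : V) j| < 1 := by
    intro j
    by_cases h : j = l
    · subst h; rw [hwb0]; norm_num
    · simpa [Pi.single_eq_of_ne h] using hb2 j h
  have haj : ∀ j, |a j| ≤ 1 := fun j => by
    by_cases h : j = k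
    · rw [h, ha1, hσa]
    · exact (ha2 j h).le
  obtain ⟨L1, hL1, hL1'⟩ := push_lipschitz (psiA k σ) 0 (a - Pi.single k σ : V)
  obtain ⟨L2, hL2, hL2'⟩ := push_lipschitz (psiA l τ) 0 (b - Pi.single l τ : V)
  refine ⟨(psi k σ _ hwa0 hwa1).trans (psi l τ _ hwb0 hwb1), fun x => ?_, fun r hr => ?_,
    fun r hr => ?_, L2 * L1, mul_nonneg hL2 hL1, fun x y => ?_⟩
  · show ‖(psi l τ _ hwb0 hwb1).toFun ((psi k σ _ hwa0 hwa1).toFun x)‖ = ‖x‖
    rw [psi_norm hτ2, psi_norm hσ2]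
  · show (psi l τ _ hwb0 hwb1).toFun ((psi k σ _ hwa0 hwa1).toFun (r • (Pi.single k σ : V))) = r • a
    rw [psi_axis hσ2 hr]
    have e : (Pi.single k σ : V) + (a - Pi.single k σ) = a := by abel
    rw [e]
    apply psi_eq_self
    by_cases hkl' : k = l
    · left
      subst hkl'
      have h := hkl.resolve_left (fun h => h rfl)
      simp only [Pi.smul_apply, smul_eq_mul, ha1]
      rw [h]; nlinarith
    · right
      refine ⟨k, hkl', ?_⟩
      simp only [Pi.smul_apply, smul_eq_mul, ha1]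
      rw [abs_mul, hσa, abs_of_nonneg hr]
      have h1 : τ * a l ≤ 1 := by
        calc τ * a l ≤ |τ * a l| := le_abs_self _
          _ = |a l| := by rw [abs_mul, hτa, one_mul]
          _ ≤ 1 := haj l
      nlinarith
  · show (psi l τ _ hwb0 hwb1).toFun ((psi k σ _ hwa0 hwa1).toFun (r • (Pi.single l τ : V))) = r • b
    have e0 : (psi k σ _ hwa0 hwa1).toFun (r • (Pi.single l τ : V)) = r • (Pi.single l τ : V) := by
      apply psi_eq_self
      left
      by_cases hkl' : k = l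
      · subst hkl'
        have h := hkl.resolve_left (fun h => h rfl)
        simp only [Pi.smul_apply, smul_eq_mul, Pi.single_eq_same]
        rw [h]; nlinarith
      · simp [Pi.single_eq_of_ne hkl']
    rw [e0, psi_axis hτ2 hr]
    congr 1
    abel
  · calc ‖(psi l τ _ hwb0 hwb1).toFun ((psi k σ _ hwa0 hwa1).toFun x) -
          (psi l τ _ hwb0 hwb1).toFun ((psi k σ _ hwa0 hwa1).toFun y)‖
        ≤ L2 * ‖(psi k σ _ hwa0 hwa1).toFun x - (psi k σ _ hwa0 hwa1).toFun y‖ := hL2' _ _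
      _ ≤ L2 * (L1 * ‖x - y‖) := by gcongr; exact hL1' _ _
      _ = L2 * L1 * ‖x - y‖ := by ring

/-- moving the centre of the cube -/
theorem exists_center {m : V} (hmj : ∀ j, -1 < m j ∧ m j < 1) :
    ∃ Mm : ConHomeo (univ : Set V) (univ : Set V), (∀ x : V, 1 ≤ ‖x‖ → Mm.toFun x = x) ∧
      (∀ x : V, ‖x‖ < 1 → ‖Mm.toFun x‖ < 1) ∧
      (∀ y : V, (∀ j, |y j| ≤ 1) → (∃ j, |y j| = 1) → ∀ r ∈ Icc (0:ℝ) 1,
        Mm.toFun (r • y) = m + r • (y - m)) ∧
      ∃ L : ℝ, 0 ≤ L ∧ ∀ x y, ‖Mm.toFun x - Mm.toFun y‖ ≤ L * ‖x - y‖ := by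
  have hIn0 : InBox (fun _ => -1) (fun _ => 1) (0 : V) := fun j => by
    constructor <;> simp
  have hInm : InBox (fun _ => -1) (fun _ => 1) m := hmj
  obtain ⟨L3, hL3, hL3'⟩ := push_lipschitz (boxA (fun _ => -1) (fun _ => 1) (0 : V))
    (boxc (fun _ => -1) (fun _ => 1) (0 : V)) (m - 0)
  refine ⟨coneMove (fun _ => -1) (fun _ => 1) 0 m hIn0 hInm, fun x hx => ?_, fun x hx => ?_,
    fun y hy1 hy2 r hr => ?_, L3, hL3, hL3'⟩
  · obtain ⟨j, hj⟩ := exists_norm_eq x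
    rw [← hj] at hx
    apply coneMove_eq_self
    rcases le_abs.1 hx with h | h
    · exact ⟨j, Or.inr h⟩
    · exact ⟨j, Or.inl (by linarith)⟩
  · rw [pi_norm_lt_iff one_pos] at hx ⊢
    intro j
    have h1 : InBox (fun _ => -1) (fun _ => 1) x := fun j => by
      have := hx j
      rw [Real.norm_eq_abs, abs_lt] at this
      exact this
    have := coneMove_inBox (ha := hIn0) (hb := hInm) h1 j
    rw [Real.norm_eq_abs, abs_lt]
    exact this
  · have := coneMove_ray (ha := hIn0) (hb := hInm) (y := y) (fun j => by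
      have := abs_le.1 (hy1 j); exact this) (by
      obtain ⟨j, hj⟩ := hy2
      rcases (abs_eq zero_le_one).1 hj with h | h
      · exact ⟨j, Or.inr h⟩
      · exact ⟨j, Or.inl h⟩) hr
    simpa using this

theorem box_id {k : Fin 3} {σ : ℝ} (hσa : |σ| = 1) {N : ConHomeo (univ : Set V) (univ : Set V)}
    (NId : ∀ x, (σ * x k ≤ 0 ∨ 1 ≤ σ * x k ∨ ∃ j, j ≠ k ∧ 1 / 2 ≤ |x j|) → N.toFun x = x)
    (x : V) (hx : 1 ≤ ‖x‖) : N.toFun x = x := by
  obtain ⟨j, hj⟩ := exists_norm_eq x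
  apply NId
  by_cases hjk : j = k
  · subst hjk
    rcases le_total 0 (σ * x j) with h | h
    · right; left
      have : |σ * x j| = ‖x‖ := by rw [abs_mul, hσa, one_mul, hj]
      rw [abs_of_nonneg h] at this
      rw [this]; exact hx
    · left; exact h
  · right; right
    exact ⟨j, hjk, by rw [hj]; linarith⟩

theorem box_id_axis {k l : Fin 3} {σ τ : ℝ} (hσ : σ = 1 ∨ σ = -1) (hkl : k ≠ l ∨ σ = -τ)
    (hτ2 : τ * τ = 1) {N : ConHomeo (univ : Set V) (univ : Set V)}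
    (NId : ∀ x, (τ * x l ≤ 0 ∨ 1 ≤ τ * x l ∨ ∃ j, j ≠ l ∧ 1 / 2 ≤ |x j|) → N.toFun x = x)
    {r : ℝ} (hr : 1 / 2 ≤ r) :
    N.toFun (r • (Pi.single k σ : V)) = r • (Pi.single k σ : V) := by
  have hσa : |σ| = 1 := by rcases hσ with h | h <;> rw [h] <;> norm_num
  apply NId
  by_cases hkl' : k = l
  · left
    subst hkl'
    have h := hkl.resolve_left (fun h => h rfl)
    simp only [Pi.smul_apply, smul_eq_mul, Pi.single_eq_same]
    rw [h]; nlinarith
  · right; right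
    refine ⟨k, hkl', ?_⟩
    simp only [Pi.smul_apply, smul_eq_mul, Pi.single_eq_same]
    rw [abs_mul, hσa, mul_one, abs_of_nonneg (by linarith)]
    exact hr

/-- straightening both germs of a strand which joins the centres of two faces -/
theorem exists_germs {γ : ℝ → V} {α β : ℝ} (hαβ : α < β) (hγ : ConicalOn γ (Icc α β))
    (hc : ContinuousOn γ (Icc α β)) (hin : ∀ t ∈ Ioo α β, ‖γ t‖ < 1)
    {k l : Fin 3} {σ τ : ℝ} (hσ : σ = 1 ∨ σ = -1) (hτ : τ = 1 ∨ τ = -1)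
    (hkl : k ≠ l ∨ σ = -τ) (hga : γ α = Pi.single k σ) (hgb : γ β = Pi.single l τ) :
    ∃ N : ConHomeo (univ : Set V) (univ : Set V), (∀ x, 1 ≤ ‖x‖ → N.toFun x = x) ∧
      (∀ x, ‖x‖ < 1 → ‖N.toFun x‖ < 1) ∧
      (∃ ra > 0, ∃ ca > 0, ra * ca ≤ 1 / 2 ∧
        ∀ s ∈ Icc (0:ℝ) ra, N.toFun (γ (α + s)) = (1 - ca * s) • (Pi.single k σ : V)) ∧
      (∃ rb > 0, ∃ cb > 0, rb * cb ≤ 1 / 2 ∧
        ∀ s ∈ Icc (0:ℝ) rb, N.toFun (γ (β - s)) = (1 - cb * s) • (Pi.single l τ : V)) := by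
  have hσ2 : σ * σ = 1 := by rcases hσ with h | h <;> rw [h] <;> norm_num
  have hτ2 : τ * τ = 1 := by rcases hτ with h | h <;> rw [h] <;> norm_num
  have hσa : |σ| = 1 := by rcases hσ with h | h <;> rw [h] <;> norm_num
  have hτa : |τ| = 1 := by rcases hτ with h | h <;> rw [h] <;> norm_num
  have hlk : l ≠ k ∨ τ = -σ := by
    rcases hkl with h | h
    · left; exact h.symm
    · right; rw [h, neg_neg]
  obtain ⟨r₁, hr₁, hr₁b, w₁, hw₁⟩ := conical_right hγ ⟨le_refl _, hαβ.le⟩ hαβ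
  obtain ⟨Na, NaId, NaIn, ra, hra, hrar, ca, hca, hca2, Nagerm⟩ := exists_germ (k := k) hσ
    (w := w₁) (r := r₁ / 2) (half_pos hr₁) (fun s hs => by
      have h1 := hw₁ s ⟨hs.1.le, by linarith [hs.2]⟩
      rw [hga] at h1
      rw [← h1]
      exact hin _ ⟨by linarith [hs.1], by linarith [hs.2]⟩)
  obtain ⟨γ2con, γ2cont⟩ := ConHomeo.comp_conical (Θ := Na) hγ hc
  have γ2in : ∀ t ∈ Ioo α β, ‖(Na.toFun ∘ γ) t‖ < 1 := fun t ht => NaIn _ (hin t ht)
  have γ2b : (Na.toFun ∘ γ) β = Pi.single l τ := by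
    show Na.toFun (γ β) = _
    rw [hgb]
    have := box_id_axis hτ hlk hσ2 NaId (r := 1) (by norm_num)
    rwa [one_smul] at this
  have γ2germ : ∀ s ∈ Icc (0:ℝ) ra, Na.toFun (γ (α + s)) = (1 - ca * s) • (Pi.single k σ : V) := by
    intro s hs
    rw [hw₁ s ⟨hs.1, by linarith [hs.2]⟩, hga]
    exact Nagerm s hs
  obtain ⟨r₂, hr₂, hr₂b, w₂, hw₂⟩ := conical_left γ2con ⟨hαβ.le, le_refl _⟩ hαβ
  obtain ⟨Nb, NbId, NbIn, rb, hrb, hrbr, cb, hcb, hcb2, Nbgerm⟩ := exists_germ (k := l) hτ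
    (w := w₂) (r := r₂ / 2) (half_pos hr₂) (fun s hs => by
      have h1 := hw₂ s ⟨hs.1.le, by linarith [hs.2]⟩
      rw [γ2b] at h1
      rw [← h1]
      exact γ2in _ ⟨by linarith [hs.2], by linarith [hs.1]⟩)
  refine ⟨Na.trans Nb, fun x hx => ?_, fun x hx => NbIn _ (NaIn x hx),
    ⟨ra, hra, ca, hca, hca2, fun s hs => ?_⟩, ⟨rb, hrb, cb, hcb, hcb2, fun s hs => ?_⟩⟩
  · show Nb.toFun (Na.toFun x) = x
    rw [box_id hσa NaId x hx, box_id hτa NbId x hx]
  · show Nb.toFun (Na.toFun (γ (α + s))) = _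
    rw [γ2germ s hs]
    refine box_id_axis hσ hkl hτ2 NbId ?_
    have := mul_le_mul_of_nonneg_left hs.2 hca.le
    nlinarith
  · show Nb.toFun (Na.toFun (γ (β - s))) = _
    have h1 := hw₂ s ⟨hs.1, by linarith [hs.2]⟩
    rw [γ2b] at h1
    have h2 : Na.toFun (γ (β - s)) = Pi.single l τ + s • w₂ := h1
    rw [h2]
    exact Nbgerm s hs

/-- the squeeze of a strand with axis germs, followed by a Lipschitz map which is affine on the
two axes -/
theorem sq_axis {γ : ℝ → V} {α β : ℝ} (hαβ : α < β) (hγ : ConicalOn γ (Icc α β))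
    (hc : ContinuousOn γ (Icc α β)) (hin : ∀ t ∈ Ioo α β, ‖γ t‖ < 1)
    {k l : Fin 3} {σ τ : ℝ} (hσ : σ = 1 ∨ σ = -1) (hτ : τ = 1 ∨ τ = -1)
    {ra ca rb cb : ℝ} (hra : 0 < ra) (hca : 0 < ca) (hca2 : ra * ca ≤ 1 / 2)
    (hga : ∀ s ∈ Icc (0:ℝ) ra, γ (α + s) = (1 - ca * s) • (Pi.single k σ : V))
    (hrb : 0 < rb) (hcb : 0 < cb) (hcb2 : rb * cb ≤ 1 / 2)
    (hgb : ∀ s ∈ Icc (0:ℝ) rb, γ (β - s) = (1 - cb * s) • (Pi.single l τ : V))
    {T : V → V} {L : ℝ} (hL : 0 ≤ L) (hT : ∀ x y, ‖T x - T y‖ ≤ L * ‖x - y‖) {a b m : V}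
    (hTa : ∀ r ∈ Icc (0:ℝ) 1, T (r • (Pi.single k σ : V)) = m + r • (a - m))
    (hTb : ∀ r ∈ Icc (0:ℝ) 1, T (r • (Pi.single l τ : V)) = m + r • (b - m))
    {ε : ℝ} (hε : 0 < ε) :
    ∃ (κ δ : ℝ) (hκ : 0 < κ) (hκ1 : κ < 1) (hδ : 0 < δ) (hδ1 : δ < 1),
      len (fun t => T ((phi κ δ hκ hκ1 hδ hδ1).toFun (γ t))) (Icc α β) ≤
        ENNReal.ofReal (euc (a - m) + (ε + euc (b - m))) := by
  have hMtop := conical_var_lt_top hαβ.le hγ
  obtain ⟨M, hM0, hMe⟩ : ∃ M : ℝ, 0 ≤ M ∧ var γ (Icc α β) = ENNReal.ofReal M :=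
    ⟨_, ENNReal.toReal_nonneg, (ENNReal.ofReal_toReal hMtop.ne).symm⟩
  obtain ⟨s, hs0, s1, s2, s3⟩ : ∃ s : ℝ, 0 < s ∧ s ≤ ra ∧ s ≤ rb ∧ s ≤ (β - α) / 3 :=
    ⟨min (min ra rb) ((β - α) / 3), lt_min (lt_min hra hrb) (by linarith),
      (min_le_left _ _).trans (min_le_left _ _), (min_le_left _ _).trans (min_le_right _ _),
      min_le_right _ _⟩
  have hne : (Icc (α + s) (β - s)).Nonempty := ⟨α + s, le_refl _, by linarith⟩
  have hsub : Icc (α + s) (β - s) ⊆ Icc α β := Icc_subset_Icc (by linarith) (by linarith)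
  obtain ⟨t₀, ht₀, hmax⟩ := isCompact_Icc.exists_isMaxOn hne ((hc.mono hsub).norm)
  have hlt : ‖γ t₀‖ < 1 := hin t₀ ⟨by linarith [ht₀.1], by linarith [ht₀.2]⟩
  obtain ⟨δ, hδ, hδ1, hδ2⟩ : ∃ δ : ℝ, 0 < δ ∧ δ < 1 ∧ δ ≤ 1 - ‖γ t₀‖ :=
    ⟨min ((1 - ‖γ t₀‖)) (1 / 2), lt_min (by linarith) (by norm_num),
      (min_le_right _ _).trans_lt (by norm_num), min_le_left _ _⟩
  obtain ⟨κ, hκ, hκ1, hκ2⟩ : ∃ κ : ℝ, 0 < κ ∧ κ < 1 ∧ 2 * (L * κ * M) ≤ ε := by
    refine ⟨min (1 / 2) (ε / (2 * (L * M + 1))), lt_min (by norm_num) (by positivity),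
      (min_le_left _ _).trans_lt (by norm_num), ?_⟩
    have h1 : min (1 / 2) (ε / (2 * (L * M + 1))) ≤ ε / (2 * (L * M + 1)) := min_le_right _ _
    have h2 : 0 ≤ L * M := mul_nonneg hL hM0
    calc 2 * (L * min (1 / 2) (ε / (2 * (L * M + 1))) * M)
        = (2 * (L * M)) * min (1 / 2) (ε / (2 * (L * M + 1))) := by ring
      _ ≤ (2 * (L * M)) * (ε / (2 * (L * M + 1))) := by gcongr
      _ = (2 * (L * M)) / (2 * (L * M + 1)) * ε := by ring
      _ ≤ 1 * ε := by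
          gcongr
          rw [div_le_one (by positivity)]
          linarith
      _ = ε := one_mul _
  refine ⟨κ, δ, hκ, hκ1, hδ, hδ1, ?_⟩
  have left : len (fun t => T ((phi κ δ hκ hκ1 hδ hδ1).toFun (γ t))) (Icc α (α + s)) ≤
      ENNReal.ofReal (euc (a - m)) := by
    have hb : ∀ t ∈ Icc α (α + s), 0 ≤ 1 - ca * (t - α) ∧ 1 - ca * (t - α) ≤ 1 := by
      intro t ht
      have h0 : t - α ≤ ra := by linarith [ht.2]
      have h1 := mul_le_mul_of_nonneg_left h0 hca.le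
      have h2 := mul_nonneg hca.le (show 0 ≤ t - α by linarith [ht.1])
      constructor <;> linarith
    have e : EqOn (fun t => T ((phi κ δ hκ hκ1 hδ hδ1).toFun (γ t)))
        (fun t => m + (lam κ (chi δ) (1 - ca * (t - α))) • (a - m)) (Icc α (α + s)) := by
      intro t ht
      have h0 : t - α ∈ Icc (0:ℝ) ra := ⟨by linarith [ht.1], by linarith [ht.2]⟩
      have h1 := hga (t - α) h0
      rw [add_sub_cancel] at h1
      obtain ⟨h2, h3⟩ := hb t ht
      simp only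
      rw [h1, phi_axis hσ h2]
      exact hTa _ (lam_mem hκ hκ1 h2 h3)
    rw [len_congr e]
    have := len_segment (a := α) (b := α + s) (c := 0) (d := 1)
      (φ := fun t => lam κ (chi δ) (1 - ca * (t - α))) (Or.inr ?_) ?_ m (a - m)
    · simpa using this
    · intro x _ y _ hxy
      apply lam_mono hκ hκ1 hδ
      nlinarith
    · intro t ht
      obtain ⟨h2, h3⟩ := hb t ht
      exact lam_mem hκ hκ1 h2 h3
  have right : len (fun t => T ((phi κ δ hκ hκ1 hδ hδ1).toFun (γ t))) (Icc (β - s) β) ≤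
      ENNReal.ofReal (euc (b - m)) := by
    have hb : ∀ t ∈ Icc (β - s) β, 0 ≤ 1 - cb * (β - t) ∧ 1 - cb * (β - t) ≤ 1 := by
      intro t ht
      have h0 : β - t ≤ rb := by linarith [ht.1]
      have h1 := mul_le_mul_of_nonneg_left h0 hcb.le
      have h2 := mul_nonneg hcb.le (show 0 ≤ β - t by linarith [ht.2])
      constructor <;> linarith
    have e : EqOn (fun t => T ((phi κ δ hκ hκ1 hδ hδ1).toFun (γ t)))
        (fun t => m + (lam κ (chi δ) (1 - cb * (β - t))) • (b - m)) (Icc (β - s) β) := by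
      intro t ht
      have h0 : β - t ∈ Icc (0:ℝ) rb := ⟨by linarith [ht.2], by linarith [ht.1]⟩
      have h1 := hgb (β - t) h0
      rw [sub_sub_cancel] at h1
      obtain ⟨h2, h3⟩ := hb t ht
      simp only
      rw [h1, phi_axis hτ h2]
      exact hTb _ (lam_mem hκ hκ1 h2 h3)
    rw [len_congr e]
    have := len_segment (a := β - s) (b := β) (c := 0) (d := 1)
      (φ := fun t => lam κ (chi δ) (1 - cb * (β - t))) (Or.inl ?_) ?_ m (b - m)
    · simpa using this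
    · intro x _ y _ hxy
      apply lam_mono hκ hκ1 hδ
      nlinarith
    · intro t ht
      obtain ⟨h2, h3⟩ := hb t ht
      exact lam_mem hκ hκ1 h2 h3
  have mid : len (fun t => T ((phi κ δ hκ hκ1 hδ hδ1).toFun (γ t))) (Icc (α + s) (β - s)) ≤
      ENNReal.ofReal ε := by
    refine (len_le_var _ _).trans ?_
    have e : EqOn (fun t => T ((phi κ δ hκ hκ1 hδ hδ1).toFun (γ t))) ((fun x => T (κ • x)) ∘ γ)
        (Icc (α + s) (β - s)) := by
      intro t ht
      have := hmax ht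
      simp only [mem_ofPred_eq] at this
      simp only [Function.comp]
      rw [phi_of_le (by linarith)]
    rw [var_congr e]
    have h1 : var ((fun x => T (κ • x)) ∘ γ) (Icc (α + s) (β - s)) ≤
        ENNReal.ofReal (L * κ) * var γ (Icc (α + s) (β - s)) := by
      refine var_comp_le (mul_nonneg hL hκ.le) (fun x y => ?_) γ _
      refine (hT _ _).trans ?_
      rw [← smul_sub, norm_smul, Real.norm_of_nonneg hκ.le, mul_assoc]
    have h2 : var γ (Icc (α + s) (β - s)) ≤ ENNReal.ofReal M := by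
      rw [← hMe]; exact eVariationOn.mono _ hsub
    calc _ ≤ 2 * (ENNReal.ofReal (L * κ) * ENNReal.ofReal M) := by
          gcongr; exact h1.trans (by gcongr)
      _ = ENNReal.ofReal (2 * (L * κ * M)) := by
          rw [ENNReal.ofReal_mul (by norm_num : (0:ℝ) ≤ 2),
            ENNReal.ofReal_mul (mul_nonneg hL hκ.le : (0:ℝ) ≤ L * κ), ENNReal.ofReal_ofNat]
      _ ≤ _ := ENNReal.ofReal_le_ofReal hκ2
  rw [len_add (b := α + s) (by linarith) (by linarith),
    len_add (a := α + s) (b := β - s) (by linarith) (by linarith)]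
  calc _ ≤ ENNReal.ofReal (euc (a - m)) + (ENNReal.ofReal ε + ENNReal.ofReal (euc (b - m))) :=
        add_le_add left (add_le_add mid right)
    _ = ENNReal.ofReal (euc (a - m) + (ε + euc (b - m))) := by
        rw [ENNReal.ofReal_add (euc_nonneg _) (by linarith [euc_nonneg (b - m)]),
          ENNReal.ofReal_add hε.le (euc_nonneg _)]

/-- **a good cube**: sharp bound -/
theorem sq_good {a b : V} {γ : ℝ → V} {α β : ℝ} (hαβ : α < β) (hγ : ConicalOn γ (Icc α β))
    (hc : ContinuousOn γ (Icc α β)) (hin : ∀ t ∈ Ioo α β, ‖γ t‖ < 1) (hga : γ α = a)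
    (hgb : γ β = b) {k l : Fin 3} {σ τ : ℝ} (hσ : σ = 1 ∨ σ = -1) (hτ : τ = 1 ∨ τ = -1)
    (hkl : k ≠ l ∨ σ = -τ) (ha1 : a k = σ) (ha2 : ∀ j, j ≠ k → |a j| < 1) (hb1 : b l = τ)
    (hb2 : ∀ j, j ≠ l → |b j| < 1) {ε : ℝ} (hε : 0 < ε) :
    ∃ Θ : ConHomeo (univ : Set V) (univ : Set V), (∀ x, 1 ≤ ‖x‖ → Θ.toFun x = x) ∧
      (∀ x, ‖x‖ < 1 → ‖Θ.toFun x‖ < 1) ∧
      len (Θ.toFun ∘ γ) (Icc α β) ≤ ENNReal.ofReal (euc (a - b) + ε) := by
  have hσa : |σ| = 1 := by rcases hσ with h | h <;> rw [h] <;> norm_num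
  have hτa : |τ| = 1 := by rcases hτ with h | h <;> rw [h] <;> norm_num
  have haj : ∀ j, |a j| ≤ 1 := fun j => by
    by_cases h : j = k
    · rw [h, ha1, hσa]
    · exact (ha2 j h).le
  have hbj : ∀ j, |b j| ≤ 1 := fun j => by
    by_cases h : j = l
    · rw [h, hb1, hτa]
    · exact (hb2 j h).le
  obtain ⟨Ψ, Ψnorm, Ψca, Ψcb, L1, hL1, hL1'⟩ := exists_radial hσ hτ hkl ha1 ha2 hb1 hb2
  have Ψinv : ∀ x, ‖Ψ.invFun x‖ = ‖x‖ := fun x => by
    rw [← Ψnorm (Ψ.invFun x), Ψ.right_inv (mem_univ x)]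
  obtain ⟨γ1con, γ1cont⟩ := ConHomeo.comp_conical (Θ := Ψ.symm) hγ hc
  have γ1a : (Ψ.symm.toFun ∘ γ) α = Pi.single k σ := by
    show Ψ.invFun (γ α) = _
    rw [hga]
    have := Ψca 1 zero_le_one
    rw [one_smul, one_smul] at this
    rw [← this, Ψ.left_inv (mem_univ _)]
  have γ1b : (Ψ.symm.toFun ∘ γ) β = Pi.single l τ := by
    show Ψ.invFun (γ β) = _
    rw [hgb]
    have := Ψcb 1 zero_le_one
    rw [one_smul, one_smul] at this
    rw [← this, Ψ.left_inv (mem_univ _)]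
  have γ1in : ∀ t ∈ Ioo α β, ‖(Ψ.symm.toFun ∘ γ) t‖ < 1 := fun t ht => by
    show ‖Ψ.invFun (γ t)‖ < 1
    rw [Ψinv]; exact hin t ht
  obtain ⟨N, NId, NIn, ⟨ra, hra, ca, hca, hca2, hgerma⟩, rb, hrb, cb, hcb, hcb2, hgermb⟩ :=
    exists_germs hαβ γ1con γ1cont γ1in hσ hτ hkl γ1a γ1b
  obtain ⟨γ3con, γ3cont⟩ := ConHomeo.comp_conical (Θ := N) γ1con γ1cont
  have γ3in : ∀ t ∈ Ioo α β, ‖(N.toFun ∘ (Ψ.symm.toFun ∘ γ)) t‖ < 1 := fun t ht =>
    NIn _ (γ1in t ht)
  -- the centre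
  have hmj : ∀ j, -1 < ((1 / 2 : ℝ) • (a + b)) j ∧ ((1 / 2 : ℝ) • (a + b)) j < 1 := by
    intro j
    have e : ((1 / 2 : ℝ) • (a + b)) j = (a j + b j) / 2 := by simp; ring
    rw [e]
    have h1 := abs_le.1 (haj j)
    have h2 := abs_le.1 (hbj j)
    by_cases hj : j = k
    · by_cases hkl' : j = l
      · have h := hkl.resolve_left (fun h => h (hj.symm.trans hkl'))
        have e1 : a j = σ := by rw [hj, ha1]
        have e2 : b j = τ := by rw [hkl', hb1]
        rw [e1, e2, h]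
        constructor <;> norm_num
      · have := abs_lt.1 (hb2 j hkl')
        constructor <;> linarith [h1.1, h1.2, this.1, this.2]
    · have := abs_lt.1 (ha2 j hj)
      constructor <;> linarith [h2.1, h2.2, this.1, this.2]
  obtain ⟨Mm, MmId, MmIn, Mray, L3, hL3, hL3'⟩ := exists_center hmj
  have hT : ∀ x y, ‖Mm.toFun (Ψ.toFun x) - Mm.toFun (Ψ.toFun y)‖ ≤ (L3 * L1) * ‖x - y‖ := by
    intro x y
    calc ‖Mm.toFun (Ψ.toFun x) - Mm.toFun (Ψ.toFun y)‖
        ≤ L3 * ‖Ψ.toFun x - Ψ.toFun y‖ := hL3' _ _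
      _ ≤ L3 * (L1 * ‖x - y‖) := by gcongr; exact hL1' _ _
      _ = L3 * L1 * ‖x - y‖ := by ring
  obtain ⟨κ, δ, hκ, hκ1, hδ, hδ1, hlen⟩ := sq_axis hαβ γ3con γ3cont γ3in hσ hτ hra hca hca2
    hgerma hrb hcb hcb2 hgermb (T := fun x => Mm.toFun (Ψ.toFun x)) (mul_nonneg hL3 hL1) hT
    (a := a) (b := b) (m := (1 / 2 : ℝ) • (a + b))
    (fun r hr => by
      rw [Ψca r hr.1]
      exact Mray a haj ⟨k, by rw [ha1, hσa]⟩ r hr)
    (fun r hr => by
      rw [Ψcb r hr.1]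
      exact Mray b hbj ⟨l, by rw [hb1, hτa]⟩ r hr) hε
  refine ⟨(((Ψ.symm.trans N).trans (phi κ δ hκ hκ1 hδ hδ1)).trans Ψ).trans Mm, fun x hx => ?_,
    fun x hx => ?_, ?_⟩
  · show Mm.toFun (Ψ.toFun ((phi κ δ hκ hκ1 hδ hδ1).toFun (N.toFun (Ψ.invFun x)))) = x
    have h1 : 1 ≤ ‖Ψ.invFun x‖ := by rw [Ψinv]; exact hx
    rw [NId _ h1, phi_of_one_le h1, Ψ.right_inv (mem_univ x), MmId x hx]
  · show ‖Mm.toFun (Ψ.toFun ((phi κ δ hκ hκ1 hδ hδ1).toFun (N.toFun (Ψ.invFun x))))‖ < 1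
    apply MmIn
    rw [Ψnorm]
    apply phi_norm_lt
    apply NIn
    rw [Ψinv]; exact hx
  · refine (le_of_eq ?_).trans (hlen.trans (le_of_eq ?_))
    · rfl
    · congr 1
      have e1 : a - (1 / 2 : ℝ) • (a + b) = (1 / 2 : ℝ) • (a - b) := by module
      have e2 : b - (1 / 2 : ℝ) • (a + b) = (-(1 / 2) : ℝ) • (a - b) := by module
      rw [e1, e2, euc_smul, euc_smul, abs_neg, abs_of_pos (by norm_num : (0:ℝ) < 1 / 2)]
      ring

end P073.Net
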